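import Vale.Agent.P146.H326.Tou
import Vale.Agent.P146.H816.SkT

/-!
Plan R1, block C: the moments `M` and the touches `δ` of the pairs of sites, as used by the
cleaning (helper816), and their sums over the pairs.
-/

open MeasureTheory ProbabilityTheory

namespace Vale.Agent.P146.H326

open Vale.Agent.P157.Lv Vale.Agent.P146.H712 Vale.Agent.P146.H325 Vale.Agent.P146.H332
  Vale.Agent.P146.R1C Vale.Agent.P146.R1 Vale.Agent.P146.H425 Vale.Agent.P146.H816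

set_option linter.unusedSectionVars false

variable {n : ℕ} {k : ℝ} {q : Par} {F : (Pair n → ℝ) → ℝ} {D : Pair n → (Pair n → ℝ) → ℝ}
  {B L ε : ℝ}

/-- the law change with factor 2 -/
def LCh (q : Par) (F : (Pair n → ℝ) → ℝ) (ε : ℝ) : Prop :=
  ∀ (b b' : Fin n) (f : (K4 (Pair n) → ℝ) → ℝ) (K : ℝ), EG f → (∀ w, 0 ≤ f w) → (∀ w, f w ≤ K) →
    Ew q F (Av (lf (row b ∪ row b')) f) ≤ 2 * Ew q F f + ε * K * Ew q F (fun _ => 1)

lemma P2_k2 (w : K4 (Pair n) → ℝ) : P2 q w = H712.lp (k2 q) w := p2_lp _ _ _ w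

lemma P3_k3 (w : K4 (Pair n) → ℝ) : P3 q w = H712.lp (k3 q) w := p3_lp _ _ _ _ w

lemma k2_sum (hq : q.Ok) : k2 q 0 ^ 2 + k2 q 1 ^ 2 + k2 q 2 ^ 2 + k2 q 3 ^ 2 = q.s1 := by
  have h0 := Real.sq_sqrt hq.h0
  have h1 := Real.sq_sqrt (sub_nonneg.2 hq.h01)
  have h2 := Real.sq_sqrt (sub_nonneg.2 hq.h1)
  show (√q.t0) ^ 2 + (√(q.t1 - q.t0)) ^ 2 + (√(q.s1 - q.t1)) ^ 2 + (0 : ℝ) ^ 2 = q.s1
  rw [h0, h1, h2]
  ring

lemma k3_sum (hq : q.Ok) : k3 q 0 ^ 2 + k3 q 1 ^ 2 + k3 q 2 ^ 2 + k3 q 3 ^ 2 = q.s2 := by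
  have h0 := Real.sq_sqrt hq.h0
  have h1 := Real.sq_sqrt (sub_nonneg.2 hq.h01)
  have h2 := Real.sq_sqrt (sub_nonneg.2 hq.h1)
  have h3 := Real.sq_sqrt (sub_nonneg.2 hq.h12)
  show (√q.t0) ^ 2 + (√(q.t1 - q.t0)) ^ 2 + (√(q.s1 - q.t1)) ^ 2 + (√(q.s2 - q.s1)) ^ 2 = q.s2
  rw [h0, h1, h2, h3]
  ring

/-- `s1 k² |C_1|²` -/
noncomputable def Y1 (k : ℝ) (q : Par) (w : K4 (Pair n) → ℝ) : ℝ :=
  q.s1 * (k ^ 2 * fr (AA k q.x q.s1 (H712.lp (k2 q) w)))

/-- `s2 k² |C_2|²` -/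
noncomputable def Y2 (k : ℝ) (q : Par) (w : K4 (Pair n) → ℝ) : ℝ :=
  q.s2 * (k ^ 2 * fr (AA k q.x q.s2 (H712.lp (k3 q) w)))

/-- the sixth moments -/
noncomputable def Msk (k : ℝ) (q : Par) (F : (Pair n → ℝ) → ℝ) (b b' : Fin n) : ℝ :=
  4 * ((∫ w, ph q F b b' w ∂(gI (K4 (Pair n)))) +
    1222 * ((∫ w, ph q F b b' w * Y1 k q w ^ 3 ∂(gI (K4 (Pair n)))) +
      ∫ w, ph q F b b' w * Y2 k q w ^ 3 ∂(gI (K4 (Pair n)))))

/-- the squared touches -/
noncomputable def d2 (k : ℝ) (q : Par) (F : (Pair n → ℝ) → ℝ) (b b' : Fin n) : ℝ :=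
  q.s1 * ((∫ w, ph q F b b' w * tch k q.x q.s1 (k2 q) b b' w ∂(gI (K4 (Pair n)))) +
    ∫ w, ph q F b b' w * tch k q.x q.s1 (k2 q) b' b w ∂(gI (K4 (Pair n)))) +
  q.s2 * ((∫ w, ph q F b b' w * tch k q.x q.s2 (k3 q) b b' w ∂(gI (K4 (Pair n)))) +
    ∫ w, ph q F b b' w * tch k q.x q.s2 (k3 q) b' b w ∂(gI (K4 (Pair n))))

/-- the touches -/
noncomputable def dsk (k : ℝ) (q : Par) (F : (Pair n → ℝ) → ℝ) (b b' : Fin n) : ℝ :=
  √(d2 k q F b b')

section basic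

variable (h : C11 F D B L) (hq : q.Ok)
include h hq

lemma eg_ph (b b' : Fin n) : EG (ph q F b b') := eg_Av _ (eg_dens h hq.x0)

lemma ph_nonneg (b b' : Fin n) (w : K4 (Pair n) → ℝ) : 0 ≤ ph q F b b' w :=
  H712.Av_nonneg (fun w => by rw [dens_eq]; exact (Real.exp_pos _).le) w

omit h hq in
lemma ind_ph1 (b b' : Fin n) : Ind (lf (row b)) (ph q F b b') :=
  Ind.mono (ind_Av _ _) (lf_subset Finset.subset_union_left)

omit h hq in
lemma ind_ph2 (b b' : Fin n) : Ind (lf (row b')) (ph q F b b') :=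
  Ind.mono (ind_Av _ _) (lf_subset Finset.subset_union_right)

lemma int_ph1 (b b' : Fin n) : ∫ w, ph q F b b' w ∂(gI (K4 (Pair n))) = Ew q F (fun _ => 1) := by
  unfold ph Ew
  rw [integral_Av _ (eg_dens h hq.x0)]
  simp only [mul_one]

lemma int_phf (b b' : Fin n) {f : (K4 (Pair n) → ℝ) → ℝ} (hf : EG f) :
    ∫ w, ph q F b b' w * f w ∂(gI (K4 (Pair n))) = Ew q F (Av (lf (row b ∪ row b')) f) := by
  unfold ph Ew
  exact (H712.integral_mul_Av (eg_dens h hq.x0) hf _).symm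

omit h in
lemma s2_pos (hs1 : 0 < q.s1) : 0 < q.s2 := hs1.trans_le hq.h12

omit h in
lemma a1_eq (b b' : Fin n) (w : K4 (Pair n) → ℝ) (i : Fin n) : a1 k q b b' w i =
    Av (lf (row b')) (fun w => AA k q.x q.s1 (H712.lp (k2 q) w) i b) w := by
  have h1 := Av_lf_2 (f := fun z => AA k q.x q.s1 z i b) (eg_AA' i b) hq.h0 hq.h01 hq.h1 (row b') w
  have h2 : ∀ w : K4 (Pair n) → ℝ, p2 q.t0 q.t1 q.s1 w = H712.lp (k2 q) w :=
    fun w => p2_lp _ _ _ w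
  simp only [h2] at h1
  rw [h1]
  show AvP q.s1 (row b') (fun z => AA k q.x q.s1 z i b) (P2 q w) = _
  rw [P2_k2]

omit h in
lemma a2_eq (b b' : Fin n) (w : K4 (Pair n) → ℝ) (i : Fin n) : a2 k q b b' w i =
    Av (lf (row b')) (fun w => AA k q.x q.s2 (H712.lp (k3 q) w) i b) w := by
  have h1 := Av_lf_3 (f := fun z => AA k q.x q.s2 z i b) (eg_AA' i b) hq.h0 hq.h01 hq.h1 hq.h12
    (row b') w
  have h2 : ∀ w : K4 (Pair n) → ℝ, p3 q.t0 q.t1 q.s1 q.s2 w = H712.lp (k3 q) w :=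
    fun w => p3_lp _ _ _ _ w
  simp only [h2] at h1
  rw [h1]
  show AvP q.s2 (row b') (fun z => AA k q.x q.s2 z i b) (P3 q w) = _
  rw [P3_k3]

omit h hq in
lemma Y1_nonneg (hq : q.Ok) (w : K4 (Pair n) → ℝ) : 0 ≤ Y1 k q w :=
  mul_nonneg ((hq.h0.trans hq.h01).trans hq.h1) (mul_nonneg (sq_nonneg _) (H325.fr_nonneg _))

omit h hq in
lemma Y2_nonneg (hq : q.Ok) (w : K4 (Pair n) → ℝ) : 0 ≤ Y2 k q w :=
  mul_nonneg (((hq.h0.trans hq.h01).trans hq.h1).trans hq.h12)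
    (mul_nonneg (sq_nonneg _) (H325.fr_nonneg _))

omit h hq in
lemma eg_Y1 : EG (Y1 (n := n) k q) := eg_Y _

omit h hq in
lemma eg_Y2 : EG (Y2 (n := n) k q) := eg_Y _

lemma int_ph_nonneg (b b' : Fin n) {f : (K4 (Pair n) → ℝ) → ℝ} (h0 : ∀ w, 0 ≤ f w) :
    0 ≤ ∫ w, ph q F b b' w * f w ∂(gI (K4 (Pair n))) :=
  integral_nonneg fun w => mul_nonneg (ph_nonneg h hq b b' w) (h0 w)

/-- the sixth moments of the columns of the pair -/
lemma six (hs1 : 0 < q.s1) (b b' : Fin n) (c : Fin n) (hi : Ind (lf (row c)) (ph q F b b')) :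
    (∫ w, ph q F b b' w * vn (H816.col (A1 k q w) c) ^ 3 ∂(gI (K4 (Pair n))) ≤ Msk k q F b b') ∧
    ∫ w, ph q F b b' w * vn (H816.col (A2 k q w) c) ^ 3 ∂(gI (K4 (Pair n))) ≤ Msk k q F b b' := by
  have m1 := col6 (k := k) (x := q.x) (k2 q) (k2_sum hq) hs1 hq.x0.le hq.x1 (eg_ph h hq b b')
    (ph_nonneg h hq b b') hi
  have m2 := col6 (k := k) (x := q.x) (k3 q) (k3_sum hq) (s2_pos hq hs1) hq.x0.le hq.x1
    (eg_ph h hq b b') (ph_nonneg h hq b b') hi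
  have y1 := int_ph_nonneg h hq b b' (f := fun w => Y1 k q w ^ 3)
    fun w => pow_nonneg (Y1_nonneg hq w) 3
  have y2 := int_ph_nonneg h hq b b' (f := fun w => Y2 k q w ^ 3)
    fun w => pow_nonneg (Y2_nonneg hq w) 3
  have e1 : ∀ w : K4 (Pair n) → ℝ, A1 k q w = AA k q.x q.s1 (H712.lp (k2 q) w) := fun w => by
    unfold A1; rw [P2_k2]
  have e2 : ∀ w : K4 (Pair n) → ℝ, A2 k q w = AA k q.x q.s2 (H712.lp (k3 q) w) := fun w => by
    unfold A2; rw [P3_k3]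
  simp only [e1, e2]
  refine ⟨m1.trans ?_, m2.trans ?_⟩
  · unfold Msk
    have : ∫ w, ph q F b b' w * (q.s1 * (k ^ 2 * fr (AA k q.x q.s1 (H712.lp (k2 q) w)))) ^ 3
      ∂(gI (K4 (Pair n))) = ∫ w, ph q F b b' w * Y1 k q w ^ 3 ∂(gI (K4 (Pair n))) := rfl
    rw [this]
    linarith
  · unfold Msk
    have : ∫ w, ph q F b b' w * (q.s2 * (k ^ 2 * fr (AA k q.x q.s2 (H712.lp (k3 q) w)))) ^ 3
      ∂(gI (K4 (Pair n))) = ∫ w, ph q F b b' w * Y2 k q w ^ 3 ∂(gI (K4 (Pair n))) := rfl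
    rw [this]
    linarith

/-- the moments of the clean columns of the pair -/
lemma six_cl (hs1 : 0 < q.s1) (b b' : Fin n) (c c' : Fin n)
    (hi : Ind (lf (row c)) (ph q F b b')) (hi' : Ind (lf (row c')) (ph q F b b')) :
    (∫ w, ph q F b b' w * H706.vs (a1 k q c c' w) ^ 3 ∂(gI (K4 (Pair n))) ≤ Msk k q F b b') ∧
    ∫ w, ph q F b b' w * H706.vs (a2 k q c c' w) ^ 3 ∂(gI (K4 (Pair n))) ≤ Msk k q F b b' := by
  obtain ⟨m1, m2⟩ := six (k := k) h hq hs1 b b' c hi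
  have n1 := mom_Av (A := fun w => H816.col (A1 k q w) c) (eg_ph h hq b b')
    (ph_nonneg h hq b b') hi' fun i => eg_A1 i c
  have n2 := mom_Av (A := fun w => H816.col (A2 k q w) c) (eg_ph h hq b b')
    (ph_nonneg h hq b b') hi' fun i => eg_A2 i c
  have e1 : ∀ w : K4 (Pair n) → ℝ, A1 k q w = AA k q.x q.s1 (H712.lp (k2 q) w) := fun w => by
    unfold A1; rw [P2_k2]
  have e2 : ∀ w : K4 (Pair n) → ℝ, A2 k q w = AA k q.x q.s2 (H712.lp (k3 q) w) := fun w => by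
    unfold A2; rw [P3_k3]
  have f1 : ∀ w, a1 k q c c' w =
      fun i => Av (lf (row c')) (fun w => H816.col (A1 k q w) c i) w := by
    intro w
    funext i
    rw [a1_eq hq]
    simp only [e1]
    rfl
  have f2 : ∀ w, a2 k q c c' w =
      fun i => Av (lf (row c')) (fun w => H816.col (A2 k q w) c i) w := by
    intro w
    funext i
    rw [a2_eq hq]
    simp only [e2]
    rfl
  simp only [f1, f2]
  exact ⟨n1.trans m1, n2.trans m2⟩

/-- the touches of the pair -/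
lemma two_t (b b' : Fin n) (c c' : Fin n) (hi' : Ind (lf (row c')) (ph q F b b')) :
    (∫ w, ph q F b b' w * H706.vs (H816.col (A1 k q w) c - a1 k q c c' w)
      ∂(gI (K4 (Pair n))) ≤
      q.s1 * ∫ w, ph q F b b' w * tch k q.x q.s1 (k2 q) c c' w ∂(gI (K4 (Pair n)))) ∧
    ∫ w, ph q F b b' w * H706.vs (H816.col (A2 k q w) c - a2 k q c c' w)
      ∂(gI (K4 (Pair n))) ≤
      q.s2 * ∫ w, ph q F b b' w * tch k q.x q.s2 (k3 q) c c' w ∂(gI (K4 (Pair n))) := by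
  have t1 := touch (k := k) (b := c) hq.x0.le (k2_sum hq) (eg_ph h hq b b')
    (ph_nonneg h hq b b') hi'
  have t2 := touch (k := k) (b := c) hq.x0.le (k3_sum hq) (eg_ph h hq b b')
    (ph_nonneg h hq b b') hi'
  refine ⟨le_trans (le_of_eq ?_) t1, le_trans (le_of_eq ?_) t2⟩
  · refine integral_congr_ae (Filter.Eventually.of_forall fun w => ?_)
    simp only
    congr 1
    refine Finset.sum_congr rfl fun i _ => ?_
    show (A1 k q w i c - a1 k q c c' w i) ^ 2 = _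
    rw [a1_eq hq]
    unfold A1
    rw [P2_k2]
  · refine integral_congr_ae (Filter.Eventually.of_forall fun w => ?_)
    simp only
    congr 1
    refine Finset.sum_congr rfl fun i _ => ?_
    show (A2 k q w i c - a2 k q c c' w i) ^ 2 = _
    rw [a2_eq hq]
    unfold A2
    rw [P3_k3]

lemma d2_parts (b b' : Fin n) :
    (0 ≤ q.s1 * ∫ w, ph q F b b' w * tch k q.x q.s1 (k2 q) b b' w ∂(gI (K4 (Pair n)))) ∧
    (0 ≤ q.s1 * ∫ w, ph q F b b' w * tch k q.x q.s1 (k2 q) b' b w ∂(gI (K4 (Pair n)))) ∧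
    (0 ≤ q.s2 * ∫ w, ph q F b b' w * tch k q.x q.s2 (k3 q) b b' w ∂(gI (K4 (Pair n)))) ∧
    0 ≤ q.s2 * ∫ w, ph q F b b' w * tch k q.x q.s2 (k3 q) b' b w ∂(gI (K4 (Pair n))) := by
  have h1 : 0 ≤ q.s1 := (hq.h0.trans hq.h01).trans hq.h1
  have h2 : 0 ≤ q.s2 := h1.trans hq.h12
  exact ⟨mul_nonneg h1 (int_ph_nonneg h hq b b' (tch_nonneg _ _ _)),
    mul_nonneg h1 (int_ph_nonneg h hq b b' (tch_nonneg _ _ _)),
    mul_nonneg h2 (int_ph_nonneg h hq b b' (tch_nonneg _ _ _)),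
    mul_nonneg h2 (int_ph_nonneg h hq b b' (tch_nonneg _ _ _))⟩

lemma dsk_sq (b b' : Fin n) : dsk k q F b b' ^ 2 = d2 k q F b b' := by
  unfold dsk
  rw [Real.sq_sqrt]
  obtain ⟨p1, p2, p3, p4⟩ := d2_parts (k := k) h hq b b'
  unfold d2
  linarith

/-- **The moments and the touches of the pairs.** -/
theorem pr_sk (hs1 : 0 < q.s1) : PrSk k q F (Msk k q F) (dsk k q F) := by
  intro b b' hb
  have i1 := ind_ph1 (q := q) (F := F) b b'
  have i2 := ind_ph2 (q := q) (F := F) b b'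
  obtain ⟨m1, m2⟩ := six (k := k) h hq hs1 b b' b i1
  obtain ⟨m3, m4⟩ := six (k := k) h hq hs1 b b' b' i2
  obtain ⟨m5, m6⟩ := six_cl (k := k) h hq hs1 b b' b b' i1 i2
  obtain ⟨m7, m8⟩ := six_cl (k := k) h hq hs1 b b' b' b i2 i1
  obtain ⟨t1, t2⟩ := two_t (k := k) h hq b b' b b' i2
  obtain ⟨t3, t4⟩ := two_t (k := k) h hq b b' b' b i1
  obtain ⟨p1, p2, p3, p4⟩ := d2_parts (k := k) h hq b b'
  have hd := dsk_sq (k := k) h hq b b'
  unfold d2 at hd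
  refine ⟨eg_ph h hq b b', ph_nonneg h hq b b', fun i => eg_A1 i b, fun i => eg_A2 i b,
    fun i => eg_A1 i b', fun i => eg_A2 i b', fun i => eg_P2 (eg_cl b' b i),
    fun i => eg_P3 (eg_cl b' b i), m1, m2, m3, m4, m5, m6, m7, m8, Real.sqrt_nonneg _,
    ?_, ?_, ?_, ?_⟩
  · refine t1.trans ?_
    rw [hd]
    linarith
  · refine t2.trans ?_
    rw [hd]
    linarith
  · refine t3.trans ?_
    rw [hd]
    linarith
  · refine t4.trans ?_
    rw [hd]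
    linarith

end basic

/-! ### the numbers -/

section num

/-- the bound of the sixth moments -/
noncomputable def m6k (k : ℝ) (q : Par) (F : (Pair n → ℝ) → ℝ) (ε : ℝ) : ℝ :=
  4 * (1 + 1222 * (2 * En q F (fun w => Y1 k q w ^ 3) + 2 * En q F (fun w => Y2 k q w ^ 3) +
    2 * ε * (k ^ 2 * n ^ 2) ^ 3))

/-- the bound of the sum of the squared touches -/
noncomputable def dlk (k : ℝ) (q : Par) (F : (Pair n → ℝ) → ℝ) (ε : ℝ) : ℝ :=
  8 * (q.s1 * En q F (rat k q.x q.s1 (k2 q)) + q.s2 * En q F (rat k q.x q.s2 (k3 q))) +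
    36 * (ε * (k ^ 2 * n ^ 4))

lemma Y_le {s : ℝ} (hs : s ≤ 1) (x : ℝ) (z : Pair n → ℝ) :
    s * (k ^ 2 * fr (AA k x s z)) ≤ k ^ 2 * n ^ 2 := by
  have h1 := fr_AA_le (k := k) (x := x) (s := s) z
  have h2 := H325.fr_nonneg (AA k x s z)
  have h3 : k ^ 2 * fr (AA k x s z) ≤ k ^ 2 * n ^ 2 := mul_le_mul_of_nonneg_left h1 (sq_nonneg k)
  have h4 : 0 ≤ k ^ 2 * fr (AA k x s z) := mul_nonneg (sq_nonneg k) h2
  have h5 := mul_le_of_le_one_left h4 hs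
  linarith

lemma Ew_En (h : C11 F D B L) (hx : 0 < q.x) (f : (K4 (Pair n) → ℝ) → ℝ) :
    Ew q F f = Ew q F (fun _ => 1) * En q F f := by
  have hE := Ew_one_pos (q := q) h hx
  unfold En
  field_simp

variable (h : C11 F D B L) (hq : q.Ok) (hl : LCh q F ε) (hε : 0 ≤ ε)
include h hq hl

lemma ph_le (b b' : Fin n) {f : (K4 (Pair n) → ℝ) → ℝ} {K : ℝ} (hf : EG f) (h0 : ∀ w, 0 ≤ f w)
    (hK : ∀ w, f w ≤ K) :
    ∫ w, ph q F b b' w * f w ∂(gI (K4 (Pair n))) ≤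
      Ew q F (fun _ => 1) * (2 * En q F f + ε * K) := by
  rw [int_phf h hq b b' hf]
  refine (hl b b' f K hf h0 hK).trans (le_of_eq ?_)
  rw [Ew_En h hq.x0 f]
  ring

/-- the sixth moments -/
theorem M_le (b b' : Fin n) : Msk k q F b b' ≤ Ew q F (fun _ => 1) * m6k k q F ε := by
  have hs1 : 0 ≤ q.s1 := (hq.h0.trans hq.h01).trans hq.h1
  have hs2 : 0 ≤ q.s2 := hs1.trans hq.h12
  have a1 := ph_le h hq hl b b' (f := fun w => Y1 k q w ^ 3) (K := (k ^ 2 * n ^ 2) ^ 3)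
    (eg_Y1.pow 3) (fun w => pow_nonneg (Y1_nonneg hq w) 3)
    fun w => pow_le_pow_left₀ (Y1_nonneg hq w) (Y_le (hq.h12.trans hq.h2) _ _) 3
  have a2 := ph_le h hq hl b b' (f := fun w => Y2 k q w ^ 3) (K := (k ^ 2 * n ^ 2) ^ 3)
    (eg_Y2.pow 3) (fun w => pow_nonneg (Y2_nonneg hq w) 3)
    fun w => pow_le_pow_left₀ (Y2_nonneg hq w) (Y_le hq.h2 _ _) 3
  unfold Msk m6k
  rw [int_ph1 h hq]
  nlinarith

include hε

/-- **The sum of the squared touches.** -/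
theorem d_le : ∑ b : Fin n, ∑ b' ∈ Finset.univ.erase b, dsk k q F b b' ^ 2 ≤
    Ew q F (fun _ => 1) * dlk k q F ε := by
  have hs1 : 0 ≤ q.s1 := (hq.h0.trans hq.h01).trans hq.h1
  have hs2 : 0 ≤ q.s2 := hs1.trans hq.h12
  have hs1' : q.s1 ≤ 1 := hq.h12.trans hq.h2
  have hE := Ew_one_pos (q := q) h hq.x0
  have hp := eg_dens (q := q) h hq.x0
  have p0 : ∀ w, 0 ≤ dens q F w := fun w => by rw [dens_eq]; exact (Real.exp_pos _).le
  obtain ⟨E, hEE⟩ : ∃ E, E = Ew q F (fun _ : K4 (Pair n) → ℝ => (1 : ℝ)) := ⟨_, rfl⟩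
  rw [← hEE] at hE ⊢
  -- one position
  have key : ∀ (s : ℝ) (c : Fin 4 → ℝ),
      ∑ b : Fin n, ∑ b' ∈ Finset.univ.erase b,
        ((∫ w, ph q F b b' w * tch k q.x s c b b' w ∂(gI (K4 (Pair n)))) +
          ∫ w, ph q F b b' w * tch k q.x s c b' b w ∂(gI (K4 (Pair n)))) ≤
        E * (8 * En q F (rat k q.x s c) + 18 * (ε * (k ^ 2 * n ^ 4))) := by
    intro s c
    have b1 : ∀ b b' : Fin n, (∫ w, ph q F b b' w * tch k q.x s c b b' w ∂(gI (K4 (Pair n)))) +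
        ∫ w, ph q F b b' w * tch k q.x s c b' b w ∂(gI (K4 (Pair n))) ≤
        2 * Ew q F (tch k q.x s c b b') + 2 * Ew q F (tch k q.x s c b' b) +
          E * (18 * (ε * (k ^ 2 * n ^ 2))) := by
      intro b b'
      rw [int_phf h hq b b' (eg_tch hq.x0.le c b b'), int_phf h hq b b' (eg_tch hq.x0.le c b' b)]
      have c1 := hl b b' (tch k q.x s c b b') (9 * k ^ 2 * n ^ 2) (eg_tch hq.x0.le c b b')
        (tch_nonneg c b b') (tch_le hq.x0.le hq.x1 c b b')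
      have c2 := hl b b' (tch k q.x s c b' b) (9 * k ^ 2 * n ^ 2) (eg_tch hq.x0.le c b' b)
        (tch_nonneg c b' b) (tch_le hq.x0.le hq.x1 c b' b)
      rw [← hEE] at c1 c2
      linarith
    have b2 : ∑ b : Fin n, ∑ b' ∈ Finset.univ.erase b, Ew q F (tch k q.x s c b b') ≤
        2 * Ew q F (rat k q.x s c) := by
      have c1 : ∑ b : Fin n, ∑ b' ∈ Finset.univ.erase b, Ew q F (tch k q.x s c b b') =
          ∫ w, dens q F w * ∑ b : Fin n, ∑ b' ∈ Finset.univ.erase b, tch k q.x s c b b' w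
            ∂(gI (K4 (Pair n))) :=
        (int_sum_pairs hp fun b b' => eg_tch hq.x0.le c b b').symm
      rw [c1]
      unfold Ew
      rw [← integral_const_mul]
      refine integral_mono (hp.mul (eg_sum_pairs fun b b' => eg_tch hq.x0.le c b b')).integrable
        ((hp.mul (eg_rat hq.x0.le c)).integrable.const_mul 2) fun w => ?_
      have c2 := mul_le_mul_of_nonneg_left (sum_tch (k := k) (x := q.x) (s := s) c w) (p0 w)
      simp only
      linarith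
    have b3 : ∑ b : Fin n, ∑ b' ∈ Finset.univ.erase b, Ew q F (tch k q.x s c b' b) =
        ∑ b : Fin n, ∑ b' ∈ Finset.univ.erase b, Ew q F (tch k q.x s c b b') :=
      sum_pairs_swap fun b b' => Ew q F (tch k q.x s c b' b)
    have b4 : ∑ b : Fin n, ∑ b' ∈ Finset.univ.erase b, E * (18 * (ε * (k ^ 2 * n ^ 2))) ≤
        E * (18 * (ε * (k ^ 2 * n ^ 4))) := by
      have c0 : (0 : ℝ) ≤ E * (18 * (ε * (k ^ 2 * n ^ 2))) := by positivity
      have c1 : ∀ b : Fin n, ∑ b' ∈ Finset.univ.erase b, E * (18 * (ε * (k ^ 2 * n ^ 2))) ≤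
          n * (E * (18 * (ε * (k ^ 2 * n ^ 2)))) := by
        intro b
        rw [Finset.sum_const, nsmul_eq_mul]
        refine mul_le_mul_of_nonneg_right ?_ c0
        have h2 := Finset.card_le_univ (Finset.univ.erase b)
        rw [Fintype.card_fin] at h2
        exact_mod_cast h2
      refine (Finset.sum_le_sum fun b _ => c1 b).trans (le_of_eq ?_)
      rw [Finset.sum_const, Finset.card_univ, Fintype.card_fin, nsmul_eq_mul]
      ring
    refine (Finset.sum_le_sum fun b _ => Finset.sum_le_sum fun b' _ => b1 b b').trans ?_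
    simp only [Finset.sum_add_distrib, ← Finset.mul_sum] at b4 ⊢
    rw [b3]
    have b5 := Ew_En h hq.x0 (rat k q.x s c)
    rw [← hEE] at b5
    rw [b5] at b2
    linarith
  have k1 := key q.s1 (k2 q)
  have k2' := key q.s2 (k3 q)
  have e1 : ∑ b : Fin n, ∑ b' ∈ Finset.univ.erase b, dsk k q F b b' ^ 2 =
      q.s1 * (∑ b : Fin n, ∑ b' ∈ Finset.univ.erase b,
        ((∫ w, ph q F b b' w * tch k q.x q.s1 (k2 q) b b' w ∂(gI (K4 (Pair n)))) +
          ∫ w, ph q F b b' w * tch k q.x q.s1 (k2 q) b' b w ∂(gI (K4 (Pair n))))) +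
      q.s2 * (∑ b : Fin n, ∑ b' ∈ Finset.univ.erase b,
        ((∫ w, ph q F b b' w * tch k q.x q.s2 (k3 q) b b' w ∂(gI (K4 (Pair n)))) +
          ∫ w, ph q F b b' w * tch k q.x q.s2 (k3 q) b' b w ∂(gI (K4 (Pair n))))) := by
    simp only [dsk_sq h hq]
    unfold d2
    simp only [Finset.sum_add_distrib, ← Finset.mul_sum]
  rw [e1]
  have l1 := mul_le_mul_of_nonneg_left k1 hs1
  have l2 := mul_le_mul_of_nonneg_left k2' hs2
  have m0 : 0 ≤ E * (18 * (ε * (k ^ 2 * (n : ℝ) ^ 4))) := by positivity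
  have m1 := mul_le_of_le_one_left m0 hs1'
  have m2 := mul_le_of_le_one_left m0 hq.h2
  unfold dlk
  linarith

end num

end Vale.Agent.P146.H326
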