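import Vale.Agent.P146.H326.Ev5
import Vale.Agent.P146.H706.Alg7
import Vale.Agent.P146.H260.XQ

set_option linter.all false

/-!
# P146: the quadratic form of the resolvent is large, `D = 7`
-/

open MeasureTheory ProbabilityTheory Finset Matrix

namespace Vale.Agent.P146.H326.B7

open Vale.Agent.P157 (spin)
open Vale.Agent.P157.Lv Vale.Agent.P157.Lv.Sy
open Vale.Agent.P157.Par (Path Exponents)
open Vale.Agent.P146.Sk
open Vale.Agent.P166.F (Lam)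
open Vale.Agent.P146.Sk.Gen (GI gz gl r0 gS gF gOb gIsOpt GD gV)
open Vale.Agent.P146.Pw2
open Vale.Agent.P146.R3.H729.TbLow
open Vale.Agent.P146.R3.H924.Tb9 (tq_one)
open Vale.Agent.P146.H260.Win (zeta_facts3)

/-- **The equations of the eigenvalues.** -/
theorem evq_unc {β : ℝ} (hβ : 0 ≤ β) : EVQ β := evq Vale.Agent.P146.H706.Alg7.alg hβ

/-- The lower bound of the quadratic form from a small deviation. -/
def TB7 (β : ℝ) : Prop := ∀ C₀ : ℝ, 1 ≤ C₀ → ∃ C : ℝ, 1 ≤ C ∧ ∀ (N K : ℕ) (m q : ℕ → ℝ)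
  (t a b : ℝ) (s : ℕ → ℝ), 0 < N → Exponents K m → Path K q → q K ≤ 1 → 0 < t → t ≤ 1 / C →
  C ≤ N * t ^ 16 → (∀ u ∈ Set.Icc (0 : ℝ) 1, 1 - C₀ * u ^ 2 - t ^ 3 ≤ β * Lam K m q u ∧
    β * Lam K m q u ≤ 1 - u ^ 2 / C₀ + t ^ 3) → a ∈ Set.Icc (0 : ℝ) 1 → C * (1 - a) ≤ t ^ 2 →
  b ∈ Set.Icc (0 : ℝ) 1 → C * b ≤ t ^ 9 → (∀ l ≤ K, 0 ≤ s l) →
  C ^ 2 * Qd K m q (sy N K m β (t ^ 4) a b s) ≤ t ^ 5 →
  1 / (C * t ^ 3) ≤ Tb (t ^ 4) (sy N K m β (t ^ 4) a b s)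

/-- the forms are nonnegative -/
lemma TT_nonneg {ι X : Type} [Fintype ι] [DecidableEq ι] [Fintype X] [DecidableEq X] [Nonempty X]
    {S : Sy ι X} {N : ℕ} {φ : X → Fin N → ℝ} {P Q : (ι → ℝ) → Matrix (Fin N) (Fin N) ℝ} {y : ℝ}
    (hS : S.Reg) (h : RQ S P Q y) (j : ℕ) : 0 ≤ Rec.TT S φ Q j := by
  have n := Rec.nhv_yv (φ := φ) hS j
  have h1 : 0 ≤ S.Ex (fun z x => (Q z *ᵥ Rec.yv S φ j z x) ⬝ᵥ Rec.yv S φ j z x) := by
    rw [← hS.Ex_const 0]
    exact hS.Ex_mono (Nh.fst (EG.const 0)) ((n.mulVec h.lQ.eg).dot n) fun z x => h.nn z _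
  unfold Rec.TT
  positivity

/-- **The lower bound of the quadratic form.** -/
theorem tb7 (hDet : Det) {β : ℝ} (hβ : 0 < β) : TB7 β := by
  intro C₀ hC₀
  obtain ⟨Ce, hCe1, he⟩ := evq_unc hβ.le
  obtain ⟨Cd, hCd1, hdet⟩ := hDet β C₀ Ce hβ hC₀ hCe1
  obtain ⟨Cz, hCz1, hz⟩ := zeta_facts3
  obtain ⟨C, hC⟩ : ∃ C : ℝ, C = 2 * Cd * (1 + β) + Cz := ⟨_, rfl⟩
  have hCd0 : 0 < Cd := by linarith
  have cd : Cd ≤ C := by rw [hC]; nlinarith
  have cd2 : 2 * Cd ≤ C := by rw [hC]; nlinarith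
  have cdβ : 2 * Cd * β ≤ C := by rw [hC]; nlinarith
  have cz : Cz ≤ C := by rw [hC]; nlinarith
  clear hC
  have hC0 : 0 < C := by linarith
  have hC1 : 1 ≤ C := by linarith
  refine ⟨C, hC1, ?_⟩
  intro N K m q t a b s hN hm hq hq1 ht htC hNt hcon ha hat hb hbt hs hQ
  have hN' : (0 : ℝ) < N := by exact_mod_cast hN
  have ht1 : t ≤ 1 := htC.trans (by rw [div_le_one hC0]; exact hC1)
  have hsq : √(t ^ 4) = t ^ 2 := by
    rw [show t ^ 4 = (t ^ 2) ^ 2 by ring, Real.sqrt_sq (by positivity)]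
  have hy0 : 0 < t ^ 4 := by positivity
  have hy1 : t ^ 4 ≤ 1 := pow_le_one₀ ht.le ht1
  have hyt : t ^ 4 ≤ t := by
    calc t ^ 4 ≤ t ^ 1 := pow_le_pow_of_le_one ht.le ht1 (by norm_num)
      _ = t := pow_one t
  have hyz : t ^ 4 ≤ 1 / Cz :=
    (hyt.trans htC).trans (one_div_le_one_div_of_le (by linarith only [hCz1]) cz)
  have hN12 : C ≤ N * (t ^ 4) ^ 3 := by
    rw [← pow_mul]
    exact hNt.trans (mul_le_mul_of_nonneg_left (pow_le_pow_of_le_one ht.le ht1 (by norm_num))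
      hN'.le)
  obtain ⟨-, -, -, -, -, -, z1, z2, z3, z4⟩ := hz N (t ^ 4) hN hy0 hyz (cz.trans hN12)
  rw [hsq] at z1 z2 z3 z4
  obtain ⟨D, B, h, hB, hBe, hBw⟩ := gdq (K := K) β hy0 hN hm a b
  have F := Gen.gS_fld h hs
  have hReg : (sy N K m β (t ^ 4) a b s).Reg := Gen.gS_reg h s
  have hRp : Path K (fun l => (sy N K m β (t ^ 4) a b s).Rl spin l) := om_path h hs
  have hRK : (fun l => (sy N K m β (t ^ 4) a b s).Rl spin l) K ≤ 1 := F.Rl_le_one le_rfl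
  have hqd := qd_eq h hs q
  have heq := he N K m (t ^ 4) a b s hN hm hy0 hy1 ha hb hs
  have htq := tq_one (t ^ 4) (sy N K m β (t ^ 4) a b s) rfl
  obtain ⟨R, hR⟩ : ∃ R : ℕ → ℝ, R = fun l => (sy N K m β (t ^ 4) a b s).Rl spin l := ⟨_, rfl⟩
  rw [← hR] at hRp hRK
  rw [← hR] at heq
  have hdev0 : ∀ l ≤ K, 0 ≤ dev2 (sy N K m β (t ^ 4) a b s) l := fun l hl =>
    F.hreg.pairEx_nonneg (l := l) hl fun x x' => sq_nonneg _
  have hVd0 : 0 ≤ Vd m (sy N K m β (t ^ 4) a b s) := by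
    unfold Vd
    exact Finset.sum_nonneg fun l hl => mul_nonneg
      (sub_pos.2 (hm.2.2 l (Nat.lt_succ_iff.1 (Finset.mem_range.1 hl)))).le
      (hdev0 l (Nat.lt_succ_iff.1 (Finset.mem_range.1 hl)))
  obtain ⟨M2, hM2⟩ : ∃ M2 : ℝ, M2 = ∑ l ∈ Finset.range (K + 1), (m (l + 1) - m l) *
      (R l - q l) ^ 2 := ⟨_, rfl⟩
  have hqd' : Qd K m q (sy N K m β (t ^ 4) a b s) = Vd m (sy N K m β (t ^ 4) a b s) + M2 := by
    rw [hM2, hR]
    exact hqd
  have hM20 : 0 ≤ M2 := by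
    rw [hM2]
    refine Finset.sum_nonneg fun l hl => mul_nonneg ?_ (sq_nonneg _)
    exact (sub_pos.2 (hm.2.2 l (Nat.lt_succ_iff.1 (Finset.mem_range.1 hl)))).le
  rw [hqd'] at hQ
  have hVt : C ^ 2 * Vd m (sy N K m β (t ^ 4) a b s) ≤ t ^ 5 := by
    have : 0 ≤ C ^ 2 * M2 := by positivity
    rw [mul_add] at hQ
    linarith only [hQ, this]
  have hMt : C ^ 2 * M2 ≤ t ^ 5 := by
    have : 0 ≤ C ^ 2 * Vd m (sy N K m β (t ^ 4) a b s) := by positivity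
    rw [mul_add] at hQ
    linarith only [hQ, this]
  have hM : √M2 ≤ t ^ 2 / C := by
    refine Real.sqrt_le_iff.2 ⟨by positivity, ?_⟩
    rw [div_pow, le_div_iff₀ (by positivity)]
    have e1 : t ^ 5 ≤ (t ^ 2) ^ 2 := by
      calc t ^ 5 ≤ t ^ 4 := pow_le_pow_of_le_one ht.le ht1 (by norm_num)
        _ = (t ^ 2) ^ 2 := by ring
    linarith only [hMt, e1]
  have hLam : ∀ u : ℝ, |Lam K m R u - Lam K m q u| ≤ t ^ 2 / C := fun u =>
    (lam_sub_le hm q R u).trans ((wabs_le hm fun l => R l - q l).trans (by rw [← hM2]; exact hM))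
  have s1 : β * (t ^ 2 / C) ≤ t ^ 2 / Cd / 2 := by
    have e1 : β * (t ^ 2 / C) = β / C * t ^ 2 := by ring
    have e2 : β / C ≤ 1 / (2 * Cd) := by
      rw [div_le_div_iff₀ hC0 (by positivity)]
      linarith only [cdβ]
    rw [e1]
    calc β / C * t ^ 2 ≤ 1 / (2 * Cd) * t ^ 2 := mul_le_mul_of_nonneg_right e2 (by positivity)
      _ = t ^ 2 / Cd / 2 := by ring
  have s2 : t ^ 3 ≤ t ^ 2 / Cd / 2 := by
    have e1 : t ≤ 1 / (2 * Cd) := htC.trans (one_div_le_one_div_of_le (by positivity) cd2)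
    calc t ^ 3 = t ^ 2 * t := by ring
      _ ≤ t ^ 2 * (1 / (2 * Cd)) := mul_le_mul_of_nonneg_left e1 (by positivity)
      _ = t ^ 2 / Cd / 2 := by ring
  have hcon' : ∀ u ∈ Set.Icc (0 : ℝ) 1, 1 - C₀ * u ^ 2 - t ^ 2 / Cd ≤ β * Lam K m R u ∧
      β * Lam K m R u ≤ 1 - u ^ 2 / C₀ + t ^ 2 / Cd := by
    intro u hu
    have e1 := abs_le.1 (hLam u)
    have e2 := hcon u hu
    have e3 : β * Lam K m R u ≤ β * Lam K m q u + β * (t ^ 2 / C) := by
      rw [← mul_add]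
      exact mul_le_mul_of_nonneg_left (by linarith only [e1.2]) hβ.le
    have e4 : β * Lam K m q u - β * (t ^ 2 / C) ≤ β * Lam K m R u := by
      rw [← mul_sub]
      exact mul_le_mul_of_nonneg_left (by linarith only [e1.1]) hβ.le
    constructor
    · linarith only [e2.1, e4, s1, s2]
    · linarith only [e2.2, e3, s1, s2]
  have hRQ : RQ (sy N K m β (t ^ 4) a b s) (ZA N K (t ^ 4)) (ZB N K (t ^ 4)) (t ^ 4) := rq_sy hy0
  have hTle : ∀ i j, i ≤ j → j ≤ K + 1 → (TQ (sy N K m β (t ^ 4) a b s) (ZB N K (t ^ 4))).2 i ≤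
      (TQ (sy N K m β (t ^ 4) a b s) (ZB N K (t ^ 4))).2 j := fun i j hij hj =>
    TT_mono hReg hRQ hij hj
  have hJ : (TQ (sy N K m β (t ^ 4) a b s) (ZB N K (t ^ 4))).1 =
      Tb (t ^ 4) (sy N K m β (t ^ 4) a b s) := htq
  -- the numbers
  have hθ : Cd * (1 / √(t ^ 4) * √(Vd m (sy N K m β (t ^ 4) a b s))) ≤ √t := by
    have e1 : √(Vd m (sy N K m β (t ^ 4) a b s)) ≤ t ^ 2 * √t / C := by
      refine Real.sqrt_le_iff.2 ⟨by positivity, ?_⟩
      rw [div_pow, le_div_iff₀ (by positivity), mul_pow, Real.sq_sqrt ht.le]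
      have e2 : (t ^ 2) ^ 2 * t = t ^ 5 := by ring
      rw [e2]
      linarith only [hVt]
    rw [hsq]
    calc Cd * (1 / t ^ 2 * √(Vd m (sy N K m β (t ^ 4) a b s)))
        ≤ Cd * (1 / t ^ 2 * (t ^ 2 * √t / C)) := by
          refine mul_le_mul_of_nonneg_left (mul_le_mul_of_nonneg_left e1 (by positivity)) hCd0.le
      _ = Cd / C * √t := by field_simp
      _ ≤ 1 * √t := by
          refine mul_le_mul_of_nonneg_right ?_ (Real.sqrt_nonneg _)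
          rw [div_le_one hC0]
          exact cd
      _ = √t := one_mul _
  have hκ : Cd * (b / (t ^ 4) ^ 2) ≤ t := by
    have e1 : Cd * b ≤ t ^ 9 := (mul_le_mul_of_nonneg_right cd hb.1).trans hbt
    calc Cd * (b / (t ^ 4) ^ 2) = Cd * b / t ^ 8 := by rw [← pow_mul]; ring
      _ ≤ t ^ 9 / t ^ 8 := div_le_div_of_nonneg_right e1 (by positivity)
      _ = t := by field_simp
  have hg : Cd * (1 / (N * (t ^ 4) ^ 3)) ≤ 1 := by
    rw [mul_one_div, div_le_one (by positivity)]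
    exact cd.trans hN12
  have hfin := hdet K m R (TQ (sy N K m β (t ^ 4) a b s) (ZA N K (t ^ 4))).2
    (TQ (sy N K m β (t ^ 4) a b s) (ZB N K (t ^ 4))).2
    (fun l => dev2 (sy N K m β (t ^ 4) a b s) l)
    (TQ (sy N K m β (t ^ 4) a b s) (ZA N K (t ^ 4))).1
    (TQ (sy N K m β (t ^ 4) a b s) (ZB N K (t ^ 4))).1 t a (1 / √(t ^ 4))
    (Vd m (sy N K m β (t ^ 4) a b s)) (b / (t ^ 4) ^ 2) (1 / (N * (t ^ 4) ^ 3)) (zt N (t ^ 4))
    hm hRp hRK ht (htC.trans (one_div_le_one_div_of_le hCd0 cd)) z1 z2 z3 z4 hcon' ha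
    ((mul_le_mul_of_nonneg_right cd (by linarith [ha.2])).trans hat)
    (fun j _ => TT_nonneg hReg hRQ j) (fun j hj => hTle j (j + 1) (by omega) (by omega))
    (fun j hj => TT_mono hReg hRQ (by show j ≤ K + 1; omega) le_rfl) hdev0 le_rfl hVd0
    (by positivity) hθ (by have := hb.1; positivity) hκ (by positivity) hg (fun l hl => by
      have h1 := heq l hl
      have e : ER N K m (t ^ 4) b (sy N K m β (t ^ 4) a b s) l =
          (∑ j ∈ Finset.range (K + 1), (m (j + 1) - m j) *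
            √((TQ (sy N K m β (t ^ 4) a b s) (ZB N K (t ^ 4))).1 -
              (TQ (sy N K m β (t ^ 4) a b s) (ZB N K (t ^ 4))).2 j)) * (1 / √(t ^ 4)) *
          (m (l + 1) * √(dev2 (sy N K m β (t ^ 4) a b s) l) +
            √(Vd m (sy N K m β (t ^ 4) a b s))) +
          b / (t ^ 4) ^ 2 * (∑ j ∈ Finset.range (K + 1), (m (j + 1) - m j) *
            √((TQ (sy N K m β (t ^ 4) a b s) (ZB N K (t ^ 4))).1 -
              (TQ (sy N K m β (t ^ 4) a b s) (ZB N K (t ^ 4))).2 j)) ^ 2 +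
          1 / (N * (t ^ 4) ^ 3) := by
        unfold ER SB DB
        rw [← hJ]
      rw [e] at h1
      exact h1)
  rw [hJ] at hfin
  refine le_trans ?_ hfin
  refine one_div_le_one_div_of_le (by positivity) ?_
  exact mul_le_mul_of_nonneg_right cd (by positivity)

end Vale.Agent.P146.H326.B7
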