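import Vale.Agent.P146.H326.Dt2

set_option linter.all false

/-!
# P146, lower exponent `D = 7`: the deterministic end, part 3
-/

open MeasureTheory ProbabilityTheory Finset Matrix

namespace Vale.Agent.P146.H326.B7

open Vale.Agent.P157.Par (Path Exponents)
open Vale.Agent.P146.Sk
open Vale.Agent.P166.F (Lam)
open Vale.Agent.P146.Pw2

/-- The upper bound of the eigenvalues at the levels above `4 Ca t`, and the lower bound at `0`. -/
lemma core_eq {K : ℕ} {m R TA D V : ℕ → ℝ} {JA β C₀ Ca q t a x θ v κ g S e M₀ C₁ : ℝ} {ζ : ℂ}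
    (hβ : 0 < β) (hC₀ : 1 ≤ C₀) (hCa : Ca = 2 + (4 * C₀ + 2) / β) (hq : q = 8 * Ca * C₀)
    (hC₁ : 0 < C₁) (hm : Exponents K m) (hR : Path K R) (hR1 : R K ≤ 1) (ht : 0 < t) (ht1 : t ≤ 1)
    (z1 : 1 + t ^ 2 / 2 ≤ ζ.re) (z2 : ζ.re ≤ 1 + t ^ 2) (z3 : t ^ 2 / 2 ≤ ζ.im)
    (z4 : ζ.im ≤ 2 * t ^ 2) (hx0 : 0 ≤ x) (hx : x ≤ t ^ 2 / 64)
    (hcon : ∀ u ∈ Set.Icc (0 : ℝ) 1, 1 - C₀ * u ^ 2 - x ≤ β * Lam K m R u ∧
      β * Lam K m R u ≤ 1 - u ^ 2 / C₀ + x)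
    (ha : a ∈ Set.Icc (0 : ℝ) 1) (hat : 1 - a ≤ t ^ 2 / 64)
    (hDm : ∀ j < K, D (j + 1) ≤ D j) (hV : ∀ l ≤ K, 0 ≤ V l)
    (hVv : ∑ l ∈ Finset.range (K + 1), (m (l + 1) - m l) * V l ≤ v) (hv0 : 0 ≤ v) (hθ : 0 ≤ θ)
    (hκ : 0 ≤ κ) (hg : 0 ≤ g) (hS0 : 0 ≤ S) (he : e = C₁ * (3 * (S * θ * √v) + κ * S ^ 2 + g))
    (heq : ∀ l ≤ K,
      |ζ.re * ev K m (JA, TA) l + ζ.im * W K m l D - lam K m R l -
          β * a * (lam K m R l * ev K m (JA, TA) l)| ≤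
        C₁ * (S * θ * (m (l + 1) * √(V l) + √v) + κ * S ^ 2 + g) ∧
      |ζ.im * ev K m (JA, TA) l - ζ.re * W K m l D +
          β * a * (lam K m R l * W K m l D)| ≤
        C₁ * (S * θ * (m (l + 1) * √(V l) + √v) + κ * S ^ 2 + g)) :
    (∀ l ≤ K, 4 * Ca * t < m (l + 1) → W K m l D ≤ (1 + 2 * e) * (q ^ 2 / m (l + 1) ^ 2)) ∧
      (M₀ = 4 + 1024 * β → e ≤ 2 / M₀ → 1 / (64 * β * t ^ 2) ≤ W K m 0 D) := by
  have hC₀0 : 0 < C₀ := by linarith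
  have ha2 : 2 ≤ Ca := by
    rw [hCa]
    have : 0 ≤ (4 * C₀ + 2) / β := by positivity
    linarith
  have ha0 : 0 < Ca := by linarith
  have ht2 : 0 < t ^ 2 := by positivity
  have ht21 : t ^ 2 ≤ 1 := pow_le_one₀ ht.le ht1
  have ha0' : 0 ≤ a := ha.1
  have ha1 : a ≤ 1 := ha.2
  have ha12 : 1 / 2 ≤ a := by linarith
  have hw0 : 0 < ζ.im := by linarith
  have hR01 : ∀ l ≤ K, R l ∈ Set.Icc (0 : ℝ) 1 := fun l hl =>
    ⟨Vale.Agent.P166.F.fs_nonneg (hr_opath hR hR1) hl,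
      Vale.Agent.P166.F.fs_le_one (hr_opath hR hR1) hl⟩
  have hu : ∀ l ≤ K, t ^ 2 / 4 + R l ^ 2 / (4 * C₀ ^ 2) ≤ ζ.re - β * a * lam K m R l := by
    intro l hl
    have e1 := (hcon (R l) (hR01 l hl)).2
    rw [Vale.Agent.P146.R3.H924.ResQ.Lam_at hm hR hR1 hl] at e1
    exact den_ge hC₀ hx0 hx ha0' ha1 ha12 z1 e1
  have hu0 : ∀ l ≤ K, 0 < ζ.re - β * a * lam K m R l := fun l hl => by
    have h1 := hu l hl
    have h2 : 0 ≤ R l ^ 2 / (4 * C₀ ^ 2) := by positivity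
    linarith
  have hlam0 : ∀ l ≤ K, 0 ≤ lam K m R l := by
    intro l hl
    rw [lam_w hm R hl]
    exact wnonneg hm hl fun j hj => by linarith [(hR01 j hj).2]
  have hlam1 : ∀ l ≤ K, lam K m R l ≤ 1 := by
    intro l hl
    rw [lam_w hm R hl]
    have := wmono (f := fun j => 1 - R j) (g := fun _ => 1) hm hl fun j hj _ => by
      linarith [(hR01 j hj).1]
    rwa [wconst hm hl] at this
  have he0 : 0 ≤ e := by rw [he]; positivity
  have hgood : ∀ j ≤ K, m (j + 1) * √(V j) ≤ 2 * √v →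
      C₁ * (S * θ * (m (j + 1) * √(V j) + √v) + κ * S ^ 2 + g) ≤ e := by
    intro j hj h
    rw [he]
    refine mul_le_mul_of_nonneg_left ?_ hC₁.le
    have h1 := mul_le_mul_of_nonneg_left h (show 0 ≤ S * θ by positivity)
    linarith
  have heqs : ∀ j ≤ K, m (j + 1) * √(V j) ≤ 2 * √v →
      |(ζ.re - β * a * lam K m R j) * ev K m (JA, TA) j + ζ.im * W K m j D - lam K m R j| ≤ e ∧
      |ζ.im * ev K m (JA, TA) j - (ζ.re - β * a * lam K m R j) * W K m j D| ≤ e := by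
    intro j hj h
    have h1 := heq j hj
    have h2 := hgood j hj h
    constructor
    · refine le_trans (le_of_eq ?_) (h1.1.trans h2)
      congr 1
      ring
    · refine le_trans (le_of_eq ?_) (h1.2.trans h2)
      congr 1
      ring
  have hmass : ∀ l ≤ K, m (l + 1) ≤ Ca * (R l + t) := fun l hl => by
    rw [hCa]
    refine mass_le hβ hC₀ ht ht1 hm hR hR1 (fun u hu => ?_) hl
    have h1 := hcon u hu
    exact ⟨by linarith [h1.1], by linarith [h1.2]⟩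
  constructor
  · intro l hl hx
    obtain ⟨j, hjl, hj1, hj2⟩ := exists_good hm hV hVv hv0 hl
    have hjK : j ≤ K := hjl.trans hl
    have h1 : m (j + 1) * √(V j) ≤ 2 * √v :=
      sqrt_good (m_pos' hm hjK) (m_pos' hm hl) (m_mono' hm (by omega) (by omega))
        (m_le_one' hm (by omega)) hv0 hj2
    obtain ⟨h2, h3⟩ := heqs j hjK h1
    have h4 := im_upper (hu0 j hjK) hw0 (hlam0 j hjK) he0 h2 h3
    have h5 := w_anti hm hDm hjl hl
    exact up_num ha0 hC₀ hq ht hx hj1 (hmass j hjK) (hu j hjK) (hlam1 j hjK) he0 (h5.trans h4)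
  · intro hM heM
    obtain ⟨h2, h3⟩ := heqs 0 (Nat.zero_le _) (good_zero hm hV hVv)
    have h0 := (hcon 0 ⟨le_rfl, zero_le_one⟩).1
    rw [← lam_zero' hm fun l hl => (hR01 l hl).1] at h0
    have h0' : 1 - x ≤ β * lam K m R 0 := by
      have : C₀ * (0 : ℝ) ^ 2 = 0 := by ring
      rw [this] at h0
      linarith
    exact low_num ht ht21 hβ hx hx0 ha0' ha1 hat z2 rfl (hu0 0 (Nat.zero_le _)) z3 z4 h0' he0 hM
      heM h2 h3

/-- **The deterministic end.** -/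
theorem det : Det := by
  intro β C₀ C₁ hβ hC₀ hC₁
  have hC₀0 : 0 < C₀ := by linarith
  obtain ⟨Ca, hCa⟩ : ∃ Ca : ℝ, Ca = 2 + (4 * C₀ + 2) / β := ⟨_, rfl⟩
  have ha2 : 2 ≤ Ca := by
    rw [hCa]
    have : 0 ≤ (4 * C₀ + 2) / β := by positivity
    linarith
  have ha0 : 0 < Ca := by linarith
  obtain ⟨q, hq⟩ : ∃ q : ℝ, q = 8 * Ca * C₀ := ⟨_, rfl⟩
  have hq0 : 0 < q := by rw [hq]; positivity
  obtain ⟨Qc, hQc⟩ : ∃ Qc : ℝ, Qc = 4 * Ca + 3 * q := ⟨_, rfl⟩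
  have hQc0 : 0 < Qc := by rw [hQc]; positivity
  obtain ⟨M₀, hM₀⟩ : ∃ M₀ : ℝ, M₀ = 4 + 1024 * β := ⟨_, rfl⟩
  have hM0 : 4 ≤ M₀ := by rw [hM₀]; linarith
  obtain ⟨Lc, hLc⟩ : ∃ Lc : ℝ, Lc = 4 * Ca + 256 * β * q ^ 2 + 1 := ⟨_, rfl⟩
  have pq : 0 ≤ 256 * β * q ^ 2 := by positivity
  have hLca : 4 * Ca ≤ Lc := by rw [hLc]; linarith
  have hLc2 : 256 * β * q ^ 2 ≤ Lc := by rw [hLc]; linarith
  have hLc1 : 1 ≤ Lc := by rw [hLc]; linarith
  have hLc0 : 0 < Lc := by linarith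
  have hC₁0 : 0 < C₁ := by linarith
  obtain ⟨C, hC⟩ : ∃ C : ℝ, C = 64 + C₁ * (3 * Qc + Qc ^ 2 + 1) * M₀ + 128 * β * Lc + 2 * Lc :=
    ⟨_, rfl⟩
  have p1 : 0 ≤ C₁ * (3 * Qc + Qc ^ 2 + 1) * M₀ := by positivity
  have p2 : 0 ≤ 128 * β * Lc := by positivity
  have cC64 : 64 ≤ C := by rw [hC]; linarith
  have cCM : C₁ * (3 * Qc + Qc ^ 2 + 1) * M₀ ≤ C := by rw [hC]; linarith
  have cCL : 128 * β * Lc ≤ C := by rw [hC]; linarith
  have cCL2 : 2 * Lc ≤ C := by rw [hC]; linarith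
  clear hC p1 p2 hLc
  have hC0 : 0 < C := by linarith
  refine ⟨C, by linarith, ?_⟩
  intro K m R TA TB V JA J t a θ v κ g ζ hm hR hR1 ht htC z1 z2 z3 z4 hcon ha hat hTB0 hTBm hTBJ
    hV hVv hv0 hθ hθv hκ hκt hg hg1 heq
  by_contra hneg
  have hJs : J < 1 / (C * t ^ 3) := not_le.1 hneg
  have ht64 : t ≤ 1 / 64 := htC.trans (one_div_le_one_div_of_le (by norm_num) cC64)
  have ht1 : t ≤ 1 := ht64.trans (by norm_num)
  have ht2 : 0 < t ^ 2 := by positivity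
  have hδ : t ^ 2 / C ≤ t ^ 2 / 64 := div_le_div_of_nonneg_left ht2.le (by norm_num) cC64
  have hat' : 1 - a ≤ t ^ 2 / 64 := by
    have h3 : 64 * (1 - a) ≤ C * (1 - a) := mul_le_mul_of_nonneg_right cC64 (by linarith only [ha.2])
    linarith only [h3, hat]
  obtain ⟨D, hD⟩ : ∃ D : ℕ → ℝ, D = fun j => J - TB j := ⟨_, rfl⟩
  have hD0 : ∀ j ≤ K, 0 ≤ D j := fun j hj => by rw [hD]; exact sub_nonneg.2 (hTBJ j hj)
  have hDJ : ∀ j ≤ K, D j ≤ J := fun j hj => by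
    rw [hD]
    have := hTB0 j hj
    show J - TB j ≤ J
    linarith
  have hDm : ∀ j < K, D (j + 1) ≤ D j := fun j hj => by
    rw [hD]
    have := hTBm j hj
    show J - TB (j + 1) ≤ J - TB j
    linarith
  have hJ0 : 0 ≤ J := (hTB0 0 (Nat.zero_le _)).trans (hTBJ 0 (Nat.zero_le _))
  have hB : ∀ l ≤ K, ev K m (J, TB) l = W K m l D := by
    intro l hl
    rw [ev_w hm _ hl, hD]
  obtain ⟨S, hS⟩ : ∃ S : ℝ, S = ∑ j ∈ Finset.range (K + 1), (m (j + 1) - m j) * √(J - TB j) :=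
    ⟨_, rfl⟩
  have hS0 : 0 ≤ S := by
    rw [hS]
    exact Finset.sum_nonneg fun j hj =>
      mul_nonneg (wp hm (Nat.lt_succ_iff.1 (Finset.mem_range.1 hj))) (Real.sqrt_nonneg _)
  rw [← hS] at heq
  obtain ⟨e, he⟩ : ∃ e : ℝ, e = C₁ * (3 * (S * θ * √v) + κ * S ^ 2 + g) := ⟨_, rfl⟩
  have he0 : 0 ≤ e := by rw [he]; positivity
  obtain ⟨hup, hlow⟩ := core_eq (JA := JA) (TA := TA) (D := D) (M₀ := M₀) hβ hC₀ hCa hq hC₁0 hm
    hR hR1 ht ht1 z1 z2 z3 z4 (x := t ^ 2 / C) (by positivity) hδ hcon ha hat' hDm hV hVv hv0 hθ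
    hκ hg hS0 he (fun l hl => by
      have h1 := heq l hl
      rw [hB l hl] at h1
      exact h1)
  have hDl : ∀ l ≤ K, 4 * Ca * t < m (l + 1) →
      D l ≤ (q * √(1 + 2 * e)) ^ 2 / m (l + 1) ^ 3 := by
    intro l hl hx
    have hml := m_pos' hm hl
    have h1 := (w_ge hm hD0 hl).trans (hup l hl hx)
    rw [mul_pow, Real.sq_sqrt (by linarith), le_div_iff₀ (by positivity)]
    have h2 : m (l + 1) * D l * m (l + 1) ^ 2 ≤
        (1 + 2 * e) * (q ^ 2 / m (l + 1) ^ 2) * m (l + 1) ^ 2 :=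
      mul_le_mul_of_nonneg_right h1 (by positivity)
    have h3 : (1 + 2 * e) * (q ^ 2 / m (l + 1) ^ 2) * m (l + 1) ^ 2 = q ^ 2 * (1 + 2 * e) := by
      field_simp
    calc D l * m (l + 1) ^ 3 = m (l + 1) * D l * m (l + 1) ^ 2 := by ring
      _ ≤ q ^ 2 * (1 + 2 * e) := by rw [← h3]; exact h2
  have h1 := root_sum (x := 4 * Ca * t) (q := q * √(1 + 2 * e)) hm (by positivity)
    (by positivity) hDJ hJ0 hDl
  have h2 : ∑ j ∈ Finset.range (K + 1), (m (j + 1) - m j) * √(D j) = S := by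
    rw [hS, hD]
  rw [h2] at h1
  have hJ3 : J ≤ 1 / t ^ 3 := by
    refine hJs.le.trans (one_div_le_one_div_of_le (by positivity) ?_)
    have h3 : 0 < t ^ 3 := by positivity
    have h4 := mul_le_mul_of_nonneg_right cC64 h3.le
    linarith only [h3, h4]
  have hSt := S_num ha2 hq0 ht he0 hJ0 hJ3 h1
  rw [← hQc] at hSt
  have hesm := e_num hC0 hC₁0 hQc0 hM0 ht cCM hS0 he0 he hθv hκt hg1 hSt
  have he1 : e ≤ 1 / 2 := by
    refine hesm.trans ?_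
    rw [div_le_div_iff₀ (by linarith only [hM0]) (by norm_num)]
    linarith only [hM0]
  have hlow' := hlow hM₀ hesm
  have htC' : t * C ≤ 1 := by rwa [le_div_iff₀ hC0] at htC
  have hLt : Lc * t < 1 := by
    have := mul_le_mul_of_nonneg_right cCL2 ht.le
    linarith only [this, htC']
  have hex : ∃ l, Lc * t < m (l + 1) := ⟨K, by rw [hm.2.1]; exact hLt⟩
  classical
  obtain ⟨l₁, hl₁⟩ : ∃ l₁, l₁ = Nat.find hex := ⟨_, rfl⟩
  have hlt : Lc * t < m (l₁ + 1) := by rw [hl₁]; exact Nat.find_spec hex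
  have hl₁K : l₁ ≤ K := by
    rw [hl₁]
    exact Nat.find_min' hex (by rw [hm.2.1]; exact hLt)
  have hml : m l₁ ≤ Lc * t := by
    rcases Nat.eq_zero_or_pos l₁ with h | h
    · rw [h, hm.1]
      positivity
    · have h1 := Nat.find_min hex (m := l₁ - 1) (by omega)
      rw [not_lt, Nat.sub_add_cancel h] at h1
      exact h1
  exact fin_num ht hβ hLc1 hLc2 he0 he1 hC0 cCL hlt hlow' (w_var hm hDm hl₁K hml)
    (hup l₁ hl₁K (lt_of_le_of_lt (mul_le_mul_of_nonneg_right hLca ht.le) hlt))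
    (hDJ 0 (Nat.zero_le _)) (hD0 l₁ hl₁K) hJs

end Vale.Agent.P146.H326.B7
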