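import Vale.Agent.P146.H326.Tb7
import Vale.Agent.P146.H326.Dt3

set_option linter.all false

/-!
# P146: the quadratic form of the resolvent is large, `D = 7`, conclusion
-/

namespace Vale.Agent.P146.H326.B7

/-- **The lower bound of the quadratic form.** -/
theorem tb7_unc {β : ℝ} (hβ : 0 < β) : TB7 β := tb7 det hβ

end Vale.Agent.P146.H326.B7
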