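import Vale.Agent.P146.R3.H729.TbLow

/-!
# P146, lower exponent `D = 7`: definitions and interfaces

`Z = A - i B = (2 + i y - W)⁻¹`, `T_j` the quadratic form at the level `j`, `T_d` the diagonal entry.
-/

open MeasureTheory ProbabilityTheory Matrix

namespace Vale.Agent.P146.H326.B7

open Vale.Agent.P157 (spin)
open Vale.Agent.P157.Lv
open Vale.Agent.P157.Par (Path Exponents)
open Vale.Agent.P146.Sk
open Vale.Agent.P166.F (Lam)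
open Vale.Agent.P146.Sk.Gen (GI)
open Vale.Agent.P146.Pw2

/-- The weights of the level `j` (they sum to one): `m_{j+1}` at `j`, `p_k` above `j`. -/
noncomputable def W (K : ℕ) (m : ℕ → ℝ) (j : ℕ) (f : ℕ → ℝ) : ℝ :=
  m (j + 1) * f j + ∑ k ∈ Finset.Ico (j + 1) (K + 1), (m (k + 1) - m k) * f k

/-- The eigenvalue of the level `l` of a hierarchical matrix. -/
noncomputable def ev (K : ℕ) (m : ℕ → ℝ) (T : ℝ × (ℕ → ℝ)) (l : ℕ) : ℝ := T.1 - W K m l T.2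

variable {N K : ℕ}

/-- `D_j = T_d - T_j` for the imaginary part. -/
noncomputable def DB (y : ℝ) (S : Sy (GI (Ix N) N K) (Fin N → Bool)) (j : ℕ) : ℝ :=
  Tb y S - (TQ S (ZB N K y)).2 j

/-- `∑ p_j √D_j`. -/
noncomputable def SB (m : ℕ → ℝ) (y : ℝ) (S : Sy (GI (Ix N) N K) (Fin N → Bool)) : ℝ :=
  ∑ j ∈ Finset.range (K + 1), (m (j + 1) - m j) * √(DB y S j)

/-- The size of the error of the equation of the level `l`. -/
noncomputable def ER (N K : ℕ) (m : ℕ → ℝ) (y b : ℝ) (S : Sy (GI (Ix N) N K) (Fin N → Bool))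
    (l : ℕ) : ℝ :=
  SB m y S * (1 / √y) * (m (l + 1) * √(dev2 S l) + √(Vd m S)) + b / y ^ 2 * SB m y S ^ 2 +
    1 / (N * y ^ 3)

/-- **The equations of the eigenvalues.** -/
def EVQ (β : ℝ) : Prop := ∃ C : ℝ, 1 ≤ C ∧ ∀ (N K : ℕ) (m : ℕ → ℝ) (y a b : ℝ) (s : ℕ → ℝ),
  0 < N → Exponents K m → 0 < y → y ≤ 1 → a ∈ Set.Icc (0 : ℝ) 1 → b ∈ Set.Icc (0 : ℝ) 1 →
  (∀ l ≤ K, 0 ≤ s l) → ∀ l ≤ K,
  |(zt N y).re * ev K m (TQ (sy N K m β y a b s) (ZA N K y)) l +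
      (zt N y).im * ev K m (TQ (sy N K m β y a b s) (ZB N K y)) l -
      lam K m (fun l => (sy N K m β y a b s).Rl spin l) l -
      β * a * (lam K m (fun l => (sy N K m β y a b s).Rl spin l) l *
        ev K m (TQ (sy N K m β y a b s) (ZA N K y)) l)| ≤
    C * ER N K m y b (sy N K m β y a b s) l ∧
  |(zt N y).im * ev K m (TQ (sy N K m β y a b s) (ZA N K y)) l -
      (zt N y).re * ev K m (TQ (sy N K m β y a b s) (ZB N K y)) l +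
      β * a * (lam K m (fun l => (sy N K m β y a b s).Rl spin l) l *
        ev K m (TQ (sy N K m β y a b s) (ZB N K y)) l)| ≤
    C * ER N K m y b (sy N K m β y a b s) l

/-! ### The algebra (B1) -/

/-- The reductions of the functional `L i a b`. -/
structure Red (K : ℕ) (L : ℕ → ℕ → ℕ → ℝ) : Prop where
  /-- above the level `i` -/
  r1 : ∀ i a b, i ≤ K → i ≤ a → i ≤ b → a ≤ K + 1 → b ≤ K + 1 →
    L i a b = L i (min a b) (min a b)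
  /-- below the level `i` -/
  r2 : ∀ i a b, i ≤ K → a ≤ i → b ≤ i → L i a b = L (K + 1) a b
  r3 : ∀ i a b, i ≤ K → a ≤ i → i ≤ b → b ≤ K + 1 → L i a b = L i a i
  r4 : ∀ i a b, i ≤ K → b ≤ i → i ≤ a → a ≤ K + 1 → L i a b = L i i b

/-- `MM` of `Sk.Rec`. -/
noncomputable def MMf (K : ℕ) (m : ℕ → ℝ) (L : ℕ → ℕ → ℕ → ℝ) (j a b : ℕ) : ℝ :=
  L (K + 1) a b - ∑ i ∈ Finset.Ico (j + 1) (K + 1), (m (i + 1) - m i) * L i a b -
    m (j + 1) * L j a b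

/-- the right side of the exact identity at the level `j` -/
noncomputable def Xf (K : ℕ) (m : ℕ → ℝ) (L : ℕ → ℕ → ℕ → ℝ) (j : ℕ) : ℝ :=
  (if j ≤ K then MMf K m L j (K + 1) j + MMf K m L j j (K + 1) else 0) +
    (L (K + 1) j j - ∑ i ∈ Finset.range (K + 1), (m (i + 1) - m i) * L i j j)

/-- both arguments centred -/
noncomputable def Gm (K : ℕ) (L : ℕ → ℕ → ℕ → ℝ) (i j k : ℕ) : ℝ :=
  L i (K + 1) (K + 1) - L i (K + 1) k - L i j (K + 1) + L i j k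

/-- The algebraic identity. -/
def Alg : Prop := ∀ (K : ℕ) (m : ℕ → ℝ) (L : ℕ → ℕ → ℕ → ℝ), Exponents K m → Red K L → ∀ l ≤ K,
  Xf K m L (K + 1) - W K m l (Xf K m L) =
    W K m l (fun j => W K m l (fun k => Gm K L (K + 1) j k)) -
    ∑ i ∈ Finset.range (K + 1), (m (i + 1) - m i) *
      W K m (max i l) (fun k => Gm K L i (max i l) k)

/-! ### The deterministic end (B2) -/

/-- The equations of the eigenvalues force the diagonal entry to be large. -/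
def Det : Prop := ∀ β C₀ C₁ : ℝ, 0 < β → 1 ≤ C₀ → 1 ≤ C₁ → ∃ C : ℝ, 1 ≤ C ∧
  ∀ (K : ℕ) (m R TA TB V : ℕ → ℝ) (JA J t a θ v κ g : ℝ) (ζ : ℂ),
  Exponents K m → Path K R → R K ≤ 1 → 0 < t → t ≤ 1 / C →
  1 + t ^ 2 / 2 ≤ ζ.re → ζ.re ≤ 1 + t ^ 2 → t ^ 2 / 2 ≤ ζ.im → ζ.im ≤ 2 * t ^ 2 →
  (∀ u ∈ Set.Icc (0 : ℝ) 1, 1 - C₀ * u ^ 2 - t ^ 2 / C ≤ β * Lam K m R u ∧
    β * Lam K m R u ≤ 1 - u ^ 2 / C₀ + t ^ 2 / C) →
  a ∈ Set.Icc (0 : ℝ) 1 → C * (1 - a) ≤ t ^ 2 →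
  (∀ j ≤ K, 0 ≤ TB j) → (∀ j < K, TB j ≤ TB (j + 1)) → (∀ j ≤ K, TB j ≤ J) →
  (∀ l ≤ K, 0 ≤ V l) → ∑ l ∈ Finset.range (K + 1), (m (l + 1) - m l) * V l ≤ v → 0 ≤ v →
  0 ≤ θ → C * (θ * √v) ≤ √t → 0 ≤ κ → C * κ ≤ t → 0 ≤ g → C * g ≤ 1 →
  (∀ l ≤ K,
    |ζ.re * ev K m (JA, TA) l + ζ.im * ev K m (J, TB) l - lam K m R l -
        β * a * (lam K m R l * ev K m (JA, TA) l)| ≤
      C₁ * ((∑ j ∈ Finset.range (K + 1), (m (j + 1) - m j) * √(J - TB j)) * θ *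
          (m (l + 1) * √(V l) + √v) +
        κ * (∑ j ∈ Finset.range (K + 1), (m (j + 1) - m j) * √(J - TB j)) ^ 2 + g) ∧
    |ζ.im * ev K m (JA, TA) l - ζ.re * ev K m (J, TB) l +
        β * a * (lam K m R l * ev K m (J, TB) l)| ≤
      C₁ * ((∑ j ∈ Finset.range (K + 1), (m (j + 1) - m j) * √(J - TB j)) * θ *
          (m (l + 1) * √(V l) + √v) +
        κ * (∑ j ∈ Finset.range (K + 1), (m (j + 1) - m j) * √(J - TB j)) ^ 2 + g)) →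
  1 / (C * t ^ 3) ≤ J

end Vale.Agent.P146.H326.B7
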