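import Vale.Agent.P146.H326.Ev4
import Vale.Agent.P146.R3.H924.ResQ

set_option linter.all false

/-!
# P146, lower exponent `D = 7`: the deterministic end, part 1
-/

open MeasureTheory ProbabilityTheory Finset Matrix

namespace Vale.Agent.P146.H326.B7

open Vale.Agent.P157.Par (Path Exponents)
open Vale.Agent.P146.Sk
open Vale.Agent.P166.F (Lam)
open Vale.Agent.P146.Pw2

variable {K : ℕ} {m R : ℕ → ℝ}

lemma m_mono' (hm : Exponents K m) {i j : ℕ} (hij : i ≤ j) (hj : j ≤ K + 1) : m i ≤ m j := by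
  induction j with
  | zero => rw [Nat.le_zero.1 hij]
  | succ n ih =>
    rcases Nat.lt_or_ge i (n + 1) with h | h
    · have h1 := ih (by omega) (by omega)
      have h2 := hm.2.2 n (by omega)
      linarith
    · rw [le_antisymm hij h]

lemma m_le_one' (hm : Exponents K m) {j : ℕ} (hj : j ≤ K + 1) : m j ≤ 1 := by
  rw [← hm.2.1]
  exact m_mono' hm hj le_rfl

lemma m_pos' (hm : Exponents K m) {j : ℕ} (hj : j ≤ K) : 0 < m (j + 1) := by
  have h1 := hm.2.2 j hj
  have h2 := wm hm (show j ≤ K + 1 by omega)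
  linarith

/-- the mass below a point -/
lemma lam_incr (hm : Exponents K m) (hR : Path K R) (hR1 : R K ≤ 1) {l : ℕ} (hl : l ≤ K) {w : ℝ}
    (hw : R l ≤ w) (hw0 : 0 ≤ w) : w * m (l + 1) ≤ Lam K m R w - Lam K m R (2 * w) := by
  unfold Vale.Agent.P166.F.Lam
  have h1 : ∑ i ∈ Finset.range (K + 1), (m (i + 1) - m i) *
      (max (R i - w) 0 - max (R i - 2 * w) 0) ≤ ∑ i ∈ Finset.Ico (l + 1) (K + 1),
        (m (i + 1) - m i) * w := by
    rw [← Finset.sum_range_add_sum_Ico _ (by omega : l + 1 ≤ K + 1)]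
    have h2 : ∑ i ∈ Finset.range (l + 1), (m (i + 1) - m i) *
        (max (R i - w) 0 - max (R i - 2 * w) 0) = 0 := by
      refine Finset.sum_eq_zero fun i hi => ?_
      have hi' := Finset.mem_range.1 hi
      have h3 := Vale.Agent.P166.F.fs_mono (hr_opath hR hR1) i l (by omega) hl
      rw [max_eq_right (by linarith), max_eq_right (by linarith)]
      ring
    rw [h2, zero_add]
    refine Finset.sum_le_sum fun i hi => ?_
    have hi' := Finset.mem_Ico.1 hi
    refine mul_le_mul_of_nonneg_left ?_ (wp hm (by omega))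
    rcases le_total (R i - 2 * w) 0 with h | h
    · rw [max_eq_right h, sub_zero]
      exact max_le (by linarith) hw0
    · rw [max_eq_left h]
      have : max (R i - w) 0 ≤ R i - w := max_le le_rfl (by linarith)
      linarith
  rw [← Finset.sum_mul, Finset.sum_Ico_eq_sub _ (by omega : l + 1 ≤ K + 1), wm_sum hm, wm_sum hm,
    hm.2.1] at h1
  simp only [mul_sub, Finset.sum_sub_distrib] at h1
  linarith

/-- the exponents are bounded by the overlaps -/
lemma mass_le {β C₀ t : ℝ} (hβ : 0 < β) (hC₀ : 1 ≤ C₀) (ht : 0 < t) (ht1 : t ≤ 1)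
    (hm : Exponents K m) (hR : Path K R) (hR1 : R K ≤ 1)
    (hL : ∀ u ∈ Set.Icc (0 : ℝ) 1, 1 - C₀ * u ^ 2 - t ^ 2 ≤ β * Lam K m R u ∧
      β * Lam K m R u ≤ 1 - u ^ 2 / C₀ + t ^ 2) {l : ℕ} (hl : l ≤ K) :
    m (l + 1) ≤ (2 + (4 * C₀ + 2) / β) * (R l + t) := by
  have hR0 : 0 ≤ R l := Vale.Agent.P166.F.fs_nonneg (hr_opath hR hR1) hl
  obtain ⟨w, hw⟩ : ∃ w, w = R l + t := ⟨_, rfl⟩
  have hwt : t ≤ w := by linarith
  have hw0 : 0 < w := by linarith
  have hq : 0 ≤ (4 * C₀ + 2) / β := by positivity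
  rw [← hw]
  rcases le_total (2 * w) 1 with h | h
  · have h1 := lam_incr hm hR hR1 hl (w := w) (by linarith) hw0.le
    have h2 := (hL w ⟨hw0.le, by linarith⟩).2
    have h3 := (hL (2 * w) ⟨by linarith, h⟩).1
    have h4 : β * (w * m (l + 1)) ≤ β * (Lam K m R w - Lam K m R (2 * w)) :=
      mul_le_mul_of_nonneg_left h1 hβ.le
    have h5 : 0 ≤ w ^ 2 / C₀ := by positivity
    have h6 : t ^ 2 ≤ w ^ 2 := pow_le_pow_left₀ ht.le hwt 2
    have h7 : β * (w * m (l + 1)) ≤ (4 * C₀ + 2) * w ^ 2 := by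
      rw [mul_sub] at h4
      nlinarith
    have h8 : m (l + 1) ≤ (4 * C₀ + 2) / β * w := by
      rw [div_mul_eq_mul_div, le_div_iff₀ hβ]
      have : w * (m (l + 1) * β) ≤ w * ((4 * C₀ + 2) * w) := by nlinarith
      exact le_of_mul_le_mul_left this hw0
    nlinarith
  · have h1 := m_le_one' hm (show l + 1 ≤ K + 1 by omega)
    nlinarith

/-- a filtered sum of the increments -/
lemma sum_filter_le (hm : Exponents K m) {x : ℝ} (hx : 0 ≤ x) {n : ℕ} (hn : n ≤ K + 1) :
    ∑ j ∈ (Finset.range n).filter (fun j => m (j + 1) ≤ x), (m (j + 1) - m j) ≤ x := by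
  induction n with
  | zero => simpa using hx
  | succ n ih =>
    rcases le_or_gt (m (n + 1)) x with h | h
    · have h1 : ∑ j ∈ (Finset.range (n + 1)).filter (fun j => m (j + 1) ≤ x),
          (m (j + 1) - m j) ≤ ∑ j ∈ Finset.range (n + 1), (m (j + 1) - m j) :=
        Finset.sum_le_sum_of_subset_of_nonneg (Finset.filter_subset _ _) fun j hj _ =>
          wp hm (by have := Finset.mem_range.1 hj; omega)
      rw [wm_sum hm] at h1
      linarith
    · rw [Finset.range_add_one, Finset.filter_insert, if_neg (not_le.2 h)]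
      exact ih (by omega)

/-- a good level -/
lemma exists_good (hm : Exponents K m) {V : ℕ → ℝ} {v : ℝ} (hV : ∀ l ≤ K, 0 ≤ V l)
    (hv : ∑ l ∈ Finset.range (K + 1), (m (l + 1) - m l) * V l ≤ v) (hv0 : 0 ≤ v) {l : ℕ}
    (hl : l ≤ K) : ∃ j ≤ l, m (l + 1) / 2 < m (j + 1) ∧ V j ≤ 4 * v / m (l + 1) := by
  by_contra hcon
  push Not at hcon
  have hml := m_pos' hm hl
  have h1 : m (l + 1) / 2 ≤
      ∑ j ∈ (Finset.range (l + 1)).filter (fun j => ¬ m (j + 1) ≤ m (l + 1) / 2),
        (m (j + 1) - m j) := by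
    have h2 := Finset.sum_filter_add_sum_filter_not (Finset.range (l + 1))
      (fun j => m (j + 1) ≤ m (l + 1) / 2) (fun j => m (j + 1) - m j)
    rw [wm_sum hm] at h2
    have h3 := sum_filter_le (x := m (l + 1) / 2) hm (by linarith) (show l + 1 ≤ K + 1 by omega)
    linarith
  have h2 : ∑ j ∈ (Finset.range (l + 1)).filter (fun j => ¬ m (j + 1) ≤ m (l + 1) / 2),
        (m (j + 1) - m j) * (4 * v / m (l + 1)) <
      ∑ j ∈ (Finset.range (l + 1)).filter (fun j => ¬ m (j + 1) ≤ m (l + 1) / 2),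
        (m (j + 1) - m j) * V j := by
    refine Finset.sum_lt_sum_of_nonempty ⟨l, ?_⟩ fun j hj => ?_
    · rw [Finset.mem_filter, Finset.mem_range]
      exact ⟨by omega, by linarith⟩
    · rw [Finset.mem_filter, Finset.mem_range, not_le] at hj
      have h3 := hm.2.2 j (by omega)
      exact mul_lt_mul_of_pos_left (hcon j (by omega) hj.2) (by linarith)
  have h3 : ∑ j ∈ (Finset.range (l + 1)).filter (fun j => ¬ m (j + 1) ≤ m (l + 1) / 2),
        (m (j + 1) - m j) * V j ≤ v := by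
    refine le_trans (Finset.sum_le_sum_of_subset_of_nonneg (fun j hj => ?_) fun j hj _ => ?_) hv
    · rw [Finset.mem_filter, Finset.mem_range] at hj
      exact Finset.mem_range.2 (by omega)
    · have hj' := Finset.mem_range.1 hj
      exact mul_nonneg (wp hm (by omega)) (hV j (by omega))
  rw [← Finset.sum_mul] at h2
  have h4 : m (l + 1) / 2 * (4 * v / m (l + 1)) = 2 * v := by
    field_simp
    ring
  have h5 := mul_le_mul_of_nonneg_right h1 (show 0 ≤ 4 * v / m (l + 1) by positivity)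
  linarith

/-- the sum of the inverse powers -/
lemma sum_inv (hm : Exponents K m) {x : ℝ} (hx : 0 < x) {n : ℕ} (hn : n ≤ K + 1) :
    ∑ j ∈ (Finset.range n).filter (fun j => x < m (j + 1)),
      (m (j + 1) - m j) * (1 / (m (j + 1) * √(m (j + 1)))) ≤
        if m n ≤ x then 0 else 3 / √x - 2 / √(m n) := by
  induction n with
  | zero =>
    rw [hm.1, if_pos hx.le]
    simp
  | succ n ih =>
    have ih' := ih (by omega)
    have hmn := hm.2.2 n (by omega)
    have hm0 := wm hm (show n ≤ K + 1 by omega)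
    rw [Finset.range_add_one, Finset.filter_insert]
    rcases le_or_gt (m (n + 1)) x with h | h
    · rw [if_neg (not_lt.2 h), if_pos h]
      rw [if_pos (by linarith)] at ih'
      exact ih'
    · rw [if_pos h, Finset.sum_insert (by simp), if_neg (not_le.2 h)]
      have hp : 0 < m (n + 1) := by linarith
      obtain ⟨b, hb⟩ : ∃ b, b = √(m (n + 1)) := ⟨_, rfl⟩
      have hb0 : 0 < b := by rw [hb]; exact Real.sqrt_pos.2 hp
      have hb2 : m (n + 1) = b * b := by rw [hb]; exact (Real.mul_self_sqrt hp.le).symm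
      obtain ⟨c, hc⟩ : ∃ c, c = √x := ⟨_, rfl⟩
      have hc0 : 0 < c := by rw [hc]; exact Real.sqrt_pos.2 hx
      have hcb : c ≤ b := by rw [hb, hc]; exact Real.sqrt_le_sqrt h.le
      rw [← hb, ← hc]
      rw [← hc] at ih'
      rcases le_or_gt (m n) x with h' | h'
      · rw [if_pos h'] at ih'
        have h1 : (m (n + 1) - m n) * (1 / (m (n + 1) * b)) ≤ 1 / b := by
          rw [mul_one_div, div_le_div_iff₀ (by positivity) hb0]
          nlinarith [mul_nonneg hm0 hb0.le]
        have h2 : 3 / b ≤ 3 / c := div_le_div_of_nonneg_left (by norm_num) hc0 hcb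
        have h3 : 3 / b = 1 / b + 2 / b := by ring
        linarith
      · rw [if_neg (not_le.2 h')] at ih'
        have hn0 : 0 < m n := by linarith
        obtain ⟨a, ha⟩ : ∃ a, a = √(m n) := ⟨_, rfl⟩
        have ha0 : 0 < a := by rw [ha]; exact Real.sqrt_pos.2 hn0
        have ha2 : m n = a * a := by rw [ha]; exact (Real.mul_self_sqrt hn0.le).symm
        have hab : a ≤ b := by rw [ha, hb]; exact Real.sqrt_le_sqrt hmn.le
        rw [← ha] at ih'
        have h1 : (m (n + 1) - m n) * (1 / (m (n + 1) * b)) ≤ 2 / a - 2 / b := by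
          rw [hb2, ha2, mul_one_div, div_sub_div _ _ ha0.ne' hb0.ne',
            div_le_div_iff₀ (by positivity) (by positivity)]
          have h2 : (b - a) * (a * (b + a)) ≤ (b - a) * (2 * (b * b)) := by
            refine mul_le_mul_of_nonneg_left ?_ (by linarith)
            nlinarith
          have h3 : (b * b - a * a) * (a * b) = (b - a) * (a * (b + a)) * b := by ring
          have h4 : (2 * b - a * 2) * (b * b * b) = (b - a) * (2 * (b * b)) * b := by ring
          rw [h3, h4]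
          exact mul_le_mul_of_nonneg_right h2 hb0.le
        linarith

/-- the whole sum -/
lemma sum_inv' (hm : Exponents K m) {x : ℝ} (hx : 0 < x) :
    ∑ j ∈ (Finset.range (K + 1)).filter (fun j => x < m (j + 1)),
      (m (j + 1) - m j) * (1 / (m (j + 1) * √(m (j + 1)))) ≤ 3 / √x := by
  refine (sum_inv hm hx le_rfl).trans ?_
  split_ifs with h
  · positivity
  · have : 0 ≤ 2 / √(m (K + 1)) := by positivity
    linarith

/-! ### The two equations -/

/-- the upper bound of the imaginary part -/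
lemma im_upper {u w A B lam E : ℝ} (hu : 0 < u) (hw : 0 < w) (hlam : 0 ≤ lam) (hE : 0 ≤ E)
    (h1 : |u * A + w * B - lam| ≤ E) (h2 : |w * A - u * B| ≤ E) : B ≤ (lam + 2 * E) / u := by
  rw [abs_le] at h1 h2
  have e1 : B * (u ^ 2 + w ^ 2) = w * (u * A + w * B) - u * (w * A - u * B) := by ring
  have e2 : B * (u ^ 2 + w ^ 2) ≤ w * (lam + E) + u * E := by
    rw [e1]
    nlinarith [mul_le_mul_of_nonneg_left h1.2 hw.le, mul_le_mul_of_nonneg_left h2.1 hu.le]
  rw [le_div_iff₀ hu]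
  have h3 : (w * (lam + E) + u * E) * u ≤ (lam + 2 * E) * (u ^ 2 + w ^ 2) := by
    have e3 : w * u ≤ u ^ 2 + w ^ 2 := by nlinarith [sq_nonneg (u - w), sq_nonneg u, sq_nonneg w]
    have e4 : u * u ≤ u ^ 2 + w ^ 2 := by nlinarith [sq_nonneg w]
    nlinarith [mul_le_mul_of_nonneg_left e3 (show 0 ≤ lam + E by linarith),
      mul_le_mul_of_nonneg_left e4 hE]
  have h4 : 0 < u ^ 2 + w ^ 2 := by positivity
  have h5 : B * u * (u ^ 2 + w ^ 2) ≤ (lam + 2 * E) * (u ^ 2 + w ^ 2) := by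
    refine le_trans ?_ h3
    nlinarith [mul_le_mul_of_nonneg_right e2 hu.le]
  exact le_of_mul_le_mul_right h5 h4

/-- the lower bound of the imaginary part -/
lemma im_lower {u w A B lam E t β : ℝ} (ht : 0 < t) (hβ : 0 < β) (hu : 0 < u)
    (hu2 : u ≤ 2 * t ^ 2) (hw : t ^ 2 / 2 ≤ w) (hw2 : w ≤ 2 * t ^ 2) (hlam : 1 / (2 * β) ≤ lam)
    (hE : 0 ≤ E) (h1 : |u * A + w * B - lam| ≤ E) (h2 : |w * A - u * B| ≤ E) :
    1 / (32 * β * t ^ 2) - 8 * E / t ^ 2 ≤ B := by
  have ht2 : 0 < t ^ 2 := by positivity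
  have hw0 : 0 < w := by linarith
  rw [abs_le] at h1 h2
  have e1 : B * (u ^ 2 + w ^ 2) = w * (u * A + w * B) - u * (w * A - u * B) := by ring
  have e2 : w * (lam - E) - u * E ≤ B * (u ^ 2 + w ^ 2) := by
    rw [e1]
    nlinarith [mul_le_mul_of_nonneg_left h1.1 hw0.le, mul_le_mul_of_nonneg_left h2.2 hu.le]
  obtain ⟨ρ, hρ⟩ : ∃ ρ, ρ = u ^ 2 + w ^ 2 := ⟨_, rfl⟩
  have hρ0 : 0 < ρ := by rw [hρ]; positivity
  rw [← hρ] at e2
  have hρ1 : ρ ≤ 8 * (t ^ 2) ^ 2 := by
    rw [hρ]
    nlinarith [pow_le_pow_left₀ hu.le hu2 2, pow_le_pow_left₀ hw0.le hw2 2]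
  have h3 : 1 / (32 * β * t ^ 2) ≤ w * lam / ρ := by
    rw [div_le_div_iff₀ (by positivity) hρ0]
    have h4 : t ^ 2 / 2 * (1 / (2 * β)) ≤ w * lam :=
      mul_le_mul hw hlam (by positivity) hw0.le
    have h5 : t ^ 2 / 2 * (1 / (2 * β)) * (32 * β * t ^ 2) = 8 * (t ^ 2) ^ 2 := by
      field_simp
      ring
    have h6 := mul_le_mul_of_nonneg_right h4 (show 0 ≤ 32 * β * t ^ 2 by positivity)
    linarith
  have h4 : (w + u) * E / ρ ≤ 8 * E / t ^ 2 := by
    rw [div_le_div_iff₀ hρ0 ht2]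
    have h5 : (w + u) * t ^ 2 ≤ 8 * ρ := by
      rw [hρ]
      nlinarith [sq_nonneg (u - w), mul_le_mul_of_nonneg_left hw hw0.le,
        mul_le_mul_of_nonneg_left hw hu.le, sq_nonneg u, sq_nonneg w]
    nlinarith [mul_le_mul_of_nonneg_left h5 hE]
  have h5 : w * lam / ρ - (w + u) * E / ρ ≤ B := by
    rw [← sub_div, div_le_iff₀ hρ0]
    linarith
  linarith

end Vale.Agent.P146.H326.B7
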