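import Vale.Agent.P146.H326.Dt1

set_option linter.all false

/-!
# P146, lower exponent `D = 7`: the deterministic end, part 2
-/

open MeasureTheory ProbabilityTheory Finset Matrix

namespace Vale.Agent.P146.H326.B7

open Vale.Agent.P157.Par (Path Exponents)
open Vale.Agent.P146.Sk
open Vale.Agent.P166.F (Lam)
open Vale.Agent.P146.Pw2

variable {K : ℕ} {m R : ℕ → ℝ}

/-! ### The eigenvalues of the decrease -/

/-- the step of the eigenvalues -/
lemma w_step (hm : Exponents K m) {D : ℕ → ℝ} {l : ℕ} (hl : l < K) :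
    W K m l D - W K m (l + 1) D = m (l + 1) * (D l - D (l + 1)) := by
  unfold W
  rw [Finset.sum_eq_sum_Ico_succ_bot (by omega : l + 1 < K + 1)]
  ring

lemma w_anti (hm : Exponents K m) {D : ℕ → ℝ} (hD : ∀ j < K, D (j + 1) ≤ D j) {i j : ℕ}
    (hij : i ≤ j) (hj : j ≤ K) : W K m j D ≤ W K m i D := by
  induction j with
  | zero => rw [Nat.le_zero.1 hij]
  | succ n ih =>
    rcases Nat.lt_or_ge i (n + 1) with h | h
    · have h1 := ih (by omega) (by omega)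
      have h2 := w_step (D := D) hm (show n < K by omega)
      have h3 := mul_nonneg (wm hm (show n + 1 ≤ K + 1 by omega))
        (sub_nonneg.2 (hD n (by omega)))
      linarith
    · rw [le_antisymm hij h]

lemma w_ge (hm : Exponents K m) {D : ℕ → ℝ} (hD : ∀ j ≤ K, 0 ≤ D j) {l : ℕ} (hl : l ≤ K) :
    m (l + 1) * D l ≤ W K m l D := by
  unfold W
  have : 0 ≤ ∑ k ∈ Finset.Ico (l + 1) (K + 1), (m (k + 1) - m k) * D k :=
    Finset.sum_nonneg fun k hk => by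
      have := Finset.mem_Ico.1 hk
      exact mul_nonneg (wp hm (by omega)) (hD k (by omega))
  linarith

/-- the variation of the eigenvalues while the exponents are small -/
lemma w_var (hm : Exponents K m) {D : ℕ → ℝ} (hD : ∀ j < K, D (j + 1) ≤ D j) {x : ℝ} {l : ℕ}
    (hl : l ≤ K) (hx : m l ≤ x) : W K m 0 D - W K m l D ≤ x * (D 0 - D l) := by
  induction l with
  | zero => simp
  | succ n ih =>
    have h1 := ih (by omega) ((m_mono' hm (Nat.le_succ n) (by omega)).trans hx)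
    have h2 := w_step (D := D) hm (show n < K by omega)
    have h3 := mul_le_mul_of_nonneg_right hx (sub_nonneg.2 (hD n (by omega)))
    linarith

/-- the sum of the roots -/
lemma root_sum (hm : Exponents K m) {D : ℕ → ℝ} {J x q : ℝ} (hx : 0 < x) (hq : 0 ≤ q)
    (hDJ : ∀ j ≤ K, D j ≤ J) (hJ : 0 ≤ J)
    (h : ∀ l ≤ K, x < m (l + 1) → D l ≤ q ^ 2 / m (l + 1) ^ 3) :
    ∑ j ∈ Finset.range (K + 1), (m (j + 1) - m j) * √(D j) ≤ x * √J + q * (3 / √x) := by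
  rw [← Finset.sum_filter_add_sum_filter_not (Finset.range (K + 1)) (fun j => x < m (j + 1))]
  have h1 : ∑ j ∈ (Finset.range (K + 1)).filter (fun j => x < m (j + 1)),
      (m (j + 1) - m j) * √(D j) ≤ q * (3 / √x) := by
    refine le_trans ?_ (mul_le_mul_of_nonneg_left (sum_inv' hm hx) hq)
    rw [Finset.mul_sum]
    refine Finset.sum_le_sum fun j hj => ?_
    rw [Finset.mem_filter, Finset.mem_range] at hj
    have hj' : j ≤ K := by omega
    have hp := m_pos' hm hj'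
    have h2 : √(D j) ≤ q * (1 / (m (j + 1) * √(m (j + 1)))) := by
      refine Real.sqrt_le_iff.2 ⟨by positivity, ?_⟩
      refine (h j hj' hj.2).trans (le_of_eq ?_)
      have h3 : √(m (j + 1)) ^ 2 = m (j + 1) := Real.sq_sqrt hp.le
      have h4 : (q * (1 / (m (j + 1) * √(m (j + 1))))) ^ 2 =
          q ^ 2 / (m (j + 1) ^ 2 * √(m (j + 1)) ^ 2) := by
        rw [mul_pow, div_pow, mul_pow, one_pow, mul_one_div]
      rw [h4, h3]
      congr 1
    have h5 := mul_le_mul_of_nonneg_left h2 (wp hm hj')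
    linarith
  have h2 : ∑ j ∈ (Finset.range (K + 1)).filter (fun j => ¬ x < m (j + 1)),
      (m (j + 1) - m j) * √(D j) ≤ x * √J := by
    have h3 : ∑ j ∈ (Finset.range (K + 1)).filter (fun j => ¬ x < m (j + 1)),
        (m (j + 1) - m j) * √(D j) ≤
        ∑ j ∈ (Finset.range (K + 1)).filter (fun j => ¬ x < m (j + 1)),
        (m (j + 1) - m j) * √J := by
      refine Finset.sum_le_sum fun j hj => ?_
      rw [Finset.mem_filter, Finset.mem_range] at hj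
      exact mul_le_mul_of_nonneg_left (Real.sqrt_le_sqrt (hDJ j (by omega)))
        (wp hm (by omega))
    rw [← Finset.sum_mul] at h3
    have h4 := sum_filter_le hm hx.le (show K + 1 ≤ K + 1 from le_rfl)
    simp only [not_lt] at h3 ⊢
    exact h3.trans (mul_le_mul_of_nonneg_right h4 (Real.sqrt_nonneg _))
  linarith

/-! ### The numbers -/

/-- the good levels -/
lemma sqrt_good {a b V v : ℝ} (ha : 0 < a) (hb : 0 < b) (hab : a ≤ b) (hb1 : b ≤ 1) (hv : 0 ≤ v)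
    (hV : V ≤ 4 * v / b) : a * √V ≤ 2 * √v := by
  have h2 : √V ≤ 2 * √v / √b := by
    refine (Real.sqrt_le_sqrt hV).trans (le_of_eq ?_)
    rw [Real.sqrt_div (by positivity), Real.sqrt_mul (by norm_num),
      show √(4 : ℝ) = 2 by rw [show (4 : ℝ) = 2 ^ 2 by norm_num]; exact Real.sqrt_sq (by norm_num)]
  have h3 : 0 < √b := Real.sqrt_pos.2 hb
  have h4 : √b * √b = b := Real.mul_self_sqrt hb.le
  have h5 : √b ≤ 1 := by
    rw [show (1 : ℝ) = √1 by simp]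
    exact Real.sqrt_le_sqrt hb1
  have h6 : a ≤ √b := by nlinarith
  calc a * √V ≤ √b * (2 * √v / √b) := mul_le_mul h6 h2 (Real.sqrt_nonneg _) h3.le
    _ = 2 * √v := by field_simp

/-- the denominators -/
lemma den_ge {β C₀ t x a lam r u : ℝ} (hC₀ : 1 ≤ C₀) (hx0 : 0 ≤ x) (hx : x ≤ t ^ 2 / 64)
    (ha0 : 0 ≤ a) (ha1 : a ≤ 1) (ha2 : 1 / 2 ≤ a) (hu : 1 + t ^ 2 / 2 ≤ u)
    (h : β * lam ≤ 1 - r ^ 2 / C₀ + x) :
    t ^ 2 / 4 + r ^ 2 / (4 * C₀ ^ 2) ≤ u - β * a * lam := by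
  have e2 := mul_le_mul_of_nonneg_left h ha0
  have e3 : a * (1 + x) ≤ 1 * (1 + x) := mul_le_mul_of_nonneg_right ha1 (by positivity)
  have e4 : r ^ 2 / (4 * C₀ ^ 2) ≤ a * (r ^ 2 / C₀) := by
    have f1 : 1 / 2 * (r ^ 2 / C₀) ≤ a * (r ^ 2 / C₀) :=
      mul_le_mul_of_nonneg_right ha2 (by positivity)
    have f2 : r ^ 2 / (4 * C₀ ^ 2) ≤ r ^ 2 / (2 * C₀) := by
      refine div_le_div_of_nonneg_left (sq_nonneg _) (by positivity) ?_
      nlinarith
    have f3 : 1 / 2 * (r ^ 2 / C₀) = r ^ 2 / (2 * C₀) := by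
      field_simp
    linarith
  have e5 : β * a * lam = a * (β * lam) := by ring
  have e6 : 0 ≤ t ^ 2 := sq_nonneg t
  rw [e5]
  linarith

/-- the upper bound of one eigenvalue -/
lemma up_num {Ca C₀ q t μ ν r u lam e B : ℝ} (hCa : 0 < Ca) (hC₀ : 1 ≤ C₀) (hq : q = 8 * Ca * C₀)
    (ht : 0 < t) (hμ : 4 * Ca * t < μ) (hν : μ / 2 < ν) (hr : ν ≤ Ca * (r + t))
    (hu : t ^ 2 / 4 + r ^ 2 / (4 * C₀ ^ 2) ≤ u) (hlam : lam ≤ 1) (he : 0 ≤ e)
    (hB : B ≤ (lam + 2 * e) / u) : B ≤ (1 + 2 * e) * (q ^ 2 / μ ^ 2) := by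
  have hC₀0 : 0 < C₀ := by linarith
  have hμ0 : 0 < μ := lt_trans (by positivity) hμ
  have hq0 : 0 < q := by rw [hq]; positivity
  have h7 : μ / (4 * Ca) ≤ r := by
    rw [div_le_iff₀ (by positivity)]
    linarith
  have h8 : μ ^ 2 / q ^ 2 ≤ u := by
    have k1 : (μ / (4 * Ca)) ^ 2 ≤ r ^ 2 := pow_le_pow_left₀ (by positivity) h7 2
    have k2 : μ ^ 2 / q ^ 2 = (μ / (4 * Ca)) ^ 2 / (4 * C₀ ^ 2) := by
      rw [hq, div_pow, div_div]
      congr 1
      ring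
    rw [k2]
    have k3 := div_le_div_of_nonneg_right k1 (show 0 ≤ 4 * C₀ ^ 2 by positivity)
    have k4 : 0 ≤ t ^ 2 / 4 := by positivity
    linarith
  have k2 : 0 < μ ^ 2 / q ^ 2 := by positivity
  have hu0 : 0 < u := lt_of_lt_of_le k2 h8
  have h9 : (lam + 2 * e) / u ≤ (1 + 2 * e) / (μ ^ 2 / q ^ 2) := by
    refine (div_le_div_of_nonneg_right (show lam + 2 * e ≤ 1 + 2 * e by linarith)
      hu0.le).trans ?_
    exact div_le_div_of_nonneg_left (by linarith) k2 h8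
  have h10 : (1 + 2 * e) / (μ ^ 2 / q ^ 2) = (1 + 2 * e) * (q ^ 2 / μ ^ 2) := by
    rw [div_eq_mul_inv, inv_div]
  linarith

/-- the sum of the roots -/
lemma S_num {Ca q t J e S : ℝ} (hCa : 2 ≤ Ca) (hq : 0 < q) (ht : 0 < t) (he : 0 ≤ e)
    (hJ0 : 0 ≤ J) (hJ : J ≤ 1 / t ^ 3)
    (hS : S ≤ 4 * Ca * t * √J + q * √(1 + 2 * e) * (3 / √(4 * Ca * t))) :
    S * √t ≤ (4 * Ca + 3 * q) * √(1 + 2 * e) := by
  have hst : 0 < √t := Real.sqrt_pos.2 ht
  have hst2 : √t * √t = t := Real.mul_self_sqrt ht.le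
  obtain ⟨r, hr⟩ : ∃ r, r = √(1 + 2 * e) := ⟨_, rfl⟩
  have he1 : 1 ≤ r := by
    rw [hr]
    exact Real.one_le_sqrt.2 (by linarith)
  rw [← hr] at hS ⊢
  have h3 : t * √J * √t ≤ 1 := by
    have k1 : √J ≤ 1 / (t * √t) := by
      refine Real.sqrt_le_iff.2 ⟨by positivity, ?_⟩
      have k2 : (1 / (t * √t)) ^ 2 = 1 / t ^ 3 := by
        rw [div_pow, mul_pow, Real.sq_sqrt ht.le]
        congr 1
        · norm_num
      rw [k2]
      exact hJ
    calc t * √J * √t ≤ t * (1 / (t * √t)) * √t := by gcongr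
      _ = 1 := by field_simp
  have h4 : 3 / √(4 * Ca * t) * √t ≤ 3 := by
    have k1 : √t ≤ √(4 * Ca * t) := Real.sqrt_le_sqrt (by nlinarith)
    have k2 : 0 < √(4 * Ca * t) := lt_of_lt_of_le hst k1
    rw [div_mul_eq_mul_div, div_le_iff₀ k2]
    linarith
  have h5 : S * √t ≤ 4 * Ca * (t * √J * √t) + q * r * (3 / √(4 * Ca * t) * √t) := by
    have := mul_le_mul_of_nonneg_right hS hst.le
    linarith
  have h6 : 4 * Ca * (t * √J * √t) ≤ 4 * Ca * r := by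
    have k1 := mul_le_mul_of_nonneg_left (h3.trans he1) (show 0 ≤ 4 * Ca by linarith)
    exact k1
  have h7 : q * r * (3 / √(4 * Ca * t) * √t) ≤ q * r * 3 :=
    mul_le_mul_of_nonneg_left h4 (by positivity)
  linarith

/-- the error is small -/
lemma e_num {C C₁ Qc M₀ e S θ v κ g t : ℝ} (hC : 0 < C) (hC₁ : 0 < C₁) (hQc : 0 < Qc)
    (hM : 4 ≤ M₀) (ht : 0 < t) (hCM : C₁ * (3 * Qc + Qc ^ 2 + 1) * M₀ ≤ C) (hS0 : 0 ≤ S)
    (he0 : 0 ≤ e) (he : e = C₁ * (3 * (S * θ * √v) + κ * S ^ 2 + g))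
    (hθv : C * (θ * √v) ≤ √t) (hκt : C * κ ≤ t) (hg1 : C * g ≤ 1)
    (hSt : S * √t ≤ Qc * √(1 + 2 * e)) : e ≤ 2 / M₀ := by
  have hst : 0 < √t := Real.sqrt_pos.2 ht
  have hsq : √(1 + 2 * e) ^ 2 = 1 + 2 * e := Real.sq_sqrt (by linarith)
  have hr0 : 0 ≤ √(1 + 2 * e) := Real.sqrt_nonneg _
  have he1 : √(1 + 2 * e) ≤ 1 + 2 * e := by
    rw [Real.sqrt_le_left (by linarith)]
    nlinarith
  have h1 : C * (S * θ * √v) ≤ Qc * (1 + 2 * e) := by
    have k1 := mul_le_mul_of_nonneg_left hθv hS0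
    have k2 : C * (S * θ * √v) = S * (C * (θ * √v)) := by ring
    rw [k2]
    refine k1.trans (hSt.trans ?_)
    exact mul_le_mul_of_nonneg_left he1 hQc.le
  have h2 : C * (κ * S ^ 2) ≤ Qc ^ 2 * (1 + 2 * e) := by
    have k1 := mul_le_mul_of_nonneg_right hκt (sq_nonneg S)
    have k2 : t * S ^ 2 = (S * √t) ^ 2 := by
      rw [mul_pow, Real.sq_sqrt ht.le]
      ring
    have k3 : (S * √t) ^ 2 ≤ (Qc * √(1 + 2 * e)) ^ 2 :=
      pow_le_pow_left₀ (by positivity) hSt 2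
    rw [mul_pow Qc, hsq] at k3
    calc C * (κ * S ^ 2) = C * κ * S ^ 2 := by ring
      _ ≤ t * S ^ 2 := k1
      _ ≤ _ := by rw [k2]; exact k3
  have h3 : C * e ≤ C₁ * (3 * Qc + Qc ^ 2 + 1) * (1 + 2 * e) := by
    have k1 : C * e = C₁ * (3 * (C * (S * θ * √v)) + C * (κ * S ^ 2) + C * g) := by
      rw [he]
      ring
    rw [k1, mul_assoc C₁]
    refine mul_le_mul_of_nonneg_left ?_ hC₁.le
    linarith
  have h4 : C₁ * (3 * Qc + Qc ^ 2 + 1) * M₀ * e ≤ C * e := mul_le_mul_of_nonneg_right hCM he0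
  have h5 : M₀ * e ≤ 1 + 2 * e := by
    have k1 : 0 < C₁ * (3 * Qc + Qc ^ 2 + 1) := by positivity
    have k2 : C₁ * (3 * Qc + Qc ^ 2 + 1) * (M₀ * e) ≤
        C₁ * (3 * Qc + Qc ^ 2 + 1) * (1 + 2 * e) := by linarith
    exact le_of_mul_le_mul_left k2 k1
  rw [le_div_iff₀ (by linarith)]
  have h6 : (M₀ - 4) * e ≥ 0 := mul_nonneg (by linarith) he0
  linarith

/-- the first level -/
lemma lam_zero' (hm : Exponents K m) (hR : ∀ l ≤ K, 0 ≤ R l) :
    lam K m R 0 = Lam K m R 0 := by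
  unfold Vale.Agent.P166.F.Lam lam
  rw [Finset.range_eq_Ico, Finset.sum_eq_sum_Ico_succ_bot (Nat.succ_pos K)]
  have k1 : ∀ i ∈ Finset.Ico (0 + 1) (K + 1), (m (i + 1) - m i) * max (R i - 0) 0 =
      (m (i + 1) - m i) * R i := fun i hi => by
    have hi' := Finset.mem_Ico.1 hi
    rw [sub_zero, max_eq_left (hR i (by omega))]
  rw [Finset.sum_congr rfl k1, sub_zero, sub_zero, max_eq_left (hR 0 (Nat.zero_le _)), hm.1]
  ring

lemma good_zero (hm : Exponents K m) {V : ℕ → ℝ} {v : ℝ} (hV : ∀ l ≤ K, 0 ≤ V l)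
    (hVv : ∑ l ∈ Finset.range (K + 1), (m (l + 1) - m l) * V l ≤ v) :
    m (0 + 1) * √(V 0) ≤ 2 * √v := by
  have hm1 := m_pos' hm (Nat.zero_le K)
  have hm11 := m_le_one' hm (show 0 + 1 ≤ K + 1 by omega)
  have k1 : m (0 + 1) * V 0 ≤ v := by
    refine le_trans ?_ hVv
    have k2 := Finset.single_le_sum (f := fun l => (m (l + 1) - m l) * V l)
      (s := Finset.range (K + 1)) (fun l hl => mul_nonneg
        (wp hm (Nat.lt_succ_iff.1 (Finset.mem_range.1 hl)))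
        (hV l (Nat.lt_succ_iff.1 (Finset.mem_range.1 hl))))
      (Finset.mem_range.2 (Nat.succ_pos K) : 0 ∈ Finset.range (K + 1))
    simp only [hm.1, sub_zero] at k2
    exact k2
  have k3 := hV 0 (Nat.zero_le _)
  have k2 : m (0 + 1) * √(V 0) ≤ √v := by
    refine Real.le_sqrt_of_sq_le ?_
    rw [mul_pow, Real.sq_sqrt k3]
    have k4 : m (0 + 1) ^ 2 ≤ m (0 + 1) := by nlinarith
    exact (mul_le_mul_of_nonneg_right k4 k3).trans k1
  have := Real.sqrt_nonneg v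
  linarith

/-- the lower bound of the lowest eigenvalue -/
lemma low_num {β t a x u w A B lam e M₀ zr : ℝ} (ht : 0 < t) (ht1 : t ^ 2 ≤ 1) (hβ : 0 < β)
    (hx : x ≤ t ^ 2 / 64) (hx0 : 0 ≤ x) (ha0 : 0 ≤ a) (ha1 : a ≤ 1) (hat : 1 - a ≤ t ^ 2 / 64)
    (hz : zr ≤ 1 + t ^ 2) (hu : u = zr - β * a * lam) (hu0 : 0 < u) (hw : t ^ 2 / 2 ≤ w)
    (hw2 : w ≤ 2 * t ^ 2) (hlam : 1 - x ≤ β * lam) (he0 : 0 ≤ e) (hM : M₀ = 4 + 1024 * β)
    (he : e ≤ 2 / M₀) (h1 : |u * A + w * B - lam| ≤ e) (h2 : |w * A - u * B| ≤ e) :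
    1 / (64 * β * t ^ 2) ≤ B := by
  have ht2 : 0 < t ^ 2 := by positivity
  have h4 : u ≤ 2 * t ^ 2 := by
    have k1 := mul_le_mul_of_nonneg_left hlam ha0
    have k2 : β * a * lam = a * (β * lam) := by ring
    have k3 : a * x ≤ 1 * x := mul_le_mul_of_nonneg_right ha1 hx0
    rw [hu, k2]
    linarith
  have h5 : 1 / (2 * β) ≤ lam := by
    rw [div_le_iff₀ (by positivity)]
    linarith
  have h6 := im_lower ht hβ hu0 h4 hw hw2 h5 he0 h1 h2
  have h7 : 8 * e / t ^ 2 ≤ 1 / (64 * β * t ^ 2) := by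
    have k1 : 8 * e ≤ 1 / (64 * β) := by
      have k2 : 8 * (2 / M₀) ≤ 1 / (64 * β) := by
        rw [mul_div_assoc', div_le_div_iff₀ (by rw [hM]; positivity) (by positivity), hM]
        linarith
      linarith
    calc 8 * e / t ^ 2 ≤ 1 / (64 * β) / t ^ 2 := div_le_div_of_nonneg_right k1 ht2.le
      _ = 1 / (64 * β * t ^ 2) := by rw [div_div]
  have h8 : 1 / (32 * β * t ^ 2) = 1 / (64 * β * t ^ 2) + 1 / (64 * β * t ^ 2) := by
    field_simp
    norm_num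
  linarith

/-- the conclusion -/
lemma fin_num {β t Lc q e C J μ B0 B1 D0 D1 : ℝ} (ht : 0 < t) (hβ : 0 < β) (hLc : 1 ≤ Lc)
    (hLq : 256 * β * q ^ 2 ≤ Lc) (he0 : 0 ≤ e) (he1 : e ≤ 1 / 2) (hC : 0 < C)
    (hCL : 128 * β * Lc ≤ C) (hμ : Lc * t < μ) (hlow : 1 / (64 * β * t ^ 2) ≤ B0)
    (h1 : B0 - B1 ≤ Lc * t * (D0 - D1)) (h2 : B1 ≤ (1 + 2 * e) * (q ^ 2 / μ ^ 2))
    (hD0 : D0 ≤ J) (hD1 : 0 ≤ D1) (hJ : J < 1 / (C * t ^ 3)) : False := by
  have ht2 : 0 < t ^ 2 := by positivity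
  have hLc0 : 0 < Lc := by linarith
  have hμ0 : 0 < μ := lt_trans (by positivity) hμ
  have h3 : (1 + 2 * e) * (q ^ 2 / μ ^ 2) ≤ 1 / (128 * β * t ^ 2) := by
    have k1 : (Lc * t) ^ 2 ≤ μ ^ 2 := pow_le_pow_left₀ (by positivity) hμ.le 2
    have k2 : q ^ 2 / μ ^ 2 ≤ q ^ 2 / (Lc * t) ^ 2 :=
      div_le_div_of_nonneg_left (by positivity) (by positivity) k1
    have k3 : (1 + 2 * e) * (q ^ 2 / μ ^ 2) ≤ 2 * (q ^ 2 / (Lc * t) ^ 2) :=
      mul_le_mul (by linarith) k2 (by positivity) (by norm_num)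
    refine k3.trans ?_
    rw [mul_div_assoc', div_le_div_iff₀ (by positivity) (by positivity)]
    have k4 : 256 * β * q ^ 2 ≤ Lc ^ 2 := by nlinarith
    have k5 := mul_le_mul_of_nonneg_right k4 ht2.le
    calc 2 * q ^ 2 * (128 * β * t ^ 2) = 256 * β * q ^ 2 * t ^ 2 := by ring
      _ ≤ Lc ^ 2 * t ^ 2 := k5
      _ = 1 * (Lc * t) ^ 2 := by ring
  have h4 : Lc * t * (D0 - D1) ≤ Lc * t * J :=
    mul_le_mul_of_nonneg_left (by linarith) (by positivity)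
  have h5 : 1 / (128 * β * t ^ 2) ≤ Lc * t * J := by
    have k1 : 1 / (64 * β * t ^ 2) = 1 / (128 * β * t ^ 2) + 1 / (128 * β * t ^ 2) := by
      field_simp
      norm_num
    linarith
  have h6 : Lc * t * J < Lc * t * (1 / (C * t ^ 3)) := mul_lt_mul_of_pos_left hJ (by positivity)
  have h7 : Lc * t * (1 / (C * t ^ 3)) ≤ 1 / (128 * β * t ^ 2) := by
    have k1 : Lc * t * (1 / (C * t ^ 3)) = Lc / (C * t ^ 2) := by
      field_simp
    rw [k1, div_le_div_iff₀ (by positivity) (by positivity)]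
    have k2 := mul_le_mul_of_nonneg_right hCL ht2.le
    linarith
  linarith

end Vale.Agent.P146.H326.B7
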