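import Vale.Agent.P146.H326.Def7
import Vale.Agent.P146.R3.H729.Val2
import Vale.Agent.P146.R3.H732.LC2

set_option linter.all false

/-!
# P146, lower exponent `D = 7`: the reductions of the functional `L`
-/

open MeasureTheory ProbabilityTheory Finset Matrix

namespace Vale.Agent.P146.H326.B7

open Vale.Agent.P157 Vale.Agent.P157.Lv Vale.Agent.P157.Lv.Sy
open Vale.Agent.P146.Sk Vale.Agent.P146.Sk.Rec

variable {ι X : Type} [Fintype ι] [DecidableEq ι] [Fintype X] [DecidableEq X] [Nonempty X]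
  {S : Sy ι X} {N : ℕ} {φ : X → Fin N → ℝ} {A : (ι → ℝ) → Matrix (Fin N) (Fin N) ℝ}
  {α : (ι → ℝ) → ℝ} {D : ι → (ι → ℝ) → X → ℝ} {g : Ix N → ι} {c : ℝ}
  {B : Ix N → (ι → ℝ) → X → ℝ} {w : (ι → ℝ) → ℝ}

/-- `Me` is linear in the second vector -/
lemma me_lin (u y : Fin N → ℝ) (M : Matrix (Fin N) (Fin N) ℝ) (e : Ix N) (d : ℝ) :
    Me u (M *ᵥ y) e * d = (fun s => d / √(2 * (N : ℝ)) * (u e.1 * M e.2 s + u e.2 * M e.1 s)) ⬝ᵥ y := by
  simp only [Me, mulVec, dotProduct]
  rw [mul_sum, mul_sum, ← sum_add_distrib, sum_div, sum_mul]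
  refine sum_congr rfl fun s _ => ?_
  ring

/-- replacing a magnetization of a higher level -/
lemma Ex_me_yv (hS : S.Reg) {l b : ℕ} (hlb : l ≤ b) {u : (ι → ℝ) → Fin N → ℝ}
    (hu : ∀ a, Dep S.lev l (fun z => u z a)) (hue : ∀ a, EG (fun z => u z a))
    (hAe : EGM A) (hAd : ∀ a b, Dep S.lev 0 (fun z => A z a b)) (e : Ix N)
    {d : (ι → ℝ) → ℝ} (hd : Dep S.lev l d) (hde : EG d) :
    S.Ex (fun z x => Me (u z) (A z *ᵥ yv S φ b z x) e * d z) =
      S.Ex (fun z x => Me (u z) (A z *ᵥ φ x) e * d z) := by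
  simp only [me_lin]
  refine Ex_dep_dot (φ := φ) hS hlb (r := fun z s => d z / √(2 * (N : ℝ)) *
    (u z e.1 * A z e.2 s + u z e.2 * A z e.1 s)) (fun a z w => ?_) fun a => ?_
  · have h1 : d (mix S.lev l z w) = d z := hd z w
    have h2 : ∀ a, u (mix S.lev l z w) a = u z a := fun a => hu a z w
    have h3 : ∀ a b, A (mix S.lev l z w) a b = A z a b := fun a b =>
      ((hAd a b).mono (Nat.zero_le l)) z w
    simp only [h1, h2, h3]
  · have h1 : (fun z => d z / √(2 * (N : ℝ)) * (u z e.1 * A z e.2 a + u z e.2 * A z e.1 a)) =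
        fun z => 1 / √(2 * (N : ℝ)) * (d z * (u z e.1 * A z e.2 a + u z e.2 * A z e.1 a)) := by
      funext z
      ring
    rw [h1]
    exact EG.const_mul _ (hde.mul (((hue _).mul (hAe _ _)).add ((hue _).mul (hAe _ _))))

/-- the same for the first vector -/
lemma Ex_me_yv' (hS : S.Reg) {l b : ℕ} (hlb : l ≤ b) {v : (ι → ℝ) → Fin N → ℝ}
    (hv : ∀ a, Dep S.lev l (fun z => v z a)) (hve : ∀ a, EG (fun z => v z a)) (e : Ix N)
    {d : (ι → ℝ) → ℝ} (hd : Dep S.lev l d) (hde : EG d) :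
    S.Ex (fun z x => Me (yv S φ b z x) (v z) e * d z) =
      S.Ex (fun z x => Me (φ x) (v z) e * d z) := by
  have h := Ex_me_yv (φ := φ) (A := fun _ => (1 : Matrix (Fin N) (Fin N) ℝ)) hS hlb hv hve
    (EGM.const _) (fun a b z w => rfl) e hd hde
  simp only [one_mulVec] at h
  simp only [Me_comm _ (v _)]
  exact h

lemma dep_yv {j l : ℕ} (hj : j ≤ S.K) (hjl : j ≤ l) (a : Fin N) :
    Dep S.lev l (fun z => (fun a => S.mg φ j a z) a) := (Fld.dep_mg S φ j a).mono hjl

/-- the functional with a given coefficient -/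
lemma LL_le_K (hS : S.Reg) {i : ℕ} (hi : i ≤ S.K) (a b : ℕ) :
    LL S D g φ A i a b = 1 / N * S.Ex (fun z x => ∑ e,
      Me (yv S φ a z x) (A z *ᵥ yv S φ b z x) e * S.T i (D (g e)) z) := by
  have h : ∀ e, Ti S i (D (g e)) = fun z _ => S.T i (D (g e)) z := fun e => by
    unfold Ti
    rw [if_pos hi]
  unfold LL
  simp only [h]

lemma LL_sum (hC : Ctx S D g φ c B w) (hA : LMat S A α) {i : ℕ} (hi : i ≤ S.K) (a b : ℕ) :
    LL S D g φ A i a b = 1 / N * ∑ e, S.Ex (fun z x =>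
      Me (yv S φ a z x) (A z *ᵥ yv S φ b z x) e * S.T i (D (g e)) z) := by
  have hS := hC.reg.toReg
  rw [LL_le_K hS hi, hS.Ex_sum _ fun e _ => Nh.mul
    ((nhv_yv hS a).me ((nhv_yv hS b).mulVec hA.eg) e) (Nh.fst (hS.eg_T hi (hC.reg.nh (g e))))]

/-- `a ≤ b`, the second index may be changed as long as it is at least `max a i` -/
lemma LL_red_b (hC : Ctx S D g φ c B w) (hA : LMat S A α) {i a b : ℕ} (hi : i ≤ S.K)
    (ha : a ≤ S.K) (hab : a ≤ b) (hib : i ≤ b) :
    LL S D g φ A i a b = 1 / N * ∑ e, S.Ex (fun z x =>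
      Me (yv S φ a z x) (A z *ᵥ φ x) e * S.T i (D (g e)) z) := by
  have hS := hC.reg.toReg
  rw [LL_sum hC hA hi]
  congr 1
  refine sum_congr rfl fun e _ => ?_
  simp only [yv_le ha]
  refine Ex_me_yv (φ := φ) (l := max a i) (u := fun z a' => S.mg φ a a' z) hS
    (max_le hab hib) (fun a' => dep_yv ha (le_max_left _ _) a') (fun a' => Fld.eg_mg hS ha a')
    hA.eg hA.dep e ((S.dep_T i _).mono (le_max_right _ _)) (hS.eg_T hi (hC.reg.nh (g e)))

lemma LL_red_a (hC : Ctx S D g φ c B w) (hA : LMat S A α) {i a b : ℕ} (hi : i ≤ S.K)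
    (hb : b ≤ S.K) (hab : b ≤ a) (hib : i ≤ a) :
    LL S D g φ A i a b = 1 / N * ∑ e, S.Ex (fun z x =>
      Me (φ x) (A z *ᵥ yv S φ b z x) e * S.T i (D (g e)) z) := by
  have hS := hC.reg.toReg
  rw [LL_sum hC hA hi]
  congr 1
  refine sum_congr rfl fun e _ => ?_
  simp only [yv_le hb]
  refine Ex_me_yv' (φ := φ) (l := max b i) (v := fun z => A z *ᵥ fun a' => S.mg φ b a' z) hS
    (max_le hab hib) (fun a' => (dep_mulVec (i := b) hA.dep (dep_mgv S φ b) a').mono
      (le_max_left _ _)) (fun a' => eg_mulVec hA.eg (fun a => Fld.eg_mg hS hb a) a')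
    e ((S.dep_T i _).mono (le_max_right _ _)) (hS.eg_T hi (hC.reg.nh (g e)))

/-- **The reductions.** -/
theorem red (hC : Ctx S D g φ c B w) (hA : LMat S A α) : Red S.K (LL S D g φ A) := by
  have hS := hC.reg.toReg
  have nD : ∀ e, Nh (D (g e)) := fun e => hC.reg.nh (g e)
  refine ⟨?_, ?_, ?_, ?_⟩
  · intro i a b hi hia hib ha hb
    rcases le_total a b with hab | hab
    · rw [min_eq_left hab]
      rcases le_or_gt a S.K with haK | haK
      · rw [LL_red_b hC hA hi haK hab hib, LL_red_b hC hA hi haK le_rfl hia]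
      · have : a = b := by omega
        rw [this]
    · rw [min_eq_right hab]
      rcases le_or_gt b S.K with hbK | hbK
      · rw [LL_red_a hC hA hi hbK hab hia, LL_red_a hC hA hi hbK le_rfl hib]
      · have : a = b := by omega
        rw [this]
  · intro i a b hi hai hbi
    have haK := hai.trans hi
    have hbK := hbi.trans hi
    rw [LL_sum hC hA hi]
    have h0 : ∀ e, Ti S (S.K + 1) (D (g e)) = D (g e) := fun e => by
      unfold Ti
      rw [if_neg (by omega)]
    unfold LL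
    simp only [h0]
    rw [hS.Ex_sum _ fun e _ => Nh.mul
      ((nhv_yv hS a).me ((nhv_yv hS b).mulVec hA.eg) e) (nD e)]
    congr 1
    refine sum_congr rfl fun e _ => ?_
    simp only [yv_le haK, yv_le hbK]
    refine hS.Ex_mul_T hi (φ := fun z => Me (fun a' => S.mg φ a a' z)
      (A z *ᵥ fun a' => S.mg φ b a' z) e) ?_ ?_ (nD e)
    · intro z w'
      have h1 : ∀ a', S.mg φ a a' (mix S.lev i z w') = S.mg φ a a' z := fun a' =>
        dep_yv haK hai a' z w'
      have h2 : ∀ a', (A (mix S.lev i z w') *ᵥ fun a' => S.mg φ b a' (mix S.lev i z w')) a' =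
          (A z *ᵥ fun a' => S.mg φ b a' z) a' := fun a' =>
        (dep_mulVec (i := b) hA.dep (dep_mgv S φ b) a').mono hbi z w'
      simp only [Me, h1, h2]
    · have h1 : ∀ a', EG (fun z => S.mg φ a a' z) := fun a' => Fld.eg_mg hS haK a'
      have h2 : ∀ a', EG (fun z => (A z *ᵥ fun a' => S.mg φ b a' z) a') := fun a' =>
        eg_mulVec hA.eg (fun a => Fld.eg_mg hS hbK a) a'
      have h3 : (fun z => Me (fun a' => S.mg φ a a' z) (A z *ᵥ fun a' => S.mg φ b a' z) e) =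
          fun z => 1 / √(2 * (N : ℝ)) * (S.mg φ a e.1 z * (A z *ᵥ fun a' => S.mg φ b a' z) e.2 +
            S.mg φ a e.2 z * (A z *ᵥ fun a' => S.mg φ b a' z) e.1) := by
        funext z
        simp only [Me]
        ring
      rw [h3]
      exact EG.const_mul _ (((h1 _).mul (h2 _)).add ((h1 _).mul (h2 _)))
  · intro i a b hi hai hib hb
    have haK := hai.trans hi
    rw [LL_red_b hC hA hi haK (hai.trans hib) hib, LL_red_b hC hA hi haK hai le_rfl]
  · intro i a b hi hbi hia ha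
    have hbK := hbi.trans hi
    rw [LL_red_a hC hA hi hbK (hbi.trans hia) hia, LL_red_a hC hA hi hbK hbi le_rfl]

end Vale.Agent.P146.H326.B7
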