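import Vale.Agent.P146.H326.Ev1

set_option linter.all false

/-!
# P146, lower exponent `D = 7`: the bounds of the centred functional
-/

open MeasureTheory ProbabilityTheory Finset Matrix

namespace Vale.Agent.P146.H326.B7

open Vale.Agent.P157 Vale.Agent.P157.Lv Vale.Agent.P157.Lv.Sy
open Vale.Agent.P146.Sk Vale.Agent.P146.Sk.Rec

variable {ι X : Type} [Fintype ι] [DecidableEq ι] [Fintype X] [DecidableEq X] [Nonempty X]
  {S : Sy ι X} {N : ℕ} {φ : X → Fin N → ℝ} {A P Q : (ι → ℝ) → Matrix (Fin N) (Fin N) ℝ}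
  {α : (ι → ℝ) → ℝ} {D : ι → (ι → ℝ) → X → ℝ} {g : Ix N → ι} {c κ : ℝ}
  {B : Ix N → (ι → ℝ) → X → ℝ} {w : (ι → ℝ) → ℝ}

/-- the centred configuration -/
noncomputable def dv (S : Sy ι X) (φ : X → Fin N → ℝ) (j : ℕ) (z : ι → ℝ) (x : X) : Fin N → ℝ :=
  φ x - yv S φ j z x

lemma nhv_dv (hS : S.Reg) (j : ℕ) : NhV (dv S φ j) := by
  intro a
  have h : (fun z x => dv S φ j z x a) = fun z x => φ x a - yv S φ j z x a := rfl
  rw [h]
  exact Nh.sub (nhv_phi a) (nhv_yv hS j a)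

/-- the functional for two vectors -/
noncomputable def LV (S : Sy ι X) (D : ι → (ι → ℝ) → X → ℝ) (g : Ix N → ι) (i : ℕ)
    (u v : (ι → ℝ) → X → Fin N → ℝ) : ℝ :=
  1 / N * S.Ex (fun z x => ∑ e, Me (u z x) (v z x) e * Ti S i (D (g e)) z x)

lemma gm_eq (hC : Ctx S D g φ c B w) (hA : EGM A) (i j k : ℕ) :
    Gm S.K (LL S D g φ A) i j k =
      LV S D g i (dv S φ j) (fun z x => A z *ᵥ dv S φ k z x) := by
  have hS := hC.reg.toReg
  have nT : ∀ e, Nh (Ti S i (D (g e))) := fun e => nh_Ti hS i (hC.reg.nh (g e))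
  have ey : ∀ z x, yv S φ (S.K + 1) z x = φ x := fun z x => yv_gt (by omega) z x
  have n : ∀ a b, Nh (fun z x => ∑ e, Me (yv S φ a z x) (A z *ᵥ yv S φ b z x) e *
      Ti S i (D (g e)) z x) := fun a b => Nh.sum _ fun e _ => Nh.mul
        ((nhv_yv hS a).me ((nhv_yv hS b).mulVec hA) e) (nT e)
  have e1 : (fun z x => ∑ e, Me (dv S φ j z x) (A z *ᵥ dv S φ k z x) e *
      Ti S i (D (g e)) z x) = fun z x =>
      ((∑ e, Me (yv S φ (S.K + 1) z x) (A z *ᵥ yv S φ (S.K + 1) z x) e * Ti S i (D (g e)) z x -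
      ∑ e, Me (yv S φ (S.K + 1) z x) (A z *ᵥ yv S φ k z x) e * Ti S i (D (g e)) z x) -
      ∑ e, Me (yv S φ j z x) (A z *ᵥ yv S φ (S.K + 1) z x) e * Ti S i (D (g e)) z x) +
      ∑ e, Me (yv S φ j z x) (A z *ᵥ yv S φ k z x) e * Ti S i (D (g e)) z x := by
    funext z x
    rw [← sum_sub_distrib, ← sum_sub_distrib, ← sum_add_distrib]
    refine sum_congr rfl fun e _ => ?_
    unfold dv
    rw [ey, mulVec_sub]
    simp only [Me, Pi.sub_apply]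
    ring
  unfold Gm LV LL
  rw [e1, hS.Ex_add (Nh.sub (Nh.sub (n _ _) (n _ _)) (n _ _)) (n _ _),
    hS.Ex_sub (Nh.sub (n _ _) (n _ _)) (n _ _), hS.Ex_sub (n _ _) (n _ _)]
  ring

/-- the products of the coordinates -/
lemma sum_Me_Me' (hN : 0 < N) (u v p q : Fin N → ℝ) :
    ∑ e : Ix N, Me u v e * Me p q e =
      1 / N * ((u ⬝ᵥ p) * (v ⬝ᵥ q) + (u ⬝ᵥ q) * (v ⬝ᵥ p)) := by
  have hN' : (0 : ℝ) < N := by exact_mod_cast hN
  have h2 : √(2 * (N : ℝ)) * √(2 * (N : ℝ)) = 2 * N := Real.mul_self_sqrt (by positivity)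
  rw [Fintype.sum_prod_type]
  have h1 : ∀ a b : Fin N, Me u v (a, b) * Me p q (a, b) =
      1 / (2 * N) * ((u a * p a) * (v b * q b)) + 1 / (2 * N) * ((u a * q a) * (v b * p b)) +
      (1 / (2 * N) * ((v a * p a) * (u b * q b)) + 1 / (2 * N) * ((v a * q a) * (u b * p b))) := by
    intro a b
    simp only [Me]
    rw [div_mul_div_comm, h2]
    field_simp
  simp only [h1, sum_add_distrib, ← mul_sum, ← sum_mul, dotProduct]
  field_simp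
  ring

/-- averages of functions with coefficients of the level zero -/
lemma Ex_Ti_PE (hS : S.Reg) (i : ℕ) {M F : Ix N → (ι → ℝ) → X → ℝ} (hF : ∀ e, Nh (F e))
    (hd : ∀ e x, Dep S.lev 0 (fun z => F e z x)) :
    S.Ex (fun z x => ∑ e, M e z x * Ti S i (F e) z x) =
      PE S i (fun z x x' => ∑ e, M e z x * F e z x') := by
  unfold PE Ti
  split_ifs with hi
  · congr 1
    funext z x
    have h1 : ∀ e : Ix N, S.T i (F e) z = ∑ x', S.pr i z x' * F e z x' := fun e =>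
      Vale.Agent.P146.R3.H732.LC.T_pr0 hS hi (hF e) (hd e) z
    simp only [h1, mul_sum]
    rw [sum_comm]
    exact sum_congr rfl fun x' _ => sum_congr rfl fun e _ => by ring
  · rfl

/-- the pair functional -/
noncomputable def PF (S : Sy ι X) (φ : X → Fin N → ℝ) (i : ℕ)
    (P Q : (ι → ℝ) → Matrix (Fin N) (Fin N) ℝ) (u v : (ι → ℝ) → X → Fin N → ℝ) : ℝ :=
  PE S i (fun z x x' => (1 / (N : ℝ) * ((P z *ᵥ u z x) ⬝ᵥ φ x')) *
    (1 / (N : ℝ) * ((Q z *ᵥ v z x) ⬝ᵥ φ x')))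

lemma nh2_dot {u : (ι → ℝ) → X → Fin N → ℝ} (hu : NhV u) (hP : EGM P) :
    Nh2 (fun z x x' => 1 / (N : ℝ) * ((P z *ᵥ u z x) ⬝ᵥ φ x')) := fun x' =>
  Nh.const_mul _ ((hu.mulVec hP).dot fun a => Nh.snd fun _ => φ x' a)

/-- the second moment of a vector -/
noncomputable def E2 (S : Sy ι X) (P : (ι → ℝ) → Matrix (Fin N) (Fin N) ℝ)
    (u : (ι → ℝ) → X → Fin N → ℝ) : ℝ := S.Ex (fun z x => 1 / (N : ℝ) * nv (P z *ᵥ u z x) ^ 2)

lemma nh_nv2 {u : (ι → ℝ) → X → Fin N → ℝ} (hu : NhV u) (hP : EGM P) :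
    Nh (fun z x => 1 / (N : ℝ) * nv (P z *ᵥ u z x) ^ 2) := by
  simp only [nv_sq]
  exact Nh.const_mul _ (Nh.sum _ fun a _ => Nh.pow (hu.mulVec hP a) 2)

lemma PE_sq_le (hS : S.Reg) (hN : 0 < N) (hφ : ∀ x, ∑ i, φ x i ^ 2 = N) (i : ℕ)
    {u : (ι → ℝ) → X → Fin N → ℝ} (hu : NhV u) (hP : EGM P) :
    PE S i (fun z x x' => (1 / (N : ℝ) * ((P z *ᵥ u z x) ⬝ᵥ φ x')) ^ 2) ≤ E2 S P u := by
  have hN' : (0 : ℝ) < N := by exact_mod_cast hN
  unfold E2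
  rw [← PE_fst hS i (fun z x => 1 / (N : ℝ) * nv (P z *ᵥ u z x) ^ 2)]
  refine PE_mono hS i ((nh2_dot hu hP).pow 2) (Nh2.of _ (nh_nv2 hu hP)) fun z x x' => ?_
  have h1 : ((P z *ᵥ u z x) ⬝ᵥ φ x') ^ 2 ≤ nv (P z *ᵥ u z x) ^ 2 * nv (φ x') ^ 2 := by
    rw [← mul_pow, ← sq_abs]
    exact pow_le_pow_left₀ (abs_nonneg _) (abs_dot_le _ _) 2
  rw [nv_phi hφ] at h1
  rw [mul_pow, one_div, inv_pow, inv_mul_le_iff₀ (by positivity)]
  refine h1.trans (le_of_eq ?_)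
  field_simp

lemma PF_le (hS : S.Reg) (hN : 0 < N) (hφ : ∀ x, ∑ i, φ x i ^ 2 = N) (i : ℕ)
    {u v : (ι → ℝ) → X → Fin N → ℝ} (hu : NhV u) (hv : NhV v) (hP : EGM P) (hQ : EGM Q) :
    |PF S φ i P Q u v| ≤ √(E2 S P u) * √(E2 S Q v) := by
  refine (PE_cs hS i (nh2_dot hu hP) (nh2_dot hv hQ)).trans ?_
  exact mul_le_mul (Real.sqrt_le_sqrt (PE_sq_le hS hN hφ i hu hP))
    (Real.sqrt_le_sqrt (PE_sq_le hS hN hφ i hv hQ)) (Real.sqrt_nonneg _) (Real.sqrt_nonneg _)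

/-- **The functional as a sum of pair functionals.** -/
theorem LV_eq (hC : Ctx S D g φ c B w) (hP : LMat S P α) (hQ : LMat S Q α)
    (hB : ∀ e z x, B e z x = κ * Me (P z *ᵥ φ x) (Q z *ᵥ φ x) e) (i : ℕ)
    {u v : (ι → ℝ) → X → Fin N → ℝ} (hu : NhV u) (hv : NhV v) :
    LV S D g i u v = c * PF S φ i (fun _ => 1) (fun _ => 1) u v +
      κ * (PF S φ i P Q u v + PF S φ i Q P u v) := by
  have hS := hC.reg.toReg
  have hN' : (0 : ℝ) < N := by exact_mod_cast hC.N0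
  have nM : ∀ e : Ix N, Nh (fun z x => Me (u z x) (v z x) e) := fun e => hu.me hv e
  have nP : ∀ e : Ix N, Nh (ι := ι) (fun _ x => φ x e.1 * φ x e.2 / √(2 * (N : ℝ))) := fun e =>
    Nh.snd fun x => φ x e.1 * φ x e.2 / √(2 * (N : ℝ))
  have nF : ∀ e : Ix N, Nh (fun z x => Me (P z *ᵥ φ x) (Q z *ᵥ φ x) e) := fun e =>
    (nhv_phi.mulVec hP.eg).me (nhv_phi.mulVec hQ.eg) e
  have dF : ∀ (e : Ix N) x, Dep S.lev 0 (fun z => Me (P z *ᵥ φ x) (Q z *ᵥ φ x) e) := by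
    intro e x z w'
    have h1 : ∀ a b, P (mix S.lev 0 z w') a b = P z a b := fun a b => hP.dep a b z w'
    have h2 : ∀ a b, Q (mix S.lev 0 z w') a b = Q z a b := fun a b => hQ.dep a b z w'
    simp only [Me, mulVec, dotProduct, h1, h2]
  have hD : ∀ e : Ix N, D (g e) = fun z x =>
      c * (fun (_ : ι → ℝ) (x : X) => φ x e.1 * φ x e.2 / √(2 * (N : ℝ))) z x +
      κ * (fun z x => Me (P z *ᵥ φ x) (Q z *ᵥ φ x) e) z x := by
    intro e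
    funext z x
    rw [hC.dB e z x, hB]
  have e1 : (fun z x => ∑ e, Me (u z x) (v z x) e * Ti S i (D (g e)) z x) = fun z x =>
      c * ∑ e, Me (u z x) (v z x) e *
        Ti S i (fun _ x => φ x e.1 * φ x e.2 / √(2 * (N : ℝ))) z x +
      κ * ∑ e, Me (u z x) (v z x) e *
        Ti S i (fun z x => Me (P z *ᵥ φ x) (Q z *ᵥ φ x) e) z x := by
    funext z x
    rw [mul_sum, mul_sum, ← sum_add_distrib]
    refine sum_congr rfl fun e _ => ?_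
    rw [hD e, Ti_add hS i (Nh.const_mul c (nP e)) (Nh.const_mul κ (nF e)), Ti_const_mul,
      Ti_const_mul]
    ring
  have n1 : Nh (fun z x => ∑ e, Me (u z x) (v z x) e *
        Ti S i (fun _ x => φ x e.1 * φ x e.2 / √(2 * (N : ℝ))) z x) :=
    Nh.sum _ fun e _ => Nh.mul (nM e) (nh_Ti hS i (nP e))
  have n2 : Nh (fun z x => ∑ e, Me (u z x) (v z x) e *
        Ti S i (fun z x => Me (P z *ᵥ φ x) (Q z *ᵥ φ x) e) z x) :=
    Nh.sum _ fun e _ => Nh.mul (nM e) (nh_Ti hS i (nF e))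
  unfold LV
  rw [e1, hS.Ex_add (Nh.const_mul c n1) (Nh.const_mul κ n2), Sy.Ex_const_mul, Sy.Ex_const_mul,
    Ex_Ti_PE hS i nP (fun e x z w' => rfl), Ex_Ti_PE hS i nF dF]
  have h1 : (fun (z : ι → ℝ) (x x' : X) => ∑ e : Ix N, Me (u z x) (v z x) e *
      (φ x' e.1 * φ x' e.2 / √(2 * (N : ℝ)))) = fun z x x' => (N : ℝ) *
      ((1 / (N : ℝ) * (((1 : Matrix (Fin N) (Fin N) ℝ) *ᵥ u z x) ⬝ᵥ φ x')) *
      (1 / (N : ℝ) * (((1 : Matrix (Fin N) (Fin N) ℝ) *ᵥ v z x) ⬝ᵥ φ x'))) := by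
    funext z x x'
    rw [sum_Me_mul hC.N0, one_mulVec, one_mulVec]
    field_simp
  have h2 : (fun (z : ι → ℝ) (x x' : X) => ∑ e : Ix N, Me (u z x) (v z x) e *
      Me (P z *ᵥ φ x') (Q z *ᵥ φ x') e) = fun z x x' => (N : ℝ) *
      ((1 / (N : ℝ) * ((P z *ᵥ u z x) ⬝ᵥ φ x')) * (1 / (N : ℝ) * ((Q z *ᵥ v z x) ⬝ᵥ φ x')) +
      (1 / (N : ℝ) * ((Q z *ᵥ u z x) ⬝ᵥ φ x')) * (1 / (N : ℝ) * ((P z *ᵥ v z x) ⬝ᵥ φ x'))) := by
    funext z x x'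
    have k1 : ∀ (r : Fin N → ℝ), r ⬝ᵥ (P z *ᵥ φ x') = (P z *ᵥ r) ⬝ᵥ φ x' := fun r => by
      rw [dotProduct_comm, symm_dot (hP.symm z)]
    have k2 : ∀ (r : Fin N → ℝ), r ⬝ᵥ (Q z *ᵥ φ x') = (Q z *ᵥ r) ⬝ᵥ φ x' := fun r => by
      rw [dotProduct_comm, symm_dot (hQ.symm z)]
    rw [sum_Me_Me' hC.N0, k1, k2, k1, k2]
    field_simp
  rw [h1, h2, PE_const_mul, PE_const_mul, PE_add hS i
    ((nh2_dot hu hP.eg).mul (nh2_dot hv hQ.eg)) ((nh2_dot hu hQ.eg).mul (nh2_dot hv hP.eg))]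
  unfold PF
  field_simp

end Vale.Agent.P146.H326.B7
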