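import Vale.Agent.P146.H326.Ev2

set_option linter.all false

/-!
# P146, lower exponent `D = 7`: the bounds of the centred functional, part 2
-/

open MeasureTheory ProbabilityTheory Finset Matrix

namespace Vale.Agent.P146.H326.B7

open Vale.Agent.P157 Vale.Agent.P157.Lv Vale.Agent.P157.Lv.Sy
open Vale.Agent.P146.Sk Vale.Agent.P146.Sk.Rec

variable {ι X : Type} [Fintype ι] [DecidableEq ι] [Fintype X] [DecidableEq X] [Nonempty X]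
  {S : Sy ι X} {N : ℕ} {φ : X → Fin N → ℝ} {A A₁ P Q : (ι → ℝ) → Matrix (Fin N) (Fin N) ℝ}
  {α α' : (ι → ℝ) → ℝ} {D : ι → (ι → ℝ) → X → ℝ} {g : Ix N → ι} {c κ y : ℝ}
  {B : Ix N → (ι → ℝ) → X → ℝ} {w : (ι → ℝ) → ℝ}

/-- the mixed forms -/
lemma Ex_cross (hS : S.Reg) (hA : LMat S A α) {j k : ℕ} (hjk : j ≤ k) (hk : k ≤ S.K + 1) :
    S.Ex (fun z x => (A z *ᵥ yv S φ j z x) ⬝ᵥ yv S φ k z x) =
      S.Ex (fun z x => (A z *ᵥ yv S φ j z x) ⬝ᵥ yv S φ j z x) := by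
  rcases le_or_gt j S.K with hj | hj
  · have h1 : ∀ k, j ≤ k → S.Ex (fun z x => (A z *ᵥ yv S φ j z x) ⬝ᵥ yv S φ k z x) =
        S.Ex (fun z x => (A z *ᵥ fun a => S.mg φ j a z) ⬝ᵥ φ x) := by
      intro k hk'
      have h := Ex_dep_dot (φ := φ) hS hk' (r := fun z => A z *ᵥ fun a => S.mg φ j a z)
        (dep_mulVec hA.dep (dep_mgv S φ j)) (eg_mulVec hA.eg fun a => Fld.eg_mg hS hj a)
      rw [← h]
      congr 1
      funext z x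
      rw [yv_le hj]
    rw [h1 k hjk, h1 j le_rfl]
  · have : j = k := by omega
    rw [this]

/-- the form of a difference -/
lemma Ex_form_sub (hS : S.Reg) (hA : LMat S A α) {j k : ℕ} (hjk : j ≤ k) (hk : k ≤ S.K + 1) :
    S.Ex (fun z x => 1 / (N : ℝ) * ((A z *ᵥ (yv S φ k z x - yv S φ j z x)) ⬝ᵥ
      (yv S φ k z x - yv S φ j z x))) = TT S φ A k - TT S φ A j := by
  have n : ∀ a b, Nh (fun z x => (A z *ᵥ yv S φ a z x) ⬝ᵥ yv S φ b z x) := fun a b =>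
    ((nhv_yv hS a).mulVec hA.eg).dot (nhv_yv hS b)
  have e1 : (fun z x => (A z *ᵥ (yv S φ k z x - yv S φ j z x)) ⬝ᵥ
      (yv S φ k z x - yv S φ j z x)) = fun z x =>
      ((A z *ᵥ yv S φ k z x) ⬝ᵥ yv S φ k z x - 2 * ((A z *ᵥ yv S φ j z x) ⬝ᵥ yv S φ k z x)) +
      (A z *ᵥ yv S φ j z x) ⬝ᵥ yv S φ j z x := by
    funext z x
    rw [mulVec_sub, sub_dotProduct, dotProduct_sub, dotProduct_sub,
      symm_dot (hA.symm z) (yv S φ k z x) (yv S φ j z x)]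
    ring
  rw [Sy.Ex_const_mul, e1, hS.Ex_add (Nh.sub (n _ _) (Nh.const_mul _ (n _ _))) (n _ _),
    hS.Ex_sub (n _ _) (Nh.const_mul _ (n _ _)), Sy.Ex_const_mul, Ex_cross hS hA hjk hk]
  unfold Rec.TT
  ring

/-- The pair of the real and the imaginary part. -/
structure RQ (S : Sy ι X) (P Q : (ι → ℝ) → Matrix (Fin N) (Fin N) ℝ) (y : ℝ) : Prop where
  y0 : 0 < y
  lP : LMat S P (fun _ => 1 / y)
  lQ : LMat S Q (fun _ => 1 / y)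
  qP : ∀ z v, nv (P z *ᵥ v) ^ 2 ≤ 1 / y * ((Q z *ᵥ v) ⬝ᵥ v)
  qQ : ∀ z v, nv (Q z *ᵥ v) ^ 2 ≤ 1 / y * ((Q z *ᵥ v) ⬝ᵥ v)

/-- the decrease of the form -/
noncomputable def Dj (S : Sy ι X) (φ : X → Fin N → ℝ) (Q : (ι → ℝ) → Matrix (Fin N) (Fin N) ℝ)
    (j : ℕ) : ℝ := TT S φ Q (S.K + 1) - TT S φ Q j

lemma RQ.nn (h : RQ S P Q y) (z : ι → ℝ) (v : Fin N → ℝ) : 0 ≤ (Q z *ᵥ v) ⬝ᵥ v := by
  have h1 := (sq_nonneg _).trans (h.qQ z v)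
  have h2 : 0 < 1 / y := one_div_pos.2 h.y0
  exact (mul_nonneg_iff_of_pos_left h2).1 h1

lemma TT_mono (hS : S.Reg) (h : RQ S P Q y) {j k : ℕ} (hjk : j ≤ k) (hk : k ≤ S.K + 1) :
    TT S φ Q j ≤ TT S φ Q k := by
  have h1 := Ex_form_sub (φ := φ) hS h.lQ hjk hk
  have h2 : 0 ≤ S.Ex (fun z x => 1 / (N : ℝ) * ((Q z *ᵥ (yv S φ k z x - yv S φ j z x)) ⬝ᵥ
      (yv S φ k z x - yv S φ j z x))) := by
    rw [← hS.Ex_const 0]
    have n : NhV (fun z x => yv S φ k z x - yv S φ j z x) := fun a =>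
      Nh.sub (nhv_yv hS k a) (nhv_yv hS j a)
    exact hS.Ex_mono (Nh.fst (EG.const 0)) (Nh.const_mul _ ((n.mulVec h.lQ.eg).dot n))
      fun z x => mul_nonneg (by positivity) (h.nn z _)
  linarith

lemma Dj_nonneg (hS : S.Reg) (h : RQ S P Q y) {j : ℕ} (hj : j ≤ S.K + 1) : 0 ≤ Dj S φ Q j :=
  sub_nonneg.2 (TT_mono hS h hj le_rfl)

lemma Dj_anti (hS : S.Reg) (h : RQ S P Q y) {j k : ℕ} (hjk : j ≤ k) (hk : k ≤ S.K + 1) :
    Dj S φ Q k ≤ Dj S φ Q j := sub_le_sub_left (TT_mono hS h hjk hk) _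

lemma nh_form' {u : (ι → ℝ) → X → Fin N → ℝ} (hu : NhV u) (hP : EGM P) :
    Nh (fun z x => 1 / (N : ℝ) * ((P z *ᵥ u z x) ⬝ᵥ u z x)) :=
  Nh.const_mul _ ((hu.mulVec hP).dot hu)

lemma Ex_form_dv (hS : S.Reg) (hA : LMat S A α) {j : ℕ} (hj : j ≤ S.K + 1) :
    S.Ex (fun z x => 1 / (N : ℝ) * ((A z *ᵥ dv S φ j z x) ⬝ᵥ dv S φ j z x)) = Dj S φ A j := by
  have h1 := Ex_form_sub (φ := φ) hS hA hj le_rfl
  have e : ∀ z x, yv S φ (S.K + 1) z x = φ x := fun z x => yv_gt (by omega) z x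
  simp only [e] at h1
  exact h1

/-- the second moments of the centred configurations -/
lemma E2_le (hS : S.Reg) (h : RQ S P Q y) (hA : EGM A)
    (hq : ∀ z v, nv (A z *ᵥ v) ^ 2 ≤ 1 / y * ((Q z *ᵥ v) ⬝ᵥ v)) {j : ℕ} (hj : j ≤ S.K + 1) :
    E2 S A (dv S φ j) ≤ Dj S φ Q j / y := by
  have n1 := nh_nv2 (nhv_dv (φ := φ) hS j) hA
  have n2 := nh_form' (nhv_dv (φ := φ) hS j) h.lQ.eg
  have h1 : E2 S A (dv S φ j) ≤ S.Ex (fun z x => 1 / y * (1 / (N : ℝ) *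
      ((Q z *ᵥ dv S φ j z x) ⬝ᵥ dv S φ j z x))) := by
    refine hS.Ex_mono n1 (Nh.const_mul _ n2) fun z x => ?_
    have h2 := mul_le_mul_of_nonneg_left (hq z (dv S φ j z x))
      (show (0 : ℝ) ≤ 1 / (N : ℝ) by positivity)
    refine h2.trans (le_of_eq ?_)
    ring
  rw [Sy.Ex_const_mul, Ex_form_dv hS h.lQ hj] at h1
  refine h1.trans (le_of_eq ?_)
  ring

/-- the images -/
lemma E2_op (hS : S.Reg) {u : (ι → ℝ) → X → Fin N → ℝ} (hu : NhV u) (hA : EGM A) (hA₁ : EGM A₁)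
    {r : ℝ} (hr : 0 ≤ r) (ho : ∀ z, OpB (A₁ z) r) :
    E2 S A₁ (fun z x => A z *ᵥ u z x) ≤ r ^ 2 * E2 S A u := by
  unfold E2
  rw [← Sy.Ex_const_mul]
  refine hS.Ex_mono (nh_nv2 (hu.mulVec hA) hA₁) (Nh.const_mul _ (nh_nv2 hu hA)) fun z x => ?_
  have h1 := pow_le_pow_left₀ (nv_nonneg _) (ho z (A z *ᵥ u z x)) 2
  rw [mul_pow] at h1
  have h2 := mul_le_mul_of_nonneg_left h1 (show (0 : ℝ) ≤ 1 / (N : ℝ) by positivity)
  refine h2.trans (le_of_eq ?_)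
  ring

lemma E2_one (hS : S.Reg) {u : (ι → ℝ) → X → Fin N → ℝ} (hu : NhV u) (hA : EGM A) :
    E2 S (fun _ => 1) (fun z x => A z *ᵥ u z x) = E2 S A u := by
  unfold E2
  simp only [one_mulVec]

/-- the centred overlap, upper levels -/
lemma PE_dv (hS : S.Reg) (hN : 0 < N) (hφ : ∀ x, ∑ i, φ x i ^ 2 = N) {i j : ℕ} (hi : i ≤ S.K)
    (hij : i ≤ j) (hj : j ≤ S.K + 1) :
    PE S i (fun z x x' => (1 / (N : ℝ) * ((((1 : Matrix (Fin N) (Fin N) ℝ)) *ᵥ dv S φ j z x) ⬝ᵥ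
      φ x')) ^ 2) ≤ 4 * vv S φ i := by
  have nb : ∀ k, Nh2 (fun (z : ι → ℝ) (x x' : X) => 1 / (N : ℝ) * (yv S φ k z x ⬝ᵥ φ x') -
      RR S φ i) := fun k x' =>
    Nh.sub (Nh.const_mul _ ((nhv_yv hS k).dot fun a => Nh.snd fun _ => φ x' a))
      (Nh.fst (EG.const _))
  have h1 := PE_ov (i := i) (j := S.K + 1) hS hN hφ (by omega) le_rfl
  have h2 := PE_ov (i := i) (j := j) hS hN hφ (by omega) hj
  rw [min_eq_left (by omega : i ≤ S.K + 1)] at h1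
  rw [min_eq_left hij] at h2
  have h3 : PE S i (fun z x x' => (1 / (N : ℝ) * ((((1 : Matrix (Fin N) (Fin N) ℝ)) *ᵥ
      dv S φ j z x) ⬝ᵥ φ x')) ^ 2) ≤
      PE S i (fun z x x' => 2 * (1 / (N : ℝ) * (yv S φ (S.K + 1) z x ⬝ᵥ φ x') - RR S φ i) ^ 2 +
        2 * (1 / (N : ℝ) * (yv S φ j z x ⬝ᵥ φ x') - RR S φ i) ^ 2) := by
    refine PE_mono hS i ((nh2_dot (nhv_dv hS j) (EGM.const _)).pow 2)
      ((((nb _).pow 2).const_mul 2).add (((nb _).pow 2).const_mul 2)) fun z x x' => ?_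
    rw [one_mulVec, yv_gt (by omega : S.K < S.K + 1)]
    unfold dv
    rw [sub_dotProduct, mul_sub]
    have h4 := sq_nonneg (1 / (N : ℝ) * (φ x ⬝ᵥ φ x') - RR S φ i +
      (1 / (N : ℝ) * (yv S φ j z x ⬝ᵥ φ x') - RR S φ i))
    linarith [h4]
  rw [PE_add hS i (((nb _).pow 2).const_mul 2) (((nb _).pow 2).const_mul 2), PE_const_mul,
    PE_const_mul] at h3
  linarith

lemma nh_one_dv (hS : S.Reg) (j : ℕ) : NhV (dv S φ j) := nhv_dv hS j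

/-- the perturbation part -/
lemma pert_le (hS : S.Reg) (hN : 0 < N) (hφ : ∀ x, ∑ i, φ x i ^ 2 = N) (h : RQ S P Q y)
    (hA : EGM A) (hq : ∀ z v, nv (A z *ᵥ v) ^ 2 ≤ 1 / y * ((Q z *ᵥ v) ⬝ᵥ v)) (i : ℕ) {j k : ℕ}
    (hj : j ≤ S.K + 1) (hk : k ≤ S.K + 1) :
    |PF S φ i P Q (dv S φ j) (fun z x => A z *ᵥ dv S φ k z x) +
      PF S φ i Q P (dv S φ j) (fun z x => A z *ᵥ dv S φ k z x)| ≤
      2 / y ^ 2 * (√(Dj S φ Q j) * √(Dj S φ Q k)) := by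
  have hy := h.y0
  have nj := nhv_dv (φ := φ) hS j
  have nk := nhv_dv (φ := φ) hS k
  have nA := nk.mulVec hA
  have dj := Dj_nonneg (φ := φ) hS h hj
  have dk := Dj_nonneg (φ := φ) hS h hk
  have ek := E2_le (φ := φ) hS h hA hq hk
  have key : ∀ {P₁ Q₁ : (ι → ℝ) → Matrix (Fin N) (Fin N) ℝ}, EGM P₁ → EGM Q₁ →
      (∀ z v, nv (P₁ z *ᵥ v) ^ 2 ≤ 1 / y * ((Q z *ᵥ v) ⬝ᵥ v)) → (∀ z, OpB (Q₁ z) (1 / y)) →
      |PF S φ i P₁ Q₁ (dv S φ j) (fun z x => A z *ᵥ dv S φ k z x)| ≤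
        1 / y ^ 2 * (√(Dj S φ Q j) * √(Dj S φ Q k)) := by
    intro P₁ Q₁ hP₁ hQ₁ hq₁ ho
    refine (PF_le hS hN hφ i nj nA hP₁ hQ₁).trans ?_
    have h1 : √(E2 S P₁ (dv S φ j)) ≤ √(Dj S φ Q j / y) :=
      Real.sqrt_le_sqrt (E2_le hS h hP₁ hq₁ hj)
    have h2 : √(E2 S Q₁ (fun z x => A z *ᵥ dv S φ k z x)) ≤
        √((1 / y) ^ 2 * (Dj S φ Q k / y)) := by
      refine Real.sqrt_le_sqrt ((E2_op hS nk hA hQ₁ (by positivity) ho).trans ?_)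
      exact mul_le_mul_of_nonneg_left ek (by positivity)
    refine (mul_le_mul h1 h2 (Real.sqrt_nonneg _) (Real.sqrt_nonneg _)).trans (le_of_eq ?_)
    rw [← Real.sqrt_mul (by positivity), ← Real.sqrt_mul dj,
      show Dj S φ Q j / y * ((1 / y) ^ 2 * (Dj S φ Q k / y)) =
        (1 / y ^ 2) ^ 2 * (Dj S φ Q j * Dj S φ Q k) by field_simp,
      Real.sqrt_mul (by positivity), Real.sqrt_sq (by positivity)]
  have k1 := key h.lP.eg h.lQ.eg h.qP h.lQ.op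
  have k2 := key h.lQ.eg h.lP.eg h.qQ h.lP.op
  refine (abs_add_le _ _).trans ((add_le_add k1 k2).trans (le_of_eq ?_))
  ring

/-- the second factor of the main part -/
lemma sqrt_E2 (hS : S.Reg) (h : RQ S P Q y) (hA : EGM A)
    (hq : ∀ z v, nv (A z *ᵥ v) ^ 2 ≤ 1 / y * ((Q z *ᵥ v) ⬝ᵥ v)) {k : ℕ} (hk : k ≤ S.K + 1) :
    √(E2 S (fun _ => 1) (fun z x => A z *ᵥ dv S φ k z x)) ≤ √(Dj S φ Q k) * (1 / √y) := by
  have h1 : √(E2 S (fun _ => 1) (fun z x => A z *ᵥ dv S φ k z x)) ≤ √(Dj S φ Q k / y) := by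
    refine Real.sqrt_le_sqrt ?_
    rw [E2_one hS (nhv_dv hS k) hA]
    exact E2_le hS h hA hq hk
  rw [Real.sqrt_div (Dj_nonneg hS h hk)] at h1
  refine h1.trans (le_of_eq ?_)
  ring

/-- **The centred functional, upper levels.** -/
theorem gm_low (hC : Ctx S D g φ c B w) (hR : RQ S P Q y)
    (hB : ∀ e z x, B e z x = κ * Me (P z *ᵥ φ x) (Q z *ᵥ φ x) e) (hA : LMat S A α)
    (hq : ∀ z v, nv (A z *ᵥ v) ^ 2 ≤ 1 / y * ((Q z *ᵥ v) ⬝ᵥ v)) {i j k : ℕ} (hi : i ≤ S.K)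
    (hij : i ≤ j) (hj : j ≤ S.K + 1) (hk : k ≤ S.K + 1) :
    |Gm S.K (LL S D g φ A) i j k| ≤ |c| * (2 * √(vv S φ i)) * (√(Dj S φ Q k) * (1 / √y)) +
      |κ| * (2 / y ^ 2 * (√(Dj S φ Q j) * √(Dj S φ Q k))) := by
  have hS := hC.reg.toReg
  have nj := nhv_dv (φ := φ) hS j
  have nA := (nhv_dv (φ := φ) hS k).mulVec hA.eg
  rw [gm_eq hC hA.eg, LV_eq hC hR.lP hR.lQ hB i nj nA]
  have h1 := pert_le hS hC.N0 hC.norm hR hA.eg hq i hj hk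
  have h2 : |PF S φ i (fun _ => 1) (fun _ => 1) (dv S φ j)
      (fun z x => A z *ᵥ dv S φ k z x)| ≤ 2 * √(vv S φ i) * (√(Dj S φ Q k) * (1 / √y)) := by
    refine (PE_cs hS i (nh2_dot nj (EGM.const _)) (nh2_dot nA (EGM.const _))).trans ?_
    have h3 : √(PE S i (fun z x x' => (1 / (N : ℝ) * ((((1 : Matrix (Fin N) (Fin N) ℝ)) *ᵥ
        dv S φ j z x) ⬝ᵥ φ x')) ^ 2)) ≤ 2 * √(vv S φ i) := by
      refine (Real.sqrt_le_sqrt (PE_dv hS hC.N0 hC.norm hi hij hj)).trans (le_of_eq ?_)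
      rw [show (4 : ℝ) * vv S φ i = 2 ^ 2 * vv S φ i by norm_num, Real.sqrt_mul (by norm_num),
        Real.sqrt_sq (by norm_num)]
    have h4 : √(PE S i (fun z x x' => (1 / (N : ℝ) * ((((1 : Matrix (Fin N) (Fin N) ℝ)) *ᵥ
        (A z *ᵥ dv S φ k z x)) ⬝ᵥ φ x')) ^ 2)) ≤ √(Dj S φ Q k) * (1 / √y) :=
      (Real.sqrt_le_sqrt (PE_sq_le hS hC.N0 hC.norm i nA (EGM.const _))).trans
        (sqrt_E2 hS hR hA.eg hq hk)
    exact mul_le_mul h3 h4 (Real.sqrt_nonneg _) (by positivity)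
  refine (abs_add_le _ _).trans ?_
  rw [abs_mul, abs_mul]
  refine add_le_add ?_ (mul_le_mul_of_nonneg_left h1 (abs_nonneg κ))
  rw [mul_assoc]
  exact mul_le_mul_of_nonneg_left h2 (abs_nonneg c)

/-- **The centred functional at the top.** -/
theorem gm_top (hC : Ctx S D g φ c B w) (hR : RQ S P Q y)
    (hB : ∀ e z x, B e z x = κ * Me (P z *ᵥ φ x) (Q z *ᵥ φ x) e) (hA : LMat S A α)
    (hq : ∀ z v, nv (A z *ᵥ v) ^ 2 ≤ 1 / y * ((Q z *ᵥ v) ⬝ᵥ v)) {j k : ℕ}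
    (hj : j ≤ S.K + 1) (hk : k ≤ S.K + 1) :
    |Gm S.K (LL S D g φ A) (S.K + 1) j k -
        c * ((1 - RR S φ j) * (TT S φ A (S.K + 1) - TT S φ A k))| ≤
      |c| * √(vv S φ j) * (√(Dj S φ Q k) * (1 / √y)) +
      |κ| * (2 / y ^ 2 * (√(Dj S φ Q j) * √(Dj S φ Q k))) := by
  have hS := hC.reg.toReg
  have hN' : (0 : ℝ) < N := by exact_mod_cast hC.N0
  have nj := nhv_dv (φ := φ) hS j
  have nk := nhv_dv (φ := φ) hS k
  have nA := nk.mulVec hA.eg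
  rw [gm_eq hC hA.eg, LV_eq hC hR.lP hR.lQ hB _ nj nA]
  have h1 := pert_le hS hC.N0 hC.norm hR hA.eg hq (S.K + 1) hj hk
  -- the mean part
  have n1 : Nh2 (fun (z : ι → ℝ) (x x' : X) => RR S φ j -
      1 / (N : ℝ) * (yv S φ j z x ⬝ᵥ φ x')) := fun x' => Nh.sub (Nh.fst (EG.const _))
    (Nh.const_mul _ ((nhv_yv hS j).dot fun a => Nh.snd fun _ => φ x' a))
  have n2 : Nh2 (fun (z : ι → ℝ) (x x' : X) => 1 / (N : ℝ) *
      ((A z *ᵥ dv S φ k z x) ⬝ᵥ φ x')) := fun x' =>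
    Nh.const_mul _ (nA.dot fun a => Nh.snd fun _ => φ x' a)
  have e0 : ∀ F : (ι → ℝ) → X → X → ℝ, PE S (S.K + 1) F = S.Ex (fun z x => F z x x) := fun F => by
    unfold PE
    rw [if_neg (by omega)]
  have e1 : PF S φ (S.K + 1) (fun _ => 1) (fun _ => 1) (dv S φ j)
      (fun z x => A z *ᵥ dv S φ k z x) = (1 - RR S φ j) *
        PE S (S.K + 1) (fun z x x' => 1 / (N : ℝ) * ((A z *ᵥ dv S φ k z x) ⬝ᵥ φ x')) +
      PE S (S.K + 1) (fun z x x' => (RR S φ j - 1 / (N : ℝ) * (yv S φ j z x ⬝ᵥ φ x')) *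
        (1 / (N : ℝ) * ((A z *ᵥ dv S φ k z x) ⬝ᵥ φ x'))) := by
    rw [← PE_const_mul, ← PE_add hS _ (n2.const_mul _) (n1.mul n2)]
    unfold PF
    rw [e0, e0]
    congr 1
    funext z x
    rw [one_mulVec, one_mulVec]
    have h5 : 1 / (N : ℝ) * (φ x ⬝ᵥ φ x) = 1 := by
      rw [dot_self_eq, nv_phi hC.norm]
      field_simp
    have h6 : 1 / (N : ℝ) * (dv S φ j z x ⬝ᵥ φ x) = 1 - 1 / (N : ℝ) * (yv S φ j z x ⬝ᵥ φ x) := by
      unfold dv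
      rw [sub_dotProduct, mul_sub, h5]
    rw [h6]
    ring
  have e2 : PE S (S.K + 1) (fun z x x' => 1 / (N : ℝ) * ((A z *ᵥ dv S φ k z x) ⬝ᵥ φ x')) =
      TT S φ A (S.K + 1) - TT S φ A k := by
    have h5 := PE_rem (φ := φ) hS hA (i := S.K + 1) (j := S.K + 1) le_rfl le_rfl
    have h6 := PE_rem (φ := φ) hS hA (i := S.K + 1) (j := k) le_rfl hk
    rw [min_self] at h5
    rw [min_eq_right hk] at h6
    have n : ∀ j, Nh2 (fun (z : ι → ℝ) (x x' : X) => 1 / (N : ℝ) *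
        ((A z *ᵥ yv S φ j z x) ⬝ᵥ φ x')) := fun j => nh2_dot (nhv_yv hS j) hA.eg
    rw [← h5, ← h6, ← PE_sub hS _ (n _) (n _)]
    congr 1
    funext z x x'
    unfold dv
    rw [mulVec_sub, sub_dotProduct, yv_gt (by omega : S.K < S.K + 1)]
    ring
  have h2 : |PE S (S.K + 1) (fun z x x' => (RR S φ j - 1 / (N : ℝ) * (yv S φ j z x ⬝ᵥ φ x')) *
        (1 / (N : ℝ) * ((A z *ᵥ dv S φ k z x) ⬝ᵥ φ x')))| ≤
      √(vv S φ j) * (√(Dj S φ Q k) * (1 / √y)) := by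
    refine (PE_cs hS _ n1 n2).trans ?_
    have h3 := PE_ov (i := S.K + 1) (j := j) hS hC.N0 hC.norm le_rfl hj
    rw [min_eq_right hj] at h3
    have e3 : (fun (z : ι → ℝ) (x x' : X) => (RR S φ j -
        1 / (N : ℝ) * (yv S φ j z x ⬝ᵥ φ x')) ^ 2) = fun z x x' =>
        (1 / (N : ℝ) * (yv S φ j z x ⬝ᵥ φ x') - RR S φ j) ^ 2 := by
      funext z x x'
      ring
    rw [e3]
    have h4 : √(PE S (S.K + 1) (fun z x x' => (1 / (N : ℝ) *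
        ((A z *ᵥ dv S φ k z x) ⬝ᵥ φ x')) ^ 2)) ≤ √(Dj S φ Q k) * (1 / √y) := by
      have h5 := PE_sq_le hS hC.N0 hC.norm (S.K + 1) nA (EGM.const (1 : Matrix (Fin N) (Fin N) ℝ))
      simp only [one_mulVec] at h5
      refine (Real.sqrt_le_sqrt h5).trans ?_
      exact sqrt_E2 hS hR hA.eg hq hk
    exact mul_le_mul (Real.sqrt_le_sqrt h3) h4 (Real.sqrt_nonneg _) (Real.sqrt_nonneg _)
  rw [e1, e2]
  have e4 : c * ((1 - RR S φ j) * (TT S φ A (S.K + 1) - TT S φ A k) +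
      PE S (S.K + 1) (fun z x x' => (RR S φ j - 1 / (N : ℝ) * (yv S φ j z x ⬝ᵥ φ x')) *
        (1 / (N : ℝ) * ((A z *ᵥ dv S φ k z x) ⬝ᵥ φ x')))) +
      κ * (PF S φ (S.K + 1) P Q (dv S φ j) (fun z x => A z *ᵥ dv S φ k z x) +
        PF S φ (S.K + 1) Q P (dv S φ j) (fun z x => A z *ᵥ dv S φ k z x)) -
      c * ((1 - RR S φ j) * (TT S φ A (S.K + 1) - TT S φ A k)) =
      c * PE S (S.K + 1) (fun z x x' => (RR S φ j - 1 / (N : ℝ) * (yv S φ j z x ⬝ᵥ φ x')) *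
        (1 / (N : ℝ) * ((A z *ᵥ dv S φ k z x) ⬝ᵥ φ x'))) +
      κ * (PF S φ (S.K + 1) P Q (dv S φ j) (fun z x => A z *ᵥ dv S φ k z x) +
        PF S φ (S.K + 1) Q P (dv S φ j) (fun z x => A z *ᵥ dv S φ k z x)) := by ring
  rw [e4]
  refine (abs_add_le _ _).trans ?_
  rw [abs_mul, abs_mul]
  refine add_le_add ?_ (mul_le_mul_of_nonneg_left h1 (abs_nonneg κ))
  rw [mul_assoc]
  exact mul_le_mul_of_nonneg_left h2 (abs_nonneg c)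

end Vale.Agent.P146.H326.B7
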