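import Vale.Agent.P146.H326.Ev3

set_option linter.all false

/-!
# P146, lower exponent `D = 7`: the equations of the eigenvalues
-/

open MeasureTheory ProbabilityTheory Finset Matrix

namespace Vale.Agent.P146.H326.B7

open Vale.Agent.P157 (spin)
open Vale.Agent.P157.Lv Vale.Agent.P157.Lv.Sy
open Vale.Agent.P157.Par (Path Exponents)
open Vale.Agent.P146.Sk
open Vale.Agent.P146.Sk.Gen (GI gz gl r0 gS gF gOb gIsOpt GD gV)
open Vale.Agent.P146.Pw2

/-! ### The weighted averages -/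

section avg

variable {K : ℕ} {m f g : ℕ → ℝ} {l : ℕ}

lemma wp (hm : Exponents K m) {j : ℕ} (hj : j ≤ K) : 0 ≤ m (j + 1) - m j := by
  have := hm.2.2 j hj
  linarith

lemma wm (hm : Exponents K m) {j : ℕ} (hj : j ≤ K + 1) : 0 ≤ m j := by
  induction j with
  | zero => rw [hm.1]
  | succ n ih =>
    have := ih (by omega)
    have h2 := hm.2.2 n (by omega)
    linarith

lemma wm_sum (hm : Exponents K m) (l : ℕ) : ∑ j ∈ Finset.range (l + 1), (m (j + 1) - m j) =
    m (l + 1) := by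
  rw [Finset.sum_range_sub, hm.1, sub_zero]

lemma wmono (hm : Exponents K m) (hl : l ≤ K) (h : ∀ j ≤ K, l ≤ j → f j ≤ g j) :
    W K m l f ≤ W K m l g := by
  unfold W
  refine add_le_add (mul_le_mul_of_nonneg_left (h l hl le_rfl) (wm hm (by omega))) ?_
  refine sum_le_sum fun j hj => ?_
  have hj' := Finset.mem_Ico.1 hj
  exact mul_le_mul_of_nonneg_left (h j (by omega) (by omega)) (wp hm (by omega))

lemma wcongr (hl : l ≤ K) (h : ∀ j ≤ K, l ≤ j → f j = g j) : W K m l f = W K m l g := by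
  unfold W
  rw [h l hl le_rfl]
  congr 1
  refine sum_congr rfl fun j hj => ?_
  have hj' := Finset.mem_Ico.1 hj
  rw [h j (by omega) (by omega)]

lemma wadd : W K m l (fun j => f j + g j) = W K m l f + W K m l g := by
  unfold W
  simp only [mul_add, sum_add_distrib]
  ring

lemma wsub : W K m l (fun j => f j - g j) = W K m l f - W K m l g := by
  unfold W
  simp only [mul_sub, sum_sub_distrib]
  ring

lemma wmul (a : ℝ) : W K m l (fun j => a * f j) = a * W K m l f := by
  unfold W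
  rw [mul_add, mul_sum]
  congr 1
  · ring
  · exact sum_congr rfl fun j _ => by ring

lemma wconst (hm : Exponents K m) (hl : l ≤ K) (a : ℝ) : W K m l (fun _ => a) = a := by
  unfold W
  rw [← sum_mul, Finset.sum_Ico_eq_sub _ (by omega : l + 1 ≤ K + 1), wm_sum hm, wm_sum hm,
    hm.2.1]
  ring

lemma wneg : W K m l (fun j => -f j) = -W K m l f := by
  have h := wmul (K := K) (m := m) (l := l) (f := f) (-1)
  simp only [neg_mul, one_mul] at h
  exact h

lemma wabs (hm : Exponents K m) (hl : l ≤ K) (h : ∀ j ≤ K, l ≤ j → |f j| ≤ g j) :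
    |W K m l f| ≤ W K m l g := by
  rw [abs_le]
  constructor
  · rw [← wneg]
    exact wmono hm hl fun j h1 h2 => by have := (abs_le.1 (h j h1 h2)).1; linarith
  · exact wmono hm hl fun j h1 h2 => (abs_le.1 (h j h1 h2)).2

/-- decreasing sequences -/
lemma wanti (hm : Exponents K m) (hl : l ≤ K) (h0 : ∀ j ≤ K, 0 ≤ f j)
    (h : ∀ i j, i ≤ j → j ≤ K → f j ≤ f i) :
    W K m l f ≤ ∑ j ∈ Finset.range (K + 1), (m (j + 1) - m j) * f j := by
  unfold W
  rw [← Finset.sum_range_add_sum_Ico _ (by omega : l + 1 ≤ K + 1)]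
  refine add_le_add ?_ le_rfl
  rw [← wm_sum hm, sum_mul]
  refine sum_le_sum fun j hj => ?_
  have hj' := Finset.mem_range.1 hj
  exact mul_le_mul_of_nonneg_left (h j l (by omega) hl) (wp hm (by omega))

/-- nonnegative sequences -/
lemma wle (hm : Exponents K m) (hl : l ≤ K) (h0 : ∀ j ≤ K, 0 ≤ f j) :
    W K m l f ≤ m (l + 1) * f l + ∑ j ∈ Finset.range (K + 1), (m (j + 1) - m j) * f j := by
  unfold W
  refine add_le_add le_rfl ?_
  refine Finset.sum_le_sum_of_subset_of_nonneg (fun j hj => ?_) fun j hj _ => ?_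
  · have hj' := Finset.mem_Ico.1 hj
    exact Finset.mem_range.2 (by omega)
  · have hj' := Finset.mem_range.1 hj
    exact mul_nonneg (wp hm (by omega)) (h0 j (by omega))

lemma wnonneg (hm : Exponents K m) (hl : l ≤ K) (h0 : ∀ j ≤ K, 0 ≤ f j) : 0 ≤ W K m l f := by
  have h := wmono (f := fun _ => 0) (g := f) hm hl fun j h1 _ => h0 j h1
  rwa [wconst hm hl] at h

lemma lam_w (hm : Exponents K m) (R : ℕ → ℝ) (hl : l ≤ K) :
    lam K m R l = W K m l (fun j => 1 - R j) := by
  rw [wsub, wconst hm hl]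
  unfold lam W
  ring

lemma ev_w (hm : Exponents K m) (T : ℝ × (ℕ → ℝ)) (hl : l ≤ K) :
    ev K m T l = W K m l (fun j => T.1 - T.2 j) := by
  rw [wsub, wconst hm hl]
  rfl

end avg

/-- **The deterministic assembly.** -/
theorem assemble {K : ℕ} {m : ℕ → ℝ} (hm : Exponents K m) {L : ℕ → ℕ → ℕ → ℝ} (hL : Red K L)
    (hAlg : Alg) {c κ' r : ℝ} (hc : 0 ≤ c) (hκ : 0 ≤ κ') (hr : 0 ≤ r) {R V Dd : ℕ → ℝ}
    {T : ℝ × (ℕ → ℝ)} (hV : ∀ l ≤ K, 0 ≤ V l) (hD : ∀ i j, i ≤ j → j ≤ K → Dd j ≤ Dd i)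
    (h1 : ∀ j ≤ K, ∀ k ≤ K, |Gm K L (K + 1) j k - c * ((1 - R j) * (T.1 - T.2 k))| ≤
      c * √(V j) * (√(Dd k) * r) + κ' * (√(Dd j) * √(Dd k)))
    (h2 : ∀ i ≤ K, ∀ j ≤ K, ∀ k ≤ K, i ≤ j → |Gm K L i j k| ≤
      c * (2 * √(V i)) * (√(Dd k) * r) + κ' * (√(Dd j) * √(Dd k))) {l : ℕ} (hl : l ≤ K) :
    |Xf K m L (K + 1) - W K m l (Xf K m L) - c * (lam K m R l * ev K m T l)| ≤
      3 * c * r * (∑ j ∈ Finset.range (K + 1), (m (j + 1) - m j) * √(Dd j)) *
        (m (l + 1) * √(V l) + √(∑ j ∈ Finset.range (K + 1), (m (j + 1) - m j) * V j)) +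
      2 * κ' * (∑ j ∈ Finset.range (K + 1), (m (j + 1) - m j) * √(Dd j)) ^ 2 := by
  rw [hAlg K m L hm hL l hl]
  set Sg := ∑ j ∈ Finset.range (K + 1), (m (j + 1) - m j) * √(Dd j) with hSg
  set Sv := ∑ j ∈ Finset.range (K + 1), (m (j + 1) - m j) * √(V j) with hSv
  have hSg0 : 0 ≤ Sg := sum_nonneg fun j hj =>
    mul_nonneg (wp hm (Nat.lt_succ_iff.1 (Finset.mem_range.1 hj))) (Real.sqrt_nonneg _)
  have hSv0 : 0 ≤ Sv := sum_nonneg fun j hj =>
    mul_nonneg (wp hm (Nat.lt_succ_iff.1 (Finset.mem_range.1 hj))) (Real.sqrt_nonneg _)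
  have hSv1 : Sv ≤ √(∑ j ∈ Finset.range (K + 1), (m (j + 1) - m j) * V j) := sum_sqrt_le hm hV
  have wD : ∀ i ≤ K, W K m i (fun k => √(Dd k)) ≤ Sg := fun i hi =>
    wanti hm hi (fun j _ => Real.sqrt_nonneg _) fun a b hab hb => Real.sqrt_le_sqrt (hD a b hab hb)
  have wD0 : ∀ i ≤ K, 0 ≤ W K m i (fun k => √(Dd k)) := fun i hi =>
    wnonneg hm hi fun j _ => Real.sqrt_nonneg _
  have wV := wle (f := fun k => √(V k)) hm hl fun j _ => Real.sqrt_nonneg _
  have wV0 := wnonneg (f := fun k => √(V k)) hm hl fun j _ => Real.sqrt_nonneg _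
  -- the first part
  have e1 : |W K m l (fun j => W K m l (fun k => Gm K L (K + 1) j k)) -
      c * (lam K m R l * ev K m T l)| ≤ c * (W K m l (fun k => √(V k))) * (Sg * r) +
        κ' * (Sg * Sg) := by
    have k1 : c * (lam K m R l * ev K m T l) =
        W K m l (fun j => W K m l (fun k => c * ((1 - R j) * (T.1 - T.2 k)))) := by
      have k2 : ∀ j, W K m l (fun k => c * ((1 - R j) * (T.1 - T.2 k))) =
          ev K m T l * c * (1 - R j) := by
        intro j
        rw [wmul, wmul, ev_w hm T hl]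
        ring
      simp only [k2]
      rw [wmul, lam_w hm R hl]
      ring
    rw [k1, ← wsub]
    have k3 : ∀ j ≤ K, l ≤ j → |W K m l (fun k => Gm K L (K + 1) j k) -
        W K m l (fun k => c * ((1 - R j) * (T.1 - T.2 k)))| ≤
        c * (Sg * r) * √(V j) + κ' * Sg * √(Dd j) := by
      intro j hj _
      rw [← wsub]
      refine (wabs hm hl (g := fun k => c * √(V j) * r * √(Dd k) + κ' * √(Dd j) * √(Dd k))
        fun k hk _ => (h1 j hj k hk).trans (le_of_eq (by ring))).trans ?_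
      rw [wadd, wmul, wmul]
      have k4 := wD l hl
      have k5 : 0 ≤ c * √(V j) * r := by positivity
      have k6 : 0 ≤ κ' * √(Dd j) := by positivity
      have k7 := mul_le_mul_of_nonneg_left k4 k5
      have k8 := mul_le_mul_of_nonneg_left k4 k6
      linarith
    refine (wabs hm hl k3).trans ?_
    rw [wadd, wmul, wmul]
    have k4 := mul_le_mul_of_nonneg_left (wD l hl) (show 0 ≤ κ' * Sg by positivity)
    linarith
  -- the second part
  have e2 : |∑ i ∈ Finset.range (K + 1), (m (i + 1) - m i) *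
      W K m (max i l) (fun k => Gm K L i (max i l) k)| ≤ c * (2 * Sv) * (Sg * r) +
        κ' * (Sg * Sg) := by
    refine (abs_sum_le_sum_abs _ _).trans ?_
    have k1 : ∀ i ∈ Finset.range (K + 1), |(m (i + 1) - m i) *
        W K m (max i l) (fun k => Gm K L i (max i l) k)| ≤
        c * 2 * (Sg * r) * ((m (i + 1) - m i) * √(V i)) +
          κ' * Sg * ((m (i + 1) - m i) * √(Dd i)) := by
      intro i hi
      have hi' : i ≤ K := Nat.lt_succ_iff.1 (Finset.mem_range.1 hi)
      have hx : max i l ≤ K := max_le hi' hl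
      have hp := wp hm hi'
      rw [abs_mul, abs_of_nonneg hp]
      have k2 : |W K m (max i l) (fun k => Gm K L i (max i l) k)| ≤
          c * 2 * (Sg * r) * √(V i) + κ' * Sg * √(Dd i) := by
        refine (wabs hm hx (g := fun k => c * (2 * √(V i)) * r * √(Dd k) +
          κ' * √(Dd (max i l)) * √(Dd k))
          fun k hk _ => (h2 i hi' _ hx k hk (le_max_left _ _)).trans (le_of_eq (by ring))).trans ?_
        rw [wadd, wmul, wmul]
        have k4 := wD _ hx
        have k5 : 0 ≤ c * (2 * √(V i)) * r := by positivity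
        have k9 : √(Dd (max i l)) ≤ √(Dd i) :=
          Real.sqrt_le_sqrt (hD i _ (le_max_left _ _) hx)
        have k7 := mul_le_mul_of_nonneg_left k4 k5
        have k8 : κ' * √(Dd (max i l)) * W K m (max i l) (fun k => √(Dd k)) ≤
            κ' * √(Dd i) * Sg := by
          refine mul_le_mul (mul_le_mul_of_nonneg_left k9 hκ) k4 (wD0 _ hx) (by positivity)
        linarith
      have k3 := mul_le_mul_of_nonneg_left k2 hp
      linarith
    refine (sum_le_sum k1).trans ?_
    rw [sum_add_distrib, ← mul_sum, ← mul_sum]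
    exact le_of_eq (by ring)
  set a1 := W K m l (fun j => W K m l (fun k => Gm K L (K + 1) j k)) with ha1
  set a2 := ∑ i ∈ Finset.range (K + 1), (m (i + 1) - m i) *
      W K m (max i l) (fun k => Gm K L i (max i l) k) with ha2
  have e3 : |a1 - a2 - c * (lam K m R l * ev K m T l)| ≤
      c * (W K m l (fun k => √(V k))) * (Sg * r) + κ' * (Sg * Sg) +
        (c * (2 * Sv) * (Sg * r) + κ' * (Sg * Sg)) := by
    rw [abs_le] at e1 e2 ⊢
    constructor
    · linarith [e1.1, e2.2]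
    · linarith [e1.2, e2.1]
  refine e3.trans ?_
  have hx0 : 0 ≤ c * (Sg * r) := by positivity
  have k1 := mul_le_mul_of_nonneg_left wV hx0
  have k2 := mul_le_mul_of_nonneg_left hSv1 hx0
  have k3 : 0 ≤ c * (Sg * r) * (m (l + 1) * √(V l)) :=
    mul_nonneg hx0 (mul_nonneg (wm hm (by omega)) (Real.sqrt_nonneg _))
  rw [← hSv] at k1
  linarith

end Vale.Agent.P146.H326.B7
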