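import Vale.Agent.P146.H326.Ev4
import Vale.Agent.P146.R3.H924.Tb9

set_option linter.all false

/-!
# P146, lower exponent `D = 7`: the equations of the eigenvalues, conclusion
-/

open MeasureTheory ProbabilityTheory Finset Matrix

namespace Vale.Agent.P146.H326.B7

open Vale.Agent.P157 (spin)
open Vale.Agent.P157.Lv Vale.Agent.P157.Lv.Sy
open Vale.Agent.P157.Par (Path Exponents)
open Vale.Agent.P146.Sk
open Vale.Agent.P146.Sk.Gen (GI gz gl r0 gS gF gOb gIsOpt GD gV)
open Vale.Agent.P146.Pw2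
open Vale.Agent.P146.R3.H729.Val2

variable {N K : ℕ}

/-- the resolvent at the level zero -/
lemma rq_sy {m : ℕ → ℝ} {E : (Ix N → ℝ) → (Fin N → Bool) → ℝ} {s : ℕ → ℝ} {y : ℝ} (hy : 0 < y) :
    RQ (gS K m E spin s) (ZA N K y) (ZB N K y) y where
  y0 := hy
  lP := lmat_Z0 (by positivity) (egm_ay (N := N) hy) (fun g => ay_symm hy (Wm_transpose g))
    (fun g => Ay_opB (Wm_transpose g) hy)
  lQ := lmat_Z0 (by positivity) (egm_by (N := N) hy) (fun g => by_symm (Wm_transpose g))
    (fun g => By_opB (Wm_transpose g) hy)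
  qP := fun z v => by
    have h := (nv_le_qf hy (Wm_transpose (r0 z)) v).1
    rwa [qf_eq_dot _ (by_symm (Wm_transpose _))] at h
  qQ := fun z v => by
    have h := (nv_le_qf hy (Wm_transpose (r0 z)) v).2
    rwa [qf_eq_dot _ (by_symm (Wm_transpose _))] at h

/-- from the levels to the eigenvalues -/
lemma ev_of {m : ℕ → ℝ} (hm : Exponents K m) {X Y : ℕ → ℝ} {G : ℝ}
    (h : ∀ j ≤ K + 1, |Y j - X j| ≤ G) {l : ℕ} (hl : l ≤ K) :
    |(Y (K + 1) - W K m l Y) - (X (K + 1) - W K m l X)| ≤ 2 * G := by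
  have h1 := h (K + 1) le_rfl
  have h2 : |W K m l (fun j => Y j - X j)| ≤ G := by
    have h3 := wabs (g := fun _ => G) hm hl fun j hj _ => h j (by omega)
    rwa [wconst hm hl] at h3
  rw [wsub] at h2
  rw [abs_le] at h1 h2 ⊢
  constructor
  · linarith [h1.1, h2.2]
  · linarith [h1.2, h2.1]

/-- **The equations of the eigenvalues.** -/
theorem evq (hAlg : Alg) {β : ℝ} (hβ : 0 ≤ β) : EVQ β := by
  refine ⟨16 + 8 * β, by linarith, ?_⟩
  intro N K m y a b s hN hm hy hy1 ha hb hs l hl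
  have hN' : (0 : ℝ) < N := by exact_mod_cast hN
  have hgd := Gd.gd_Dq (K := K) hN hy hm β a b
  have hBe : ∀ (e : Ix N) (x : Fin N → Bool), EG (fun z => Gd.Bq N β y b e z x) := fun e x =>
    EG.of_bdd (Gd.measurable_Bq hy β b e x) fun g => Gd.abs_Bq_le hN hy β b e g x
  have hC := ctx_q (s := s) hN hgd (fun e z x => rfl) hBe
    (fun z x => Gd.sum_Bq_sq hN hy β b z x)
  set S := sy N K m β y a b s with hSdef
  have hReg : S.Reg := Gen.gS_reg hgd s
  have hR : RQ S (ZA N K y) (ZB N K y) y := rq_sy hy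
  have hκ : ∀ (e : Ix N) (z : GI (Ix N) N K → ℝ) (x : Fin N → Bool), Gd.Bq N β y b e (r0 z) x =
      -(β * b) * Me (ZA N K y z *ᵥ spin x) (ZB N K y z *ᵥ spin x) e := fun e z x => rfl
  obtain ⟨R, hRd⟩ : ∃ R : ℕ → ℝ, R = fun l => S.Rl spin l := ⟨_, rfl⟩
  have hc0 : 0 ≤ β * a := mul_nonneg hβ ha.1
  have hc1 : β * a ≤ β := mul_le_of_le_one_right hβ ha.2
  have hk0 : 0 ≤ β * b := mul_nonneg hβ hb.1
  have hDD : ∀ j, DB y S j = Rec.TT S spin (ZB N K y) (K + 1) - Rec.TT S spin (ZB N K y) j := by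
    intro j
    unfold DB
    rw [← R3.H924.Tb9.tq_one (K := K) y S rfl]
    rfl
  have hDD' : ∀ j, Dj S spin (ZB N K y) j = DB y S j := fun j => (hDD j).symm
  have hD : ∀ i j, i ≤ j → j ≤ K → DB y S j ≤ DB y S i := fun i j hij hj => by
    rw [← hDD', ← hDD']
    exact Dj_anti hReg hR hij (by show j ≤ K + 1; omega)
  have hV0 : ∀ l ≤ K, 0 ≤ dev2 S l := fun l hl => hReg.pairEx_nonneg hl fun x x' => sq_nonneg _
  set G : ℝ := 2 * (3 / (N * y ^ 2) * (1 / y) + 1 / y * (1 / y) / N) with hG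
  have hG8 : G ≤ 8 / (N * y ^ 3) := by
    rw [hG]
    have h4 : 2 * (3 / (N * y ^ 2) * (1 / y) + 1 / y * (1 / y) / N) =
        (6 + 2 * y) / (N * y ^ 3) := by
      field_simp
      ring
    rw [h4]
    exact div_le_div_of_nonneg_right (by linarith) (by positivity)
  -- the assembly for a matrix of the level zero
  have main : ∀ {A : (GI (Ix N) N K → ℝ) → Matrix (Fin N) (Fin N) ℝ} {α : (GI (Ix N) N K → ℝ) → ℝ},
      Rec.LMat S A α → (∀ z v, nv (A z *ᵥ v) ^ 2 ≤ 1 / y * ((ZB N K y z *ᵥ v) ⬝ᵥ v)) →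
      |Xf K m (Rec.LL S (Gen.gD (Gd.Dq N β y a b) spin s)
          (fun e => (Sum.inl e : GI (Ix N) N K)) spin A) (K + 1) -
        W K m l (Xf K m (Rec.LL S (Gen.gD (Gd.Dq N β y a b) spin s)
          (fun e => (Sum.inl e : GI (Ix N) N K)) spin A)) -
        β * a * (lam K m R l * ev K m (TQ S A) l)| ≤
      3 * (β * a) * (1 / √y) * SB m y S * (m (l + 1) * √(dev2 S l) + √(Vd m S)) +
        2 * (β * b * (2 / y ^ 2)) * SB m y S ^ 2 := by
    intro A α hA hq
    have hL : Red K (Rec.LL S (Gen.gD (Gd.Dq N β y a b) spin s)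
      (fun e => (Sum.inl e : GI (Ix N) N K)) spin A) := red hC hA
    refine assemble (Dd := fun j => DB y S j) (V := fun j => dev2 S j) hm hL hAlg hc0
      (by positivity) (by positivity) hV0 hD ?_ ?_ hl
    · intro j hj k hk
      have h1 := gm_top hC hR hκ hA hq (j := j) (k := k) (by show j ≤ K + 1; omega)
        (by show k ≤ K + 1; omega)
      rw [abs_of_nonneg hc0, abs_neg, abs_of_nonneg hk0, hDD', hDD', vv_lev S hj,
        RR_lev S hj] at h1
      rw [hRd]
      refine h1.trans (le_of_eq ?_)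
      ring
    · intro i hi j hj k hk hij
      have h1 := gm_low hC hR hκ hA hq (i := i) (j := j) (k := k) hi hij
        (by show j ≤ K + 1; omega) (by show k ≤ K + 1; omega)
      rw [abs_of_nonneg hc0, abs_neg, abs_of_nonneg hk0, hDD', hDD', vv_lev S hi] at h1
      refine h1.trans (le_of_eq ?_)
      ring
  have hRK : Rec.RR S spin (K + 1) = 1 := Rec.RR_top _ _
  have hRl : ∀ l ≤ K, Rec.RR S spin l = R l := fun l hl => by rw [hRd]; exact RR_lev _ hl
  have mA' := main hR.lP hR.qP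
  have mB' := main hR.lQ hR.qQ
  have hSB0 : 0 ≤ SB m y S := sum_nonneg fun j hj =>
    mul_nonneg (wp hm (Nat.lt_succ_iff.1 (Finset.mem_range.1 hj))) (Real.sqrt_nonneg _)
  have hw0 : 0 ≤ m (l + 1) * √(dev2 S l) + √(Vd m S) :=
    add_nonneg (mul_nonneg (wm hm (by omega)) (Real.sqrt_nonneg _)) (Real.sqrt_nonneg _)
  -- the errors
  have herr : 3 * (β * a) * (1 / √y) * SB m y S * (m (l + 1) * √(dev2 S l) + √(Vd m S)) +
        2 * (β * b * (2 / y ^ 2)) * SB m y S ^ 2 + 2 * G ≤
      (16 + 8 * β) * ER N K m y b S l := by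
    unfold ER
    have x0 : 0 ≤ SB m y S * (1 / √y) * (m (l + 1) * √(dev2 S l) + √(Vd m S)) := by positivity
    have x1 : 0 ≤ b / y ^ 2 * SB m y S ^ 2 := by
      have := hb.1
      positivity
    have x2 : 0 ≤ 1 / ((N : ℝ) * y ^ 3) := by positivity
    have e1 : 3 * (β * a) * (1 / √y) * SB m y S * (m (l + 1) * √(dev2 S l) + √(Vd m S)) =
        3 * (β * a) * (SB m y S * (1 / √y) * (m (l + 1) * √(dev2 S l) + √(Vd m S))) := by ring
    have e2 : 2 * (β * b * (2 / y ^ 2)) * SB m y S ^ 2 = 4 * β * (b / y ^ 2 * SB m y S ^ 2) := by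
      ring
    have e3 : 2 * G ≤ 16 * (1 / (N * y ^ 3)) := by
      refine (mul_le_mul_of_nonneg_left hG8 (by norm_num)).trans (le_of_eq ?_)
      ring
    rw [e1, e2]
    have y1 : 3 * (β * a) * (SB m y S * (1 / √y) * (m (l + 1) * √(dev2 S l) + √(Vd m S))) ≤
        (16 + 8 * β) * (SB m y S * (1 / √y) * (m (l + 1) * √(dev2 S l) + √(Vd m S))) :=
      mul_le_mul_of_nonneg_right (by linarith) x0
    have y2 : 4 * β * (b / y ^ 2 * SB m y S ^ 2) ≤ (16 + 8 * β) * (b / y ^ 2 * SB m y S ^ 2) :=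
      mul_le_mul_of_nonneg_right (by linarith) x1
    have y3 : 16 * (1 / ((N : ℝ) * y ^ 3)) ≤ (16 + 8 * β) * (1 / ((N : ℝ) * y ^ 3)) :=
      mul_le_mul_of_nonneg_right (by linarith) x2
    linarith
  constructor
  · -- the real part
    have hX : ∀ j ≤ K + 1, |(2 * Rec.TT S spin (ZA N K y) j + y * Rec.TT S spin (ZB N K y) j -
        Rec.RR S spin j - (mA N y * Rec.TT S spin (ZA N K y) j -
          mB N y * Rec.TT S spin (ZB N K y) j)) -
        Xf K m (Rec.LL S (Gen.gD (Gd.Dq N β y a b) spin s)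
          (fun e => (Sum.inl e : GI (Ix N) N K)) spin (ZA N K y)) j| ≤ G := by
      intro j hj
      have h1 := exact_ida hC hR.lP (A' := fun e => Z0 N K (fun g =>
        Ay y (Wm N g) * Em N e * Ay y (Wm N g) - By y (Wm N g) * Em N e * By y (Wm N g)))
        (fun e => pdm_Z0 (pdm_ay hy e))
        (fun e => egm_Z0 ((((egm_ay hy).mul (EGM.const _)).mul (egm_ay hy)).sub
          (((egm_by hy).mul (EGM.const _)).mul (egm_by hy)))) (j := j) hj
      have h2 := goe_A (s := s) hgd hy j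
      have h3 := lhs_A (s := s) hgd hy j
      rw [h3] at h1
      have h4 : S.Ex (fun z x => ∑ e, Me (Rec.yv S spin j z x)
          (Z0 N K (fun g => Ay y (Wm N g) * Em N e * Ay y (Wm N g) -
            By y (Wm N g) * Em N e * By y (Wm N g)) z *ᵥ Rec.yv S spin j z x) e) =
          S.Ex (fun z x => ∑ e, Me (Rec.yv S spin j z x)
          ((ZA N K y z * Em N e * ZA N K y z - ZB N K y z * Em N e * ZB N K y z) *ᵥ
            Rec.yv S spin j z x) e) := rfl
      rw [h4] at h1
      rw [← hG] at h2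
      have h5 : Xf K m (Rec.LL S (Gen.gD (Gd.Dq N β y a b) spin s)
          (fun e => (Sum.inl e : GI (Ix N) N K)) spin (ZA N K y)) j =
          Rec.dl S (Gen.gD (Gd.Dq N β y a b) spin s)
          (fun e => (Sum.inl e : GI (Ix N) N K)) spin (ZA N K y) j +
          (Rec.LL S (Gen.gD (Gd.Dq N β y a b) spin s)
          (fun e => (Sum.inl e : GI (Ix N) N K)) spin (ZA N K y) (S.K + 1) j j -
          ∑ i ∈ Finset.range (S.K + 1), S.p i * Rec.LL S (Gen.gD (Gd.Dq N β y a b) spin s)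
          (fun e => (Sum.inl e : GI (Ix N) N K)) spin (ZA N K y) i j j) := rfl
      rw [h5]
      rw [abs_le] at h2 ⊢
      constructor
      · linarith only [h2.1, h1]
      · linarith only [h2.2, h1]
    have h6 := ev_of hm hX hl
    set X := Xf K m (Rec.LL S (Gen.gD (Gd.Dq N β y a b) spin s)
          (fun e => (Sum.inl e : GI (Ix N) N K)) spin (ZA N K y)) with hXd
    have h7 : (2 * Rec.TT S spin (ZA N K y) (K + 1) + y * Rec.TT S spin (ZB N K y) (K + 1) -
        Rec.RR S spin (K + 1) - (mA N y * Rec.TT S spin (ZA N K y) (K + 1) -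
          mB N y * Rec.TT S spin (ZB N K y) (K + 1))) -
        W K m l (fun j => (2 * Rec.TT S spin (ZA N K y) j + y * Rec.TT S spin (ZB N K y) j -
          Rec.RR S spin j - (mA N y * Rec.TT S spin (ZA N K y) j -
          mB N y * Rec.TT S spin (ZB N K y) j))) =
        (zt N y).re * ev K m (TQ S (ZA N K y)) l + (zt N y).im * ev K m (TQ S (ZB N K y)) l -
          lam K m R l := by
      rw [lam_w hm R hl, ev_w hm _ hl, ev_w hm _ hl, ← wmul, ← wmul, ← wadd, ← wsub,
        ← wconst hm hl (2 * Rec.TT S spin (ZA N K y) (K + 1) + y * Rec.TT S spin (ZB N K y) (K + 1) -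
        Rec.RR S spin (K + 1) - (mA N y * Rec.TT S spin (ZA N K y) (K + 1) -
          mB N y * Rec.TT S spin (ZB N K y) (K + 1))), ← wsub]
      refine wcongr hl fun j hj _ => ?_
      rw [hRK, hRl j hj]
      show _ = (2 - mA N y) * (Rec.TT S spin (ZA N K y) (K + 1) - Rec.TT S spin (ZA N K y) j) +
        (y + mB N y) * (Rec.TT S spin (ZB N K y) (K + 1) - Rec.TT S spin (ZB N K y) j) - (1 - R j)
      ring
    rw [h7] at h6
    have h8 : |(zt N y).re * ev K m (TQ S (ZA N K y)) l +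
        (zt N y).im * ev K m (TQ S (ZB N K y)) l - lam K m R l -
        β * a * (lam K m R l * ev K m (TQ S (ZA N K y)) l)| ≤
      3 * (β * a) * (1 / √y) * SB m y S * (m (l + 1) * √(dev2 S l) + √(Vd m S)) +
        2 * (β * b * (2 / y ^ 2)) * SB m y S ^ 2 + 2 * G := by
      rw [abs_le] at h6 mA' ⊢
      constructor
      · linarith only [h6.1, mA'.1]
      · linarith only [h6.2, mA'.2]
    rw [hRd] at h8
    exact h8.trans herr
  · -- the imaginary part
    have hX : ∀ j ≤ K + 1, |(2 * Rec.TT S spin (ZB N K y) j - y * Rec.TT S spin (ZA N K y) j -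
        (mA N y * Rec.TT S spin (ZB N K y) j + mB N y * Rec.TT S spin (ZA N K y) j)) -
        Xf K m (Rec.LL S (Gen.gD (Gd.Dq N β y a b) spin s)
          (fun e => (Sum.inl e : GI (Ix N) N K)) spin (ZB N K y)) j| ≤ G := by
      intro j hj
      have h1 := exact_ida hC hR.lQ (A' := fun e => Z0 N K (fun g =>
        Ay y (Wm N g) * Em N e * By y (Wm N g) + By y (Wm N g) * Em N e * Ay y (Wm N g)))
        (fun e => pdm_Z0 (pdm_by hy e))
        (fun e => egm_Z0 ((((egm_ay hy).mul (EGM.const _)).mul (egm_by hy)).add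
          (((egm_by hy).mul (EGM.const _)).mul (egm_ay hy)))) (j := j) hj
      have h2 := goe_B (s := s) hgd hy j
      have h3 := lhs_B (s := s) hgd hy j
      rw [h3] at h1
      have h4 : S.Ex (fun z x => ∑ e, Me (Rec.yv S spin j z x)
          (Z0 N K (fun g => Ay y (Wm N g) * Em N e * By y (Wm N g) +
            By y (Wm N g) * Em N e * Ay y (Wm N g)) z *ᵥ Rec.yv S spin j z x) e) =
          S.Ex (fun z x => ∑ e, Me (Rec.yv S spin j z x)
          ((ZA N K y z * Em N e * ZB N K y z + ZB N K y z * Em N e * ZA N K y z) *ᵥ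
            Rec.yv S spin j z x) e) := rfl
      rw [h4] at h1
      rw [← hG] at h2
      have h5 : Xf K m (Rec.LL S (Gen.gD (Gd.Dq N β y a b) spin s)
          (fun e => (Sum.inl e : GI (Ix N) N K)) spin (ZB N K y)) j =
          Rec.dl S (Gen.gD (Gd.Dq N β y a b) spin s)
          (fun e => (Sum.inl e : GI (Ix N) N K)) spin (ZB N K y) j +
          (Rec.LL S (Gen.gD (Gd.Dq N β y a b) spin s)
          (fun e => (Sum.inl e : GI (Ix N) N K)) spin (ZB N K y) (S.K + 1) j j -
          ∑ i ∈ Finset.range (S.K + 1), S.p i * Rec.LL S (Gen.gD (Gd.Dq N β y a b) spin s)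
          (fun e => (Sum.inl e : GI (Ix N) N K)) spin (ZB N K y) i j j) := rfl
      rw [h5]
      rw [abs_le] at h2 ⊢
      constructor
      · linarith only [h2.1, h1]
      · linarith only [h2.2, h1]
    have h6 := ev_of hm hX hl
    set X := Xf K m (Rec.LL S (Gen.gD (Gd.Dq N β y a b) spin s)
          (fun e => (Sum.inl e : GI (Ix N) N K)) spin (ZB N K y)) with hXd
    have h7 : (2 * Rec.TT S spin (ZB N K y) (K + 1) - y * Rec.TT S spin (ZA N K y) (K + 1) -
        (mA N y * Rec.TT S spin (ZB N K y) (K + 1) + mB N y * Rec.TT S spin (ZA N K y) (K + 1))) -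
        W K m l (fun j => (2 * Rec.TT S spin (ZB N K y) j - y * Rec.TT S spin (ZA N K y) j -
        (mA N y * Rec.TT S spin (ZB N K y) j + mB N y * Rec.TT S spin (ZA N K y) j))) =
        -((zt N y).im * ev K m (TQ S (ZA N K y)) l - (zt N y).re * ev K m (TQ S (ZB N K y)) l) := by
      rw [ev_w hm _ hl, ev_w hm _ hl, ← wmul, ← wmul, ← wsub, ← wneg,
        ← wconst hm hl (2 * Rec.TT S spin (ZB N K y) (K + 1) -
        y * Rec.TT S spin (ZA N K y) (K + 1) -
        (mA N y * Rec.TT S spin (ZB N K y) (K + 1) + mB N y * Rec.TT S spin (ZA N K y) (K + 1))),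
        ← wsub]
      refine wcongr hl fun j hj _ => ?_
      show _ = -((y + mB N y) *
        (Rec.TT S spin (ZA N K y) (K + 1) - Rec.TT S spin (ZA N K y) j) -
        (2 - mA N y) * (Rec.TT S spin (ZB N K y) (K + 1) - Rec.TT S spin (ZB N K y) j))
      ring
    rw [h7] at h6
    have h8 : |(zt N y).im * ev K m (TQ S (ZA N K y)) l -
        (zt N y).re * ev K m (TQ S (ZB N K y)) l +
        β * a * (lam K m R l * ev K m (TQ S (ZB N K y)) l)| ≤
      3 * (β * a) * (1 / √y) * SB m y S * (m (l + 1) * √(dev2 S l) + √(Vd m S)) +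
        2 * (β * b * (2 / y ^ 2)) * SB m y S ^ 2 + 2 * G := by
      rw [abs_le] at h6 mB' ⊢
      constructor
      · linarith only [h6.2, mB'.2]
      · linarith only [h6.1, mB'.1]
    rw [hRd] at h8
    exact h8.trans herr

end Vale.Agent.P146.H326.B7
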