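import Vale.Agent.P146.H633.Psd1

/-!
Pointwise matrix inequalities for an almost rank one positive semidefinite matrix `C` in the
presence of two further positive semidefinite matrices `Y` (weight) and `B` (base matrix):
`tr (Y C B C)` against `tr (Y C²) ⟨C, B⟩ / |C|`, and `|C| tr (Y C²)` against `tr (Y C³)`.
-/

open Matrix Vale.Agent.P146.H332 Vale.Agent.P146.H522 Vale.Agent.P146.H633

namespace Vale.Agent.P146.H326.J1

set_option linter.unusedSectionVars false
set_option linter.unusedDecidableInType false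

variable {m : Type} [Fintype m] [DecidableEq m]

open scoped MatrixOrder Matrix.Norms.L2Operator in
/-- A positive semidefinite matrix is a square. -/
theorem psd_sq {A : Matrix m m ℝ} (hA : A.PosSemidef) : ∃ R : Matrix m m ℝ, A = Rᴴ * R := by
  obtain ⟨B, hB⟩ := CStarAlgebra.nonneg_iff_eq_star_mul_self.mp
    (Matrix.nonneg_iff_posSemidef.2 hA)
  exact ⟨B, hB⟩

/-- The trace of a product of two positive semidefinite matrices is nonnegative. -/
theorem tr_nn {A B : Matrix m m ℝ} (hA : A.PosSemidef) (hB : B.PosSemidef) :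
    0 ≤ (A * B).trace := by
  obtain ⟨R, hR⟩ := psd_sq hA
  rw [hR, Matrix.mul_assoc, Matrix.trace_mul_comm]
  have h := hB.mul_mul_conjTranspose_same R
  exact h.trace_nonneg

lemma sym_of {A : Matrix m m ℝ} (hA : A.PosSemidef) : Aᵀ = A := by
  have := hA.1
  rwa [Matrix.IsHermitian, Matrix.conjTranspose_eq_transpose_of_trivial] at this

lemma conj_psd {B X : Matrix m m ℝ} (hB : B.PosSemidef) : (X * B * Xᵀ).PosSemidef := by
  have := hB.mul_mul_conjTranspose_same X
  rwa [Matrix.conjTranspose_eq_transpose_of_trivial] at this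

/-- Minkowski, linear form. -/
theorem tr_mink {Y B X Z : Matrix m m ℝ} (hY : Y.PosSemidef) (hB : B.PosSemidef) {s : ℝ}
    (hs : 0 < s) :
    (Y * ((X + Z) * B * (X + Z)ᵀ)).trace ≤
      (1 + s) * (Y * (X * B * Xᵀ)).trace + (1 + 1 / s) * (Y * (Z * B * Zᵀ)).trace := by
  have h := tr_nn hY (conj_psd (X := s • X - Z) hB)
  have e1 : (s • X - Z) * B * (s • X - Z)ᵀ = (s ^ 2) • (X * B * Xᵀ) - s • (X * B * Zᵀ) -
      s • (Z * B * Xᵀ) + Z * B * Zᵀ := by
    simp only [Matrix.transpose_sub, Matrix.transpose_smul, Matrix.sub_mul, Matrix.mul_sub,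
      Matrix.smul_mul, Matrix.mul_smul, smul_sub, smul_smul, sq]
    abel
  have e2 : (X + Z) * B * (X + Z)ᵀ = X * B * Xᵀ + X * B * Zᵀ + Z * B * Xᵀ + Z * B * Zᵀ := by
    simp only [Matrix.transpose_add, Matrix.add_mul, Matrix.mul_add]
    abel
  rw [e1] at h
  rw [e2]
  simp only [Matrix.mul_add, Matrix.mul_sub, Matrix.mul_smul, Matrix.trace_add, Matrix.trace_sub,
    Matrix.trace_smul, smul_eq_mul] at h ⊢
  set a := (Y * (X * B * Xᵀ)).trace
  set b := (Y * (X * B * Zᵀ)).trace
  set c := (Y * (Z * B * Xᵀ)).trace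
  set d := (Y * (Z * B * Zᵀ)).trace
  have h2 : s * (b + c) ≤ s * (s * a + 1 / s * d) := by
    have : s * (s * a + 1 / s * d) = s ^ 2 * a + d := by field_simp
    rw [this]; linarith
  have h3 := le_of_mul_le_mul_left h2 hs
  linarith

/-! ### the top eigenvector -/

/-- The decomposition of a symmetric matrix with the eigenvector `v`. -/
lemma dec {C : Matrix m m ℝ} (hC : Cᵀ = C) {v : m → ℝ} {l : ℝ} (hv : ∑ i, v i ^ 2 = 1)
    (he : ∀ i, (C *ᵥ v) i = l * v i) :
    C = l • vecMulVec v v + pj v * C * pj v ∧ C * vecMulVec v v = l • vecMulVec v v ∧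
      vecMulVec v v * C = l • vecMulVec v v := by
  have h1 : C * vecMulVec v v = l • vecMulVec v v := by
    rw [mul_vecMulVec]
    ext i j
    rw [vecMulVec_apply, he, Matrix.smul_apply, vecMulVec_apply, smul_eq_mul, mul_assoc]
  have hvt : (vecMulVec v v)ᵀ = vecMulVec v v := by
    ext i j
    rw [transpose_apply, vecMulVec_apply, vecMulVec_apply, mul_comm]
  have h2 : vecMulVec v v * C = l • vecMulVec v v := by
    have := congrArg Matrix.transpose h1
    rw [transpose_mul, hC, hvt, transpose_smul, hvt] at this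
    exact this
  refine ⟨?_, h1, h2⟩
  unfold pj
  rw [Matrix.sub_mul, Matrix.one_mul, Matrix.mul_sub, Matrix.mul_one, Matrix.sub_mul, h1, h2,
    smul_mul_assoc, vv_mul hv]
  abel

lemma vv_psd (v : m → ℝ) : (vecMulVec v v).PosSemidef := by
  have := Matrix.posSemidef_vecMulVec_self_star (R := ℝ) v
  simpa using this

/-- `tr (Y v vᵀ) = vᵀ Y v` -/
lemma tr_vv (Y : Matrix m m ℝ) (v : m → ℝ) : (Y * vecMulVec v v).trace = v ⬝ᵥ (Y *ᵥ v) := by
  rw [mul_vecMulVec, Matrix.trace_vecMulVec, dotProduct_comm]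

lemma vBv (B : Matrix m m ℝ) (v : m → ℝ) :
    vecMulVec v v * B * vecMulVec v v = (v ⬝ᵥ (B *ᵥ v)) • vecMulVec v v := by
  rw [Matrix.mul_assoc, mul_vecMulVec, vecMulVec_mul_vecMulVec]
  ext i j
  simp only [Matrix.smul_apply, vecMulVec_apply, Pi.smul_apply, smul_eq_mul]
  ring

/-- `C² ≤ |C| C` inside a trace. -/
lemma tr_sq_le {Y C : Matrix m m ℝ} (hY : Y.PosSemidef) (hC : C.PosSemidef) :
    (Y * (C * C)).trace ≤ nf C * (Y * C).trace := by
  obtain ⟨R, hR⟩ := psd_sq hC
  have hRt : Rᴴ = Rᵀ := Matrix.conjTranspose_eq_transpose_of_trivial R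
  rw [hRt] at hR
  -- `|C| - R Rᵀ` is psd
  have hfr : fr (R * Rᵀ) = fr C := by
    have e : ∀ M : Matrix m m ℝ, Mᵀ = M → fr M = (M * M).trace := by
      intro M hM
      rw [fr_eq_trace]
      rw [hM]
    rw [e _ (by rw [transpose_mul, transpose_transpose]), e _ (sym_of hC), hR]
    rw [Matrix.mul_assoc R Rᵀ, ← Matrix.mul_assoc Rᵀ R Rᵀ, Matrix.trace_mul_comm]
    simp only [Matrix.mul_assoc]
  have hp : (nf C • (1 : Matrix m m ℝ) - R * Rᵀ).PosSemidef := by
    refine Matrix.PosSemidef.of_dotProduct_mulVec_nonneg ?_ fun u => ?_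
    · rw [Matrix.IsHermitian, Matrix.conjTranspose_eq_transpose_of_trivial, transpose_sub,
        transpose_smul, transpose_one, transpose_mul, transpose_transpose]
    · have h1 := qf_le_nf (R * Rᵀ) u
      have h2 : nf (R * Rᵀ) = nf C := by unfold nf; rw [hfr]
      rw [h2] at h1
      have h3 := (abs_le.1 h1).2
      have h4 : star u ⬝ᵥ ((nf C • (1 : Matrix m m ℝ) - R * Rᵀ) *ᵥ u) =
          nf C * ∑ i, u i ^ 2 - u ⬝ᵥ ((R * Rᵀ) *ᵥ u) := by
        rw [star_trivial, sub_mulVec, smul_mulVec, one_mulVec, dotProduct_sub, dotProduct_smul,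
          dot_self, smul_eq_mul]
      rw [h4]
      linarith
  have h5 := tr_nn hY (conj_psd (X := Rᵀ) hp)
  have h6 : Rᵀ * (nf C • (1 : Matrix m m ℝ) - R * Rᵀ) * Rᵀᵀ = nf C • C - C * C := by
    rw [transpose_transpose, Matrix.mul_sub, Matrix.sub_mul, Matrix.mul_smul, Matrix.mul_one,
      Matrix.smul_mul, ← hR]
    congr 1
    rw [hR]
    simp only [Matrix.mul_assoc]
  rw [h6, Matrix.mul_sub, Matrix.mul_smul, Matrix.trace_sub, Matrix.trace_smul, smul_eq_mul] at h5
  linarith

/-- The data of the top eigenvector of an almost rank one psd matrix. -/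
theorem top_data [Nonempty m] {C : Matrix m m ℝ} (hC : C.PosSemidef) {ε : ℝ} (hε0 : 0 ≤ ε)
    (hε1 : ε < 1) (hf : 0 < fr C) (hd : dfc C ≤ ε * fr C ^ 2) :
    ∃ (v : m → ℝ) (l : ℝ) (P : Matrix m m ℝ), ∑ i, v i ^ 2 = 1 ∧ C = l • vecMulVec v v + P ∧
      P.PosSemidef ∧ P * vecMulVec v v = 0 ∧ vecMulVec v v * P = 0 ∧ fr P ≤ ε * fr C ∧
      (1 - ε) * nf C ≤ l ∧ l ≤ nf C := by
  obtain ⟨v, l, hv, he, -, hdd⟩ := top_eig (sym_of hC)
  obtain ⟨h1, h2, h3⟩ := dec (sym_of hC) hv he
  have hvt : (vecMulVec v v)ᵀ = vecMulVec v v := by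
    ext i j
    rw [transpose_apply, vecMulVec_apply, vecMulVec_apply, mul_comm]
  have hl : 0 ≤ l := by
    have h4 := hC.dotProduct_mulVec_nonneg v
    have h5 : C *ᵥ v = l • v := by ext i; rw [he]; rfl
    rw [h5, dotProduct_smul, star_trivial, dot_self, hv, smul_eq_mul, mul_one] at h4
    exact h4
  have hP : (pj v * C * pj v).PosSemidef := by
    have := conj_psd (X := pj v) hC
    rwa [pj_T] at this
  have hfr : fr C = l ^ 2 + fr (pj v * C * pj v) := by
    have e1 : ∀ M : Matrix m m ℝ, Mᵀ = M → fr M = (M * M).trace := by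
      intro M hM
      rw [fr_eq_trace, hM]
    have hPt : (pj v * C * pj v)ᵀ = pj v * C * pj v := sym_of hP
    rw [e1 _ (sym_of hC), e1 _ hPt]
    have z1 : vecMulVec v v * (pj v * C * pj v) = 0 := by
      have : vecMulVec v v * pj v = 0 := by
        unfold pj
        rw [Matrix.mul_sub, Matrix.mul_one, vv_mul hv, sub_self]
      rw [← Matrix.mul_assoc, ← Matrix.mul_assoc, this, Matrix.zero_mul, Matrix.zero_mul]
    have z2 : (pj v * C * pj v) * vecMulVec v v = 0 := by
      have : pj v * vecMulVec v v = 0 := by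
        unfold pj
        rw [Matrix.sub_mul, Matrix.one_mul, vv_mul hv, sub_self]
      rw [Matrix.mul_assoc, this, Matrix.mul_zero]
    have e2 : C * C = (l ^ 2) • vecMulVec v v + (pj v * C * pj v) * (pj v * C * pj v) := by
      set P := pj v * C * pj v with hPd
      rw [h1, Matrix.add_mul, Matrix.mul_add, Matrix.mul_add, Matrix.smul_mul, Matrix.mul_smul,
        vv_mul hv, Matrix.smul_mul, z1, Matrix.mul_smul, z2, smul_smul, smul_zero, add_zero,
        zero_add, sq]
    rw [e2, Matrix.trace_add, Matrix.trace_smul]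
    have e3 : (vecMulVec v v).trace = 1 := by
      rw [Matrix.trace_vecMulVec, dot_self, hv]
    rw [e3, smul_eq_mul, mul_one]
  refine ⟨v, l, pj v * C * pj v, hv, h1, hP, ?_, ?_, ?_, ?_, ?_⟩
  · have : pj v * vecMulVec v v = 0 := by
      unfold pj
      rw [Matrix.sub_mul, Matrix.one_mul, vv_mul hv, sub_self]
    rw [Matrix.mul_assoc, this, Matrix.mul_zero]
  · have : vecMulVec v v * pj v = 0 := by
      unfold pj
      rw [Matrix.mul_sub, Matrix.mul_one, vv_mul hv, sub_self]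
    rw [← Matrix.mul_assoc, ← Matrix.mul_assoc, this, Matrix.zero_mul, Matrix.zero_mul]
  · have h4 : fr (pj v * C * pj v) * fr C ≤ ε * fr C * fr C := by
      calc fr (pj v * C * pj v) * fr C ≤ dfc C := hdd
        _ ≤ ε * fr C ^ 2 := hd
        _ = _ := by ring
    exact le_of_mul_le_mul_right h4 hf
  · have h4 : fr (pj v * C * pj v) * fr C ≤ ε * fr C * fr C := by
      calc fr (pj v * C * pj v) * fr C ≤ dfc C := hdd
        _ ≤ ε * fr C ^ 2 := hd
        _ = _ := by ring
    have h5 := le_of_mul_le_mul_right h4 hf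
    have h6 : (1 - ε) * fr C ≤ l ^ 2 := by linarith
    have h7 : ((1 - ε) * nf C) ^ 2 ≤ l ^ 2 := by
      rw [mul_pow, nf_sq]
      refine le_trans ?_ h6
      refine mul_le_mul_of_nonneg_right ?_ hf.le
      nlinarith
    exact (le_abs_self _).trans (abs_le_of_sq_le_sq h7 hl)
  · have h8 : l ^ 2 ≤ nf C ^ 2 := by
      rw [nf_sq, hfr]
      have := fr_nonneg (pj v * C * pj v)
      linarith
    exact (le_abs_self _).trans (abs_le_of_sq_le_sq h8 (nf_nonneg C))

lemma nf_le_of {P C : Matrix m m ℝ} {ε : ℝ} (hε0 : 0 ≤ ε) (h : fr P ≤ ε * fr C) :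
    nf P ≤ √ε * nf C := by
  unfold nf
  rw [← Real.sqrt_mul hε0]
  exact Real.sqrt_le_sqrt h

/-- **`tr (Y C B C)` against `tr (Y C²) ⟨C, B⟩ / |C|`.** -/
theorem K3_point [Nonempty m] {C B Y : Matrix m m ℝ} (hC : C.PosSemidef) (hB : B.PosSemidef)
    (hY : Y.PosSemidef) {ob ε s : ℝ} (hob : (ob • (1 : Matrix m m ℝ) - B).PosSemidef)
    (hob0 : 0 ≤ ob) (hε0 : 0 ≤ ε) (hε1 : ε < 1) (hf : 0 < fr C) (hd : dfc C ≤ ε * fr C ^ 2)
    (hs : 0 < s) :
    (Y * (C * B * C)).trace ≤
      (1 + s) / (1 - ε) * ((Y * (C * C)).trace * (C * B).trace / nf C) +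
      (1 + 1 / s) * ob * (√ε * nf C * (Y * C).trace) := by
  obtain ⟨v, l, P, hv, hCd, hP, z1, z2, hPf, hl1, hl2⟩ := top_data hC hε0 hε1 hf hd
  have hnf : 0 < nf C := Real.sqrt_pos.2 hf
  have h1ε : 0 < 1 - ε := by linarith
  have hl : 0 < l := lt_of_lt_of_le (by positivity) hl1
  have hPt := sym_of hP
  have hCt := sym_of hC
  have hvt : (vecMulVec v v)ᵀ = vecMulVec v v := by
    ext i j
    rw [transpose_apply, vecMulVec_apply, vecMulVec_apply, mul_comm]
  -- Minkowski
  have h1 := tr_mink (X := l • vecMulVec v v) (Z := P) hY hB hs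
  have e1 : (l • vecMulVec v v + P) * B * (l • vecMulVec v v + P)ᵀ = C * B * C := by
    rw [← hCd, hCt]
  have e2 : (l • vecMulVec v v) * B * (l • vecMulVec v v)ᵀ =
      (l ^ 2 * (v ⬝ᵥ (B *ᵥ v))) • vecMulVec v v := by
    rw [transpose_smul, hvt, Matrix.smul_mul, Matrix.smul_mul, Matrix.mul_smul, vBv, smul_smul,
      smul_smul]
    congr 1
    ring
  rw [e1, e2, hPt, Matrix.mul_smul, Matrix.trace_smul, smul_eq_mul, tr_vv] at h1
  -- the pieces
  set y := v ⬝ᵥ (Y *ᵥ v) with hy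
  set b := v ⬝ᵥ (B *ᵥ v) with hb
  have hy0 : 0 ≤ y := by
    have := hY.dotProduct_mulVec_nonneg v
    rwa [star_trivial] at this
  have hb0 : 0 ≤ b := by
    have := hB.dotProduct_mulVec_nonneg v
    rwa [star_trivial] at this
  have hCC : C * C = (l ^ 2) • vecMulVec v v + P * P := by
    rw [hCd, Matrix.add_mul, Matrix.mul_add, Matrix.mul_add, Matrix.smul_mul, Matrix.mul_smul,
      vv_mul hv, Matrix.smul_mul, z2, Matrix.mul_smul, z1, smul_smul, smul_zero, add_zero,
      zero_add, sq]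
  have hPP : (P * P).PosSemidef := by
    have := conj_psd (X := P) (Matrix.PosSemidef.one (n := m) (R := ℝ))
    rwa [Matrix.mul_one, hPt] at this
  have h2 : l ^ 2 * y ≤ (Y * (C * C)).trace := by
    rw [hCC, Matrix.mul_add, Matrix.mul_smul, Matrix.trace_add, Matrix.trace_smul, smul_eq_mul,
      tr_vv]
    have := tr_nn hY hPP
    linarith
  have h3 : l * b ≤ (C * B).trace := by
    have e3 : (C * B).trace = (B * C).trace := Matrix.trace_mul_comm _ _
    rw [e3]
    conv_rhs => rw [hCd]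
    rw [Matrix.mul_add, Matrix.mul_smul, Matrix.trace_add, Matrix.trace_smul, smul_eq_mul, tr_vv]
    have := tr_nn hB hP
    linarith
  -- the main term
  have h4 : l ^ 2 * b * y ≤ 1 / (1 - ε) * ((Y * (C * C)).trace * (C * B).trace / nf C) := by
    have h5 : (l ^ 2 * y) * (l * b) ≤ (Y * (C * C)).trace * (C * B).trace :=
      mul_le_mul h2 h3 (by positivity) ((by positivity : 0 ≤ l ^ 2 * y).trans h2)
    have h6 : (l ^ 2 * b * y) * ((1 - ε) * nf C) ≤ (Y * (C * C)).trace * (C * B).trace :=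
      calc (l ^ 2 * b * y) * ((1 - ε) * nf C) ≤ (l ^ 2 * b * y) * l :=
            mul_le_mul_of_nonneg_left hl1 (by positivity)
        _ = (l ^ 2 * y) * (l * b) := by ring
        _ ≤ _ := h5
    rw [one_div_mul_eq_div, div_div, le_div_iff₀ (by positivity)]
    linarith
  -- the perpendicular term
  have h7 : (Y * (P * B * P)).trace ≤ ob * (√ε * nf C * (Y * C).trace) := by
    have g1 := tr_nn hY (conj_psd (X := P) hob)
    rw [hPt, Matrix.mul_sub, Matrix.mul_smul, Matrix.mul_one, Matrix.sub_mul, Matrix.smul_mul,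
      Matrix.mul_sub, Matrix.mul_smul, Matrix.trace_sub, Matrix.trace_smul, smul_eq_mul] at g1
    have g2 := tr_sq_le hY hP
    have g3 : (Y * P).trace ≤ (Y * C).trace := by
      rw [hCd, Matrix.mul_add, Matrix.mul_smul, Matrix.trace_add, Matrix.trace_smul, smul_eq_mul,
        tr_vv]
      have : 0 ≤ l * y := by positivity
      linarith
    have g4 := nf_le_of hε0 hPf
    have g5 : 0 ≤ (Y * P).trace := tr_nn hY hP
    have g6 : nf P * (Y * P).trace ≤ √ε * nf C * (Y * C).trace :=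
      mul_le_mul g4 g3 g5 (by positivity)
    have g7 := mul_le_mul_of_nonneg_left (g2.trans g6) hob0
    linarith
  calc (Y * (C * B * C)).trace ≤ (1 + s) * (l ^ 2 * b * y) +
        (1 + 1 / s) * (Y * (P * B * P)).trace := h1
    _ ≤ (1 + s) * (1 / (1 - ε) * ((Y * (C * C)).trace * (C * B).trace / nf C)) +
        (1 + 1 / s) * (ob * (√ε * nf C * (Y * C).trace)) :=
        add_le_add (mul_le_mul_of_nonneg_left h4 (by linarith))
          (mul_le_mul_of_nonneg_left h7 (by positivity))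
    _ = _ := by ring

/-- **`|C| tr (Y C²)` against `tr (Y C³)`.** -/
theorem A3_point [Nonempty m] {C Y : Matrix m m ℝ} (hC : C.PosSemidef)
    (hY : Y.PosSemidef) {ε : ℝ} (hε0 : 0 ≤ ε) (hε1 : ε < 1) (hf : 0 < fr C)
    (hd : dfc C ≤ ε * fr C ^ 2) :
    (1 - ε) * nf C * (Y * (C * C)).trace ≤
      (Y * (C * C * C)).trace + √ε * nf C ^ 2 * (Y * C).trace := by
  obtain ⟨v, l, P, hv, hCd, hP, z1, z2, hPf, hl1, hl2⟩ := top_data hC hε0 hε1 hf hd
  have hnf : 0 < nf C := Real.sqrt_pos.2 hf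
  have h1ε : 0 < 1 - ε := by linarith
  have hl : 0 < l := lt_of_lt_of_le (by positivity) hl1
  have hPt := sym_of hP
  set y := v ⬝ᵥ (Y *ᵥ v) with hy
  have hy0 : 0 ≤ y := by
    have := hY.dotProduct_mulVec_nonneg v
    rwa [star_trivial] at this
  have hCC : C * C = (l ^ 2) • vecMulVec v v + P * P := by
    rw [hCd, Matrix.add_mul, Matrix.mul_add, Matrix.mul_add, Matrix.smul_mul, Matrix.mul_smul,
      vv_mul hv, Matrix.smul_mul, z2, Matrix.mul_smul, z1, smul_smul, smul_zero, add_zero,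
      zero_add, sq]
  have hPP : (P * P).PosSemidef := by
    have := conj_psd (X := P) (Matrix.PosSemidef.one (n := m) (R := ℝ))
    rwa [Matrix.mul_one, hPt] at this
  have hPPP : (P * P * P).PosSemidef := by
    have := conj_psd (X := P) hP
    rwa [hPt] at this
  have hCCC : C * C * C = (l ^ 3) • vecMulVec v v + P * P * P := by
    rw [hCC]
    conv_lhs => rw [hCd]
    rw [Matrix.add_mul, Matrix.mul_add, Matrix.mul_add, Matrix.smul_mul, Matrix.mul_smul,
      vv_mul hv, Matrix.smul_mul, z2, Matrix.mul_smul, Matrix.mul_assoc P P, z1, Matrix.mul_zero,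
      smul_smul, smul_zero, smul_zero, add_zero, zero_add]
    congr 2
  have w2 : (Y * (C * C)).trace = l ^ 2 * y + (Y * (P * P)).trace := by
    rw [hCC, Matrix.mul_add, Matrix.mul_smul, Matrix.trace_add, Matrix.trace_smul, smul_eq_mul,
      tr_vv]
  have w3 : (Y * (C * C * C)).trace = l ^ 3 * y + (Y * (P * P * P)).trace := by
    rw [hCCC, Matrix.mul_add, Matrix.mul_smul, Matrix.trace_add, Matrix.trace_smul, smul_eq_mul,
      tr_vv]
  have g2 := tr_sq_le hY hP
  have g3 : (Y * P).trace ≤ (Y * C).trace := by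
    rw [hCd, Matrix.mul_add, Matrix.mul_smul, Matrix.trace_add, Matrix.trace_smul, smul_eq_mul,
      tr_vv]
    have : 0 ≤ l * y := by positivity
    linarith
  have g4 := nf_le_of hε0 hPf
  have g5 : 0 ≤ (Y * P).trace := tr_nn hY hP
  have g6 : nf P * (Y * P).trace ≤ √ε * nf C * (Y * C).trace :=
    mul_le_mul g4 g3 g5 (by positivity)
  have g7 : (Y * (P * P)).trace ≤ √ε * nf C * (Y * C).trace := g2.trans g6
  have g8 : 0 ≤ (Y * (P * P)).trace := tr_nn hY hPP
  have g9 : 0 ≤ (Y * (P * P * P)).trace := tr_nn hY hPPP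
  have k1 : (1 - ε) * nf C * (l ^ 2 * y) ≤ l ^ 3 * y := by
    calc (1 - ε) * nf C * (l ^ 2 * y) ≤ l * (l ^ 2 * y) :=
          mul_le_mul_of_nonneg_right hl1 (by positivity)
      _ = _ := by ring
  have k2 : (1 - ε) * nf C * (Y * (P * P)).trace ≤ √ε * nf C ^ 2 * (Y * C).trace := by
    calc (1 - ε) * nf C * (Y * (P * P)).trace ≤ 1 * nf C * (Y * (P * P)).trace := by
          refine mul_le_mul_of_nonneg_right ?_ g8
          exact mul_le_mul_of_nonneg_right (by linarith) hnf.le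
      _ ≤ nf C * (√ε * nf C * (Y * C).trace) := by
          rw [one_mul]
          exact mul_le_mul_of_nonneg_left g7 hnf.le
      _ = _ := by ring
  rw [w2, w3, mul_add]
  linarith

end Vale.Agent.P146.H326.J1
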