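import Vale.Agent.P146.H522.TwoEnd2

/-!
P146, lower side, ONE window (`0` below, `x` on `[w, 1]`), weight `W = tr (Q_1 C_2²)`: the
deterministic end. `A = E tr (Y C²)`, `A3 = E tr (Y C³)`, `J = E tr (Y C² C_w)`,
`K = E tr (Y C C_w C)`, `v = β x / n`. The mean overlap with the base matrix enters only through
`K² ρ ≤ (1 + η) c n A A3` (804's transport inequality (T1), `c = D / (s x)` in overlap units).
-/

namespace Vale.Agent.P146.H326.J1

open Vale.Agent.P146.H522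

/-- The numbers of one law with one window. -/
structure Num1 (v A A3 J K NL e : ℝ) : Prop where
  v0 : 0 < v
  A0 : 0 < A
  A30 : 0 < A3
  K0 : 0 ≤ K
  J2 : J ^ 2 ≤ A3 * K
  f01 : v * (A3 - 2 * J + K) ≤ NL + e * (v * A3)

theorem Num1.num {v A A3 J K NL e : ℝ} (h : Num1 v A A3 J K NL e) :
    Num 1 v A A3 J 0 K 0 NL e where
  v0 := h.v0
  A0 := h.A0
  A30 := h.A30
  Ka0 := h.K0
  Kw0 := le_rfl
  Ja2 := h.J2
  Jw2 := by simp
  f01 := by
    have := h.f01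
    simpa using this

/-- **`F0 + F1` with one window.** -/
theorem Num1.sq_le {v A A3 J K NL e t : ℝ} (h : Num1 v A A3 J K NL e) (ht0 : 0 ≤ t) (ht1 : t ≤ 1)
    (hK : K ≤ t ^ 2 * A3) : (1 - t) ^ 2 * (v * A3) ≤ NL + e * (v * A3) := by
  have := h.num.drop zero_le_one le_rfl ht0 ht1 hK
  linarith

/-- The overlap with the base from the square inequality. -/
theorem K_le {n A A3 K ρ r c b t : ℝ} (hn : 0 < n) (hA : 0 < A) (hρ : 0 < ρ) (hr : 0 < r)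
    (hA3 : A3 = n * r * A) (hK0 : 0 ≤ K) (ht : 0 ≤ t)
    (hK : K ^ 2 * ρ ≤ b * c * (n * A * A3)) (hbc : b * c ≤ t ^ 4 * (ρ * r)) :
    K ≤ t ^ 2 * A3 := by
  have hA30 : 0 < A3 := by rw [hA3]; positivity
  have h1 : K ^ 2 * ρ ≤ (t ^ 2 * A3) ^ 2 * ρ := by
    calc K ^ 2 * ρ ≤ b * c * (n * A * A3) := hK
      _ ≤ t ^ 4 * (ρ * r) * (n * A * A3) := mul_le_mul_of_nonneg_right hbc (by positivity)
      _ = (t ^ 2 * A3) ^ 2 * ρ := by rw [hA3]; ring
  have h2 : K ^ 2 ≤ (t ^ 2 * A3) ^ 2 := le_of_mul_le_mul_right h1 hρ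
  exact (le_abs_self _).trans (abs_le_of_sq_le_sq h2 (by positivity))

/-- **The end of the frame with one window.**

Plain data at the point: `ρ²` = slope, `c = D / (s x) ≤ (1/3 + η) ρ²`, `c ≤ δ x²`.

* case `ρ ≤ τ x`: `c0 ρ ≤ r ≤ U ρ`, `K² ρ ≤ (1 + η) c n A A3`, `NL ≤ M r² A`;
* case `τ x ≤ ρ`: `c0 ρ ≤ r'`, `K'² ρ ≤ (1 + η) c n A' A3'`, `2 NL' ≤ 47/25 v A3' + e v A3'`. -/
theorem one_end_crude {n β x v ρ c δ η τ c0 U M e : ℝ}
    {A A3 J K NL r : ℝ} {A' A3' J' K' NL' r' : ℝ}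
    (hn : 0 < n) (hβ : 0 < β) (hx : 0 < x) (hv : v = β * x / n) (hρ : 0 < ρ) (hη0 : 0 ≤ η)
    (hη : η ≤ 1 / 1000) (hc : 0 ≤ c) (hcρ : c ≤ (1 / 3 + η) * ρ ^ 2) (hcδ : c ≤ δ * x ^ 2)
    (hτ : 0 < τ) (hc0 : 7 / 10 ≤ c0) (hM : 0 ≤ M)
    (he0 : 0 ≤ e) (he : e ≤ 1 / 100) (hMU : M * U * τ ≤ e * β)
    (hδτ : 10 ^ 14 * δ ≤ τ ^ 2)
    (h : ρ ≤ τ * x → Num1 v A A3 J K NL e ∧ A3 = n * r * A ∧ c0 * ρ ≤ r ∧
      r ≤ U * ρ ∧ K ^ 2 * ρ ≤ (1 + η) * c * (n * A * A3) ∧ NL ≤ M * r ^ 2 * A)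
    (h' : τ * x ≤ ρ → Num1 v A' A3' J' K' NL' e ∧ A3' = n * r' * A' ∧
      c0 * ρ ≤ r' ∧ K' ^ 2 * ρ ≤ (1 + η) * c * (n * A' * A3') ∧
      2 * NL' ≤ 47 / 25 * (v * A3') + e * (v * A3')) : False := by
  have hc00 : 0 < c0 := by linarith
  have hρ2 : 0 < ρ ^ 2 := by positivity
  rcases le_total ρ (τ * x) with hs | hb
  · obtain ⟨hN, hA3, hlo, hup, hK, hkap⟩ := h hs
    have hr : 0 < r := lt_of_lt_of_le (by positivity) hlo
    have b1 : 7 / 10 * ρ ≤ r := (mul_le_mul_of_nonneg_right hc0 hρ.le).trans hlo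
    have b2 : 7 / 10 * ρ ^ 2 ≤ ρ * r := by
      have := mul_le_mul_of_nonneg_left b1 hρ.le
      linarith
    have b3 : (1 + η) * c ≤ (84 / 100) ^ 4 * (ρ * r) := by
      have a1 : (1 + η) * c ≤ (1 + 1 / 1000) * ((1 / 3 + 1 / 1000) * ρ ^ 2) := by
        refine mul_le_mul (by linarith) ?_ hc (by norm_num)
        exact hcρ.trans (mul_le_mul_of_nonneg_right (by linarith) hρ2.le)
      have a2 : (84 / 100 : ℝ) ^ 4 * (7 / 10 * ρ ^ 2) ≤ (84 / 100) ^ 4 * (ρ * r) :=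
        mul_le_mul_of_nonneg_left b2 (by norm_num)
      have a3 : (1 + 1 / 1000 : ℝ) * (1 / 3 + 1 / 1000) ≤ (84 / 100) ^ 4 * (7 / 10) := by norm_num
      have a4 := mul_le_mul_of_nonneg_right a3 hρ2.le
      linarith
    have hKt : K ≤ (84 / 100) ^ 2 * A3 :=
      K_le hn hN.A0 hρ hr hA3 hN.K0 (by norm_num) hK b3
    have h1 := hN.sq_le (by norm_num) (by norm_num) hKt
    -- `NL ≤ e v A3`
    have hvn : v * n = β * x := by rw [hv]; field_simp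
    have c1 : NL ≤ e * (v * A3) := by
      have d1 : M * r ≤ M * (U * ρ) := mul_le_mul_of_nonneg_left hup hM
      have hU : 0 ≤ U := by
        by_contra hh
        have := mul_neg_of_neg_of_pos (not_le.1 hh) hρ
        linarith
      have d2 : M * (U * ρ) ≤ M * (U * (τ * x)) :=
        mul_le_mul_of_nonneg_left (mul_le_mul_of_nonneg_left hs hU) hM
      have d3 : M * (U * (τ * x)) = M * U * τ * x := by ring
      have d4 : M * U * τ * x ≤ e * β * x := mul_le_mul_of_nonneg_right hMU hx.le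
      have d5 : M * r ≤ e * (β * x) := by linarith
      have d6 : e * (v * A3) = e * (β * x) * (r * A) := by rw [hA3, ← hvn]; ring
      rw [d6]
      calc NL ≤ M * r ^ 2 * A := hkap
        _ = M * r * (r * A) := by ring
        _ ≤ e * (β * x) * (r * A) :=
          mul_le_mul_of_nonneg_right d5 (mul_nonneg hr.le hN.A0.le)
    have h2 : 0 < v * A3 := mul_pos hN.v0 hN.A30
    have h3 : (1 - 84 / 100) ^ 2 * (v * A3) ≤ 2 * e * (v * A3) := by linarith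
    have h4 : (2 * e) * (v * A3) ≤ (2 * (1 / 100)) * (v * A3) :=
      mul_le_mul_of_nonneg_right (by linarith) h2.le
    have h5 : (2 * (1 / 100)) * (v * A3) < (1 - 84 / 100) ^ 2 * (v * A3) :=
      mul_lt_mul_of_pos_right (by norm_num) h2
    linarith
  · obtain ⟨hN, hA3, hlo, hK, hF2⟩ := h' hb
    have hr : 0 < r' := lt_of_lt_of_le (by positivity) hlo
    have b1 : 7 / 10 * ρ ≤ r' := (mul_le_mul_of_nonneg_right hc0 hρ.le).trans hlo
    have b2 : 7 / 10 * ρ ^ 2 ≤ ρ * r' := by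
      have := mul_le_mul_of_nonneg_left b1 hρ.le
      linarith
    have b3 : (1 + η) * c ≤ (1 / 1000) ^ 4 * (ρ * r') := by
      have a0 : (τ * x) ^ 2 ≤ ρ ^ 2 := pow_le_pow_left₀ (by positivity) hb 2
      have a1 : (1 + η) * c ≤ (1 + 1 / 1000) * (δ * x ^ 2) :=
        mul_le_mul (by linarith) hcδ hc (by norm_num)
      have a2 : 10 ^ 14 * δ * x ^ 2 ≤ τ ^ 2 * x ^ 2 :=
        mul_le_mul_of_nonneg_right hδτ (sq_nonneg x)
      have a3 : (τ * x) ^ 2 = τ ^ 2 * x ^ 2 := by ring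
      rw [a3] at a0
      linarith
    have hKt : K' ≤ (1 / 1000) ^ 2 * A3' :=
      K_le hn hN.A0 hρ hr hA3 hN.K0 (by norm_num) hK b3
    have h1 := hN.sq_le (by norm_num) (by norm_num) hKt
    have h2 : 0 < v * A3' := mul_pos hN.v0 hN.A30
    have h4 : (3 / 2 * e) * (v * A3') ≤ (3 / 2 * (1 / 100)) * (v * A3') :=
      mul_le_mul_of_nonneg_right (by linarith) h2.le
    have h5 : (47 / 50 + 3 / 2 * (1 / 100)) * (v * A3') < (1 - 1 / 1000) ^ 2 * (v * A3') :=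
      mul_lt_mul_of_pos_right (by norm_num) h2
    linarith

end Vale.Agent.P146.H326.J1
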