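import Vale.Agent.P146.H326.J1

/-!
The pointwise inequalities of `J1` without any case distinction (the bad set is replaced by the
function `dfc C / (ε |C|⁴)`, hence they can be integrated as they are under any positive linear
functional), and the numbers of the one-window law.
-/

open Matrix Vale.Agent.P146.H332 Vale.Agent.P146.H522 Vale.Agent.P146.H633

namespace Vale.Agent.P146.H326.J1

set_option linter.unusedSectionVars false
set_option linter.unusedDecidableInType false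

variable {m : Type} [Fintype m] [DecidableEq m]

lemma dfc_nn [Nonempty m] {C : Matrix m m ℝ} (hC : C.PosSemidef) : 0 ≤ dfc C := by
  obtain ⟨v, l, hv, he, -, hdd⟩ := top_eig (sym_of hC)
  exact (mul_nonneg (fr_nonneg _) (fr_nonneg _)).trans hdd

/-- `tr (Y C B C) ≤ |B| tr (Y C²)` -/
theorem K3_triv {C B Y : Matrix m m ℝ} (hC : C.PosSemidef)
    (hY : Y.PosSemidef) {ob : ℝ} (hob : (ob • (1 : Matrix m m ℝ) - B).PosSemidef) :
    (Y * (C * B * C)).trace ≤ ob * (Y * (C * C)).trace := by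
  have g1 := tr_nn hY (conj_psd (X := C) hob)
  rw [sym_of hC, Matrix.mul_sub, Matrix.mul_smul, Matrix.mul_one, Matrix.sub_mul, Matrix.smul_mul,
    Matrix.mul_sub, Matrix.mul_smul, Matrix.trace_sub, Matrix.trace_smul, smul_eq_mul] at g1
  linarith

/-- **`K3_point` without a case distinction.** -/
theorem K3_all [Nonempty m] {C B Y : Matrix m m ℝ} (hC : C.PosSemidef) (hB : B.PosSemidef)
    (hY : Y.PosSemidef) {ob ε s : ℝ} (hob : (ob • (1 : Matrix m m ℝ) - B).PosSemidef)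
    (hob0 : 0 ≤ ob) (hε0 : 0 < ε) (hε1 : ε < 1) (hf : 0 < fr C) (hs : 0 < s) :
    (Y * (C * B * C)).trace ≤
      (1 + s) / (1 - ε) * ((Y * (C * C)).trace * (C * B).trace / nf C) +
      (1 + 1 / s) * ob * (√ε * nf C * (Y * C).trace) +
      ob * ((Y * (C * C)).trace * (dfc C / (ε * fr C ^ 2))) := by
  have hPt := sym_of hC
  have hCC : (C * C).PosSemidef := by
    have := conj_psd (X := C) (Matrix.PosSemidef.one (n := m) (R := ℝ))
    rwa [Matrix.mul_one, hPt] at this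
  have h1 : 0 ≤ (Y * (C * C)).trace := tr_nn hY hCC
  have h2 : 0 ≤ (C * B).trace := tr_nn hC hB
  have h3 : 0 ≤ (Y * C).trace := tr_nn hY hC
  have hnf : 0 < nf C := Real.sqrt_pos.2 hf
  have hdf : 0 ≤ dfc C := dfc_nn hC
  have h1ε : 0 < 1 - ε := by linarith
  by_cases hd : dfc C ≤ ε * fr C ^ 2
  · have h4 := K3_point hC hB hY hob hob0 hε0.le hε1 hf hd hs
    have h5 : 0 ≤ ob * ((Y * (C * C)).trace * (dfc C / (ε * fr C ^ 2))) := by positivity
    linarith
  · have h4 := K3_triv hC hY hob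
    push Not at hd
    have h5 : 1 ≤ dfc C / (ε * fr C ^ 2) := by
      rw [le_div_iff₀ (by positivity), one_mul]
      exact hd.le
    have h6 : ob * ((Y * (C * C)).trace * 1) ≤
        ob * ((Y * (C * C)).trace * (dfc C / (ε * fr C ^ 2))) :=
      mul_le_mul_of_nonneg_left (mul_le_mul_of_nonneg_left h5 h1) hob0
    have h7 : 0 ≤ (1 + s) / (1 - ε) * ((Y * (C * C)).trace * (C * B).trace / nf C) := by
      positivity
    have h8 : 0 ≤ (1 + 1 / s) * ob * (√ε * nf C * (Y * C).trace) := by positivity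
    linarith

/-- **`A3_point` without a case distinction.** -/
theorem A3_all [Nonempty m] {C Y : Matrix m m ℝ} (hC : C.PosSemidef)
    (hY : Y.PosSemidef) {ε : ℝ} (hε0 : 0 < ε) (hε1 : ε < 1) (hf : 0 < fr C) :
    (1 - ε) * nf C * (Y * (C * C)).trace ≤
      (Y * (C * C * C)).trace + √ε * nf C ^ 2 * (Y * C).trace +
      nf C * ((Y * (C * C)).trace * (dfc C / (ε * fr C ^ 2))) := by
  have hPt := sym_of hC
  have hCC : (C * C).PosSemidef := by
    have := conj_psd (X := C) (Matrix.PosSemidef.one (n := m) (R := ℝ))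
    rwa [Matrix.mul_one, hPt] at this
  have hCCC : (C * C * C).PosSemidef := by
    have := conj_psd (X := C) hC
    rwa [hPt] at this
  have h1 : 0 ≤ (Y * (C * C)).trace := tr_nn hY hCC
  have h2 : 0 ≤ (Y * (C * C * C)).trace := tr_nn hY hCCC
  have h3 : 0 ≤ (Y * C).trace := tr_nn hY hC
  have hnf : 0 < nf C := Real.sqrt_pos.2 hf
  have hdf : 0 ≤ dfc C := dfc_nn hC
  by_cases hd : dfc C ≤ ε * fr C ^ 2
  · have h4 := A3_point hC hY hε0.le hε1 hf hd
    have h5 : 0 ≤ nf C * ((Y * (C * C)).trace * (dfc C / (ε * fr C ^ 2))) := by positivity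
    linarith
  · push Not at hd
    have h5 : 1 ≤ dfc C / (ε * fr C ^ 2) := by
      rw [le_div_iff₀ (by positivity), one_mul]
      exact hd.le
    have h6 : (1 - ε) * nf C * (Y * (C * C)).trace ≤ nf C * ((Y * (C * C)).trace * 1) := by
      have : (1 - ε) * (nf C * (Y * (C * C)).trace) ≤ 1 * (nf C * (Y * (C * C)).trace) :=
        mul_le_mul_of_nonneg_right (by linarith) (by positivity)
      linarith
    have h7 : nf C * ((Y * (C * C)).trace * 1) ≤
        nf C * ((Y * (C * C)).trace * (dfc C / (ε * fr C ^ 2))) :=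
      mul_le_mul_of_nonneg_left (mul_le_mul_of_nonneg_left h5 h1) hnf.le
    have h8 : 0 ≤ √ε * nf C ^ 2 * (Y * C).trace := by positivity
    linarith

/-! ### the numbers -/

/-- **The numbers of the one-window law.**  `K = E tr(Y C B C)`, `X = E q ⟨C, B⟩`,
`q = tr (Y C²) / |C|`, `Qz = E q`, `QF = E q |C|²`, `A = E tr (Y C²)`, `A3 = E tr (Y C³)`,
`R = n r B1`, `N2κ = |B|²` in the mean of the plain law (`n² κ`). -/
theorem K_num {K X Qz QF A A3 R N2κ nρ s ε e1 e2 e3 e4 η : ℝ} (hs : 0 < s)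
    (hε1 : ε < 1) (he2 : 0 ≤ e2) (hη : η < 1) (hR : 0 ≤ R) (hn : 0 < nρ)
    (hκ : 0 ≤ N2κ) (hQq0 : 0 ≤ Qz) (hA0 : 0 ≤ A)
    (hK : K ≤ (1 + s) / (1 - ε) * X + e1 * R)
    (hX : X ^ 2 ≤ Qz * QF * N2κ + (e2 * R) ^ 2)
    (hQF : (1 - ε) * QF ≤ A3 + e3 * R) (hA3 : 0 ≤ A3 + e3 * R)
    (hQq : (1 - η) * nρ * Qz ≤ A + e4) (he4 : 0 ≤ e4) :
    K ≤ (1 + s) / (1 - ε) * (√((A + e4) * (A3 + e3 * R) * N2κ / ((1 - η) * nρ * (1 - ε))) +
      e2 * R) + e1 * R := by
  have h1ε : 0 < 1 - ε := by linarith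
  have h1η : 0 < 1 - η := by linarith
  have h1 : QF ≤ (A3 + e3 * R) / (1 - ε) := by
    rw [le_div_iff₀ h1ε]; linarith
  have h2 : Qz ≤ (A + e4) / ((1 - η) * nρ) := by
    rw [le_div_iff₀ (by positivity)]; linarith
  have h3 : Qz * QF ≤ (A + e4) / ((1 - η) * nρ) * ((A3 + e3 * R) / (1 - ε)) := by
    calc Qz * QF ≤ Qz * ((A3 + e3 * R) / (1 - ε)) := mul_le_mul_of_nonneg_left h1 hQq0
      _ ≤ _ := mul_le_mul_of_nonneg_right h2 (by positivity)
  have h4 : Qz * QF * N2κ ≤ (A + e4) * (A3 + e3 * R) * N2κ / ((1 - η) * nρ * (1 - ε)) := by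
    calc Qz * QF * N2κ ≤ (A + e4) / ((1 - η) * nρ) * ((A3 + e3 * R) / (1 - ε)) * N2κ :=
          mul_le_mul_of_nonneg_right h3 hκ
      _ = _ := by field_simp
  set T := (A + e4) * (A3 + e3 * R) * N2κ / ((1 - η) * nρ * (1 - ε)) with hT
  have hT0 : 0 ≤ T := by
    rw [hT]
    have : 0 ≤ A + e4 := by linarith
    positivity
  have h5 : X ^ 2 ≤ (√T + e2 * R) ^ 2 := by
    have h6 : √T ^ 2 = T := Real.sq_sqrt hT0
    have h7 : 0 ≤ √T := Real.sqrt_nonneg _
    have h8 : 0 ≤ 2 * √T * (e2 * R) := by positivity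
    nlinarith
  have h6 : X ≤ √T + e2 * R := by
    have h7 : 0 ≤ √T + e2 * R := by positivity
    exact (le_abs_self _).trans (abs_le_of_sq_le_sq h5 h7)
  calc K ≤ (1 + s) / (1 - ε) * X + e1 * R := hK
    _ ≤ _ := by
      have : (1 + s) / (1 - ε) * X ≤ (1 + s) / (1 - ε) * (√T + e2 * R) :=
        mul_le_mul_of_nonneg_left h6 (by positivity)
      linarith

/-- **The ratio form**: `K ≤ t² R` with `t⁴ = κ / (ρ r)` up to small errors, in the units
`R = n r B1`, `A ≤ B1`, `A3 ≤ (1 + e) R`. -/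
theorem K_ratio {K X Qz QF A A3 B1 n r ρ κ s ε e1 e2 e3 e4 e η : ℝ} (hs : 0 < s)
    (hε1 : ε < 1) (he2 : 0 ≤ e2) (hη : η < 1) (hn : 0 < n) (hr : 0 < r) (hρ : 0 < ρ)
    (hκ : 0 ≤ κ) (hB1 : 0 ≤ B1) (hQq0 : 0 ≤ Qz) (hA0 : 0 ≤ A) (hA1 : A ≤ B1) (he4 : 0 ≤ e4)
    (he3 : 0 ≤ e3) (hA30 : 0 ≤ A3) (hA3e : A3 ≤ (1 + e) * (n * r * B1))
    (hK : K ≤ (1 + s) / (1 - ε) * X + e1 * (n * r * B1))
    (hX : X ^ 2 ≤ Qz * QF * (n ^ 2 * κ) + (e2 * (n * r * B1)) ^ 2)
    (hQF : (1 - ε) * QF ≤ A3 + e3 * (n * r * B1))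
    (hQq : (1 - η) * (n * ρ) * Qz ≤ A + e4 * B1) :
    K ≤ ((1 + s) / (1 - ε) * (√((1 + e4) * (1 + e + e3) / ((1 - η) * (1 - ε))) *
      √(κ / (ρ * r)) + e2) + e1) * (n * r * B1) := by
  have h1ε : 0 < 1 - ε := by linarith
  have h1η : 0 < 1 - η := by linarith
  have h0 := K_num hs hε1 he2 hη (by positivity : 0 ≤ n * r * B1) (by positivity : 0 < n * ρ)
    (by positivity : 0 ≤ n ^ 2 * κ) hQq0 hA0 hK hX hQF (by positivity) hQq (by positivity)
  have h1 : (A + e4 * B1) * (A3 + e3 * (n * r * B1)) * (n ^ 2 * κ) /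
      ((1 - η) * (n * ρ) * (1 - ε)) ≤
      (1 + e4) * (1 + e + e3) / ((1 - η) * (1 - ε)) * (κ / (ρ * r)) * (n * r * B1) ^ 2 := by
    have g1 : A + e4 * B1 ≤ (1 + e4) * B1 := by linarith
    have g2 : A3 + e3 * (n * r * B1) ≤ (1 + e + e3) * (n * r * B1) := by linarith
    have g3 : 0 ≤ A3 + e3 * (n * r * B1) := by positivity
    have g4 : (A + e4 * B1) * (A3 + e3 * (n * r * B1)) ≤
        (1 + e4) * B1 * ((1 + e + e3) * (n * r * B1)) :=
      mul_le_mul g1 g2 g3 (by positivity)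
    calc (A + e4 * B1) * (A3 + e3 * (n * r * B1)) * (n ^ 2 * κ) /
        ((1 - η) * (n * ρ) * (1 - ε)) ≤
        (1 + e4) * B1 * ((1 + e + e3) * (n * r * B1)) * (n ^ 2 * κ) /
        ((1 - η) * (n * ρ) * (1 - ε)) := by
          refine div_le_div_of_nonneg_right ?_ (by positivity)
          exact mul_le_mul_of_nonneg_right g4 (by positivity)
      _ = _ := by field_simp
  have h2 : √((A + e4 * B1) * (A3 + e3 * (n * r * B1)) * (n ^ 2 * κ) /
      ((1 - η) * (n * ρ) * (1 - ε))) ≤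
      √((1 + e4) * (1 + e + e3) / ((1 - η) * (1 - ε))) * √(κ / (ρ * r)) * (n * r * B1) := by
    refine (Real.sqrt_le_sqrt h1).trans ?_
    rw [Real.sqrt_mul' _ (sq_nonneg _), Real.sqrt_sq (by positivity),
      Real.sqrt_mul' _ (by positivity : (0 : ℝ) ≤ κ / (ρ * r))]
  calc K ≤ _ := h0
    _ ≤ (1 + s) / (1 - ε) * (√((1 + e4) * (1 + e + e3) / ((1 - η) * (1 - ε))) *
        √(κ / (ρ * r)) * (n * r * B1) + e2 * (n * r * B1)) + e1 * (n * r * B1) := by
        have : (0 : ℝ) ≤ (1 + s) / (1 - ε) := by positivity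
        have := mul_le_mul_of_nonneg_left (add_le_add_left h2 (e2 * (n * r * B1))) this
        linarith
    _ = _ := by ring

end Vale.Agent.P146.H326.J1
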