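import Vale.Agent.P146.H326.Mom
import Vale.Agent.P146.H332.CPos
import Vale.Agent.P146.H712.Pos
import Vale.Agent.P146.H712.RowQ
import Vale.Agent.P146.H706.Two

/-!
Plan R1, block C: the columns of `AA` are odd functions of their row, and their moments over the
Gaussian row are bounded by the moments of `k² |C|²`.
-/

open MeasureTheory ProbabilityTheory

namespace Vale.Agent.P146.H326

open Vale.Agent.P157.Lv Vale.Agent.P146.H712 Vale.Agent.P146.H325 Vale.Agent.P146.H332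
  Vale.Agent.P146.R1C Vale.Agent.P146.R1

set_option linter.unusedSectionVars false

/-! ### the third moment -/

section mom3

variable {ι : Type} [Fintype ι] [DecidableEq ι] {R : Finset ι}

lemma Av_cs {f g : (ι → ℝ) → ℝ} (hf : EG f) (hg : EG g) (z : ι → ℝ) :
    Av R (fun w => f w * g w) z ^ 2 ≤ Av R (fun w => f w ^ 2) z * Av R (fun w => g w ^ 2) z := by
  have hf' := eg_sw (R := R) hf z
  have hg' := eg_sw (R := R) hg z
  have h1 := (H706.int_mul_le (P := gI ι) hf'.meas hg'.meas (hf'.pow 2).integrable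
    (hg'.pow 2).integrable).2
  have h2 : 0 ≤ ∫ w, f (sw R z w) ^ 2 ∂(gI ι) := integral_nonneg fun _ => sq_nonneg _
  have h3 : 0 ≤ ∫ w, g (sw R z w) ^ 2 ∂(gI ι) := integral_nonneg fun _ => sq_nonneg _
  have h4 := pow_le_pow_left₀ (abs_nonneg _) h1 2
  rw [sq_abs, mul_pow, Real.sq_sqrt h2, Real.sq_sqrt h3] at h4
  exact h4

/-- Chebyshev's inequality -/
lemma Av_cheb {h : (ι → ℝ) → ℝ} (hh : EG h) (h0 : ∀ z, 0 ≤ h z) (z : ι → ℝ) :
    Av R h z * Av R (fun w => h w ^ 2) z ≤ Av R (fun w => h w ^ 3) z := by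
  obtain ⟨c, hc⟩ : ∃ c, c = Av R h z := ⟨_, rfl⟩
  have hc0 : 0 ≤ c := hc ▸ Av_nonneg h0 z
  have h1 : Av R (fun w => c * h w ^ 2 + (c ^ 2 * h w + -c ^ 3)) z ≤
      Av R (fun w => h w ^ 3) z := by
    refine Av_mono (((hh.pow 2).const_mul c).add ((hh.const_mul _).add (EG.const _))) (hh.pow 3)
      (fun w => ?_) z
    have := h0 w
    nlinarith [mul_nonneg (sq_nonneg (h w - c)) (by linarith : 0 ≤ h w + c)]
  rw [Av_add ((hh.pow 2).const_mul c) ((hh.const_mul _).add (EG.const _)),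
    Av_add (hh.const_mul _) (EG.const _), Av_const_mul, Av_const_mul, Av_const, ← hc] at h1
  rw [← hc]
  linarith

variable {q : Type} [Fintype q] {U : q → (ι → ℝ) → ℝ} {U' : q → ι → (ι → ℝ) → ℝ}

lemma mom3 (hU : ∀ i, EG (U i)) (hd : ∀ i, ∀ e ∈ R, PD e (U i) (U' i e))
    (hU' : ∀ i e, EG (U' i e)) (z : ι → ℝ) (h0 : ∀ i, Av R (U i) z = 0) :
    Av R (fun w => (∑ i, U i w ^ 2) ^ 3) z ≤
      1222 * Av R (fun w => (∑ i, ∑ e ∈ R, U' i e w ^ 2) ^ 3) z := by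
  have hg : EG fun w => ∑ i, U i w ^ 2 := EG.sum _ fun i _ => (hU i).pow 2
  have hh : EG fun w => ∑ i, ∑ e ∈ R, U' i e w ^ 2 :=
    EG.sum _ fun i _ => EG.sum _ fun e _ => (hU' i e).pow 2
  have hh0 : ∀ w, 0 ≤ ∑ i, ∑ e ∈ R, U' i e w ^ 2 := fun w =>
    Finset.sum_nonneg fun i _ => Finset.sum_nonneg fun e _ => sq_nonneg _
  have hg' : ∀ e, EG fun w => ∑ i, 2 * (U i w * U' i e w) := fun e =>
    EG.sum _ fun i _ => ((hU i).mul (hU' i e)).const_mul 2
  have hF : ∀ i, EG fun w => U i w * ∑ j, U j w ^ 2 := fun i => (hU i).mul hg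
  have hp : ∀ i, ∀ e ∈ R, PD e (fun w => U i w * ∑ j, U j w ^ 2) fun w =>
      U' i e w * (∑ j, U j w ^ 2) + U i w * ∑ j, 2 * (U j w * U' j e w) := fun i e he =>
    (hd i e he).mul (pd_sq hd he)
  have hp' : ∀ i e, EG fun w =>
      U' i e w * (∑ j, U j w ^ 2) + U i w * ∑ j, 2 * (U j w * U' j e w) := fun i e =>
    ((hU' i e).mul hg).add ((hU i).mul (hg' e))
  have h1 : ∀ i, Av R (fun w => (U i w * ∑ j, U j w ^ 2) ^ 2) z ≤
      Av R (fun w => ∑ e ∈ R, (U' i e w * (∑ j, U j w ^ 2) +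
        U i w * ∑ j, 2 * (U j w * U' j e w)) ^ 2) z +
      Av R (fun w => U i w ^ 2) z * Av R (fun w => (∑ j, U j w ^ 2) ^ 2) z := by
    intro i
    have h2 := var_Av (hF i) (hp i) (fun e _ => hp' i e) z
    have h3 := Av_cs (R := R) (hU i) hg z
    linarith
  have h4 := Finset.sum_le_sum fun i (_ : i ∈ (Finset.univ : Finset q)) => h1 i
  rw [Finset.sum_add_distrib, ← Finset.sum_mul, ← Av_sum _ fun i _ => (hU i).pow 2,
    ← Av_sum _ fun i _ => (hF i).pow 2, ← Av_sum _ fun i _ => EG.sum _ fun e _ =>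
      (hp' i e).pow 2] at h4
  have e1 : (fun w => ∑ i, (U i w * ∑ j, U j w ^ 2) ^ 2) = fun w => (∑ i, U i w ^ 2) ^ 3 := by
    funext w
    simp only [mul_pow]
    rw [← Finset.sum_mul]
    ring
  rw [e1] at h4
  have h5 : Av R (fun w => ∑ i, ∑ e ∈ R, (U' i e w * (∑ j, U j w ^ 2) +
        U i w * ∑ j, 2 * (U j w * U' j e w)) ^ 2) z ≤
      Av R (fun w => 1 / 2 * (∑ i, U i w ^ 2) ^ 3 +
        593 * (∑ i, ∑ e ∈ R, U' i e w ^ 2) ^ 3) z := by
    refine Av_mono (EG.sum _ fun i _ => EG.sum _ fun e _ => (hp' i e).pow 2)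
      (((hg.pow 3).const_mul _).add ((hh.pow 3).const_mul _)) (fun w => ?_) z
    obtain ⟨g, hgg⟩ : ∃ g, g = ∑ i, U i w ^ 2 := ⟨_, rfl⟩
    obtain ⟨h, hhh⟩ : ∃ h, h = ∑ i, ∑ e ∈ R, U' i e w ^ 2 := ⟨_, rfl⟩
    have g0 : 0 ≤ g := hgg ▸ Finset.sum_nonneg fun i _ => sq_nonneg _
    have h0' : 0 ≤ h := hhh ▸ hh0 w
    have k1 := grad_sq_le (R := R) (U := U) (U' := U') w
    rw [← hgg, ← hhh] at k1
    have k2 : ∑ i, ∑ e ∈ R, (U' i e w * g + U i w * ∑ j, 2 * (U j w * U' j e w)) ^ 2 ≤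
        ∑ i, ∑ e ∈ R, (2 * g ^ 2 * U' i e w ^ 2 +
          2 * (U i w ^ 2 * (∑ j, 2 * (U j w * U' j e w)) ^ 2)) :=
      Finset.sum_le_sum fun i _ => Finset.sum_le_sum fun e _ => by
        nlinarith [sq_nonneg (U' i e w * g - U i w * ∑ j, 2 * (U j w * U' j e w))]
    have k3 : ∑ i, ∑ e ∈ R, (2 * g ^ 2 * U' i e w ^ 2 +
          2 * (U i w ^ 2 * (∑ j, 2 * (U j w * U' j e w)) ^ 2)) =
        2 * g ^ 2 * h + 2 * (g * ∑ e ∈ R, (∑ j, 2 * (U j w * U' j e w)) ^ 2) := by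
      rw [hgg, hhh]
      simp only [Finset.sum_add_distrib, ← Finset.mul_sum, ← Finset.sum_mul]
    rw [← hgg, ← hhh]
    have k4 : 2 * (g * ∑ e ∈ R, (∑ j, 2 * (U j w * U' j e w)) ^ 2) ≤ 2 * (g * (4 * (g * h))) := by
      gcongr
    have k5 : (0 : ℝ) ≤ (3 * g - 40 * h) ^ 2 * (3 * g + 20 * h) := by positivity
    have k6 : (0 : ℝ) ≤ h ^ 3 := by positivity
    nlinarith
  rw [Av_add ((hg.pow 3).const_mul _) ((hh.pow 3).const_mul _), Av_const_mul, Av_const_mul] at h5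
  have m1 := mom1 hU hd hU' z h0
  have m2 := mom2 hU hd hU' z h0
  have m3 := Av_cheb (R := R) hh hh0 z
  have n1 : 0 ≤ Av R (fun w => ∑ i, U i w ^ 2) z :=
    Av_nonneg (fun w => Finset.sum_nonneg fun i _ => sq_nonneg _) z
  have n2 : 0 ≤ Av R (fun w => (∑ i, ∑ e ∈ R, U' i e w ^ 2) ^ 2) z :=
    Av_nonneg (fun w => sq_nonneg _) z
  have m4 := mul_le_mul m1 m2 (Av_nonneg (fun w => sq_nonneg _) z) (n1.trans m1)
  nlinarith

end mom3

/-! ### the flip of a site -/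

variable {n : ℕ} {k x s : ℝ} {b : Fin n}

lemma PP_sg {G : (Pair n → ℝ) → ℝ} (hG : Measurable G) (v : Pair n → ℝ) :
    PP (cf s) G (fun e => sg b e * v e) = PP (cf s) (fun u => G fun e => sg b e * u e) v := by
  unfold PP
  have h1 : Measurable fun z : Pair n → ℝ => G fun e => sg b e * v e + cf s e * z e :=
    hG.comp (measurable_pi_lambda _ fun e => ((measurable_pi_apply e).const_mul _).const_add _)
  rw [← int_flip (sg_sq b) h1]
  refine integral_congr_ae (Filter.Eventually.of_forall fun z => ?_)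
  simp only
  congr 1
  funext e
  unfold cf
  ring

lemma AA_flip {i : Fin n} (hi : i ≠ b) (v : Pair n → ℝ) :
    AA k x s (fun e => sg b e * v e) i b = -AA k x s v i b := by
  have m1 : Measurable fun u : Pair n → ℝ => Zx k SkS x u * av k SkS (pr i b) u :=
    (eb_av (k := k) (x := x) (pr i b)).meas
  have m2 : Measurable fun u : Pair n → ℝ => Zx k SkS x u * (1 : ℝ) :=
    ((eg_Zx k SkS x).meas).mul_const 1
  unfold AA RR DD
  rw [PP_sg m1, PP_sg m2]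
  simp only [Zx_flp, av_flp b hi]
  rw [← neg_div]
  congr 1
  unfold PP
  rw [← integral_neg]
  refine integral_congr_ae (Filter.Eventually.of_forall fun z => ?_)
  simp only
  ring

variable (c : Fin 4 → ℝ)

/-- **The columns are odd in their row.** -/
lemma odd_col {i : Fin n} (hi : i ≠ b) (w : K4 (Pair n) → ℝ) :
    Av (lf (row b)) (fun w => AA k x s (H712.lp c w) i b) w = 0 := by
  have hm : Measurable fun v : K4 (Pair n) → ℝ => AA k x s (H712.lp c (sw (lf (row b)) w v)) i b :=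
    (eg_sw (R := lf (row b)) (eg_lp c (eg_AA' (k := k) (x := x) (s := s) i b)) w).meas
  have h1 := int_flip (ε := fun j : K4 (Pair n) => sg b (bs j)) (fun j => sg_sq b _) hm
  have h2 : ∀ v : K4 (Pair n) → ℝ, H712.lp c (sw (lf (row b)) w fun j => sg b (bs j) * v j) =
      fun e => if e ∈ row b then sg b e * H712.lp c (sw (lf (row b)) w v) e
        else H712.lp c (sw (lf (row b)) w v) e := by
    intro v
    funext e
    by_cases he : e ∈ row b
    · rw [if_pos he]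
      simp only [H712.lp, sw, mem_lf_bs, he, if_true, bs]
      ring
    · rw [if_neg he]
      simp only [H712.lp, sw, mem_lf_bs, he, if_false, bs]
  have h3 : ∀ v : K4 (Pair n) → ℝ, H712.lp c (sw (lf (row b)) w fun j => sg b (bs j) * v j) =
      fun e => sg b e * H712.lp c (sw (lf (row b)) w v) e := by
    intro v
    rw [h2]
    funext e
    by_cases he : e ∈ row b
    · rw [if_pos he]
    · rw [if_neg he]
      unfold sg
      rw [if_neg he, one_mul]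
  simp only [h3, AA_flip hi, integral_neg] at h1
  show ∫ v, AA k x s (H712.lp c (sw (lf (row b)) w v)) i b ∂(gI (K4 (Pair n))) = 0
  linarith

/-- the column without its diagonal entry -/
noncomputable def Uc (k x s : ℝ) (c : Fin 4 → ℝ) (b i : Fin n) (w : K4 (Pair n) → ℝ) : ℝ :=
  if i = b then 0 else AA k x s (H712.lp c w) i b

/-- its derivatives -/
noncomputable def Uc' (k x s : ℝ) (c : Fin 4 → ℝ) (b i : Fin n) (j : K4 (Pair n))
    (w : K4 (Pair n) → ℝ) : ℝ :=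
  if i = b then 0 else c (bl j) * DC k x s (bs j) (H712.lp c w) i b

lemma eg_Uc (i : Fin n) : EG (Uc k x s c b i) := by
  unfold Uc
  by_cases hi : i = b
  · simp only [hi, if_true]; exact EG.const 0
  · simp only [hi, if_false]; exact eg_lp c (eg_AA' i b)

lemma eg_Uc' (hx : 0 ≤ x) (i : Fin n) (j : K4 (Pair n)) : EG (Uc' k x s c b i j) := by
  unfold Uc'
  by_cases hi : i = b
  · simp only [hi, if_true]; exact EG.const 0
  · simp only [hi, if_false]; exact (eg_lp c (eg_DC hx (bs j) i b)).const_mul _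

lemma pd_Uc (i : Fin n) (j : K4 (Pair n)) : PD j (Uc k x s c b i) (Uc' k x s c b i j) := by
  unfold Uc Uc'
  by_cases hi : i = b
  · simp only [hi, if_true]; exact PD.const 0
  · simp only [hi, if_false]; exact pd_lp c (pd_AA (bs j) i b)

lemma Av_Uc (i : Fin n) (w : K4 (Pair n) → ℝ) : Av (lf (row b)) (Uc k x s c b i) w = 0 := by
  unfold Uc
  by_cases hi : i = b
  · simp only [hi, if_true]; exact Av_const 0 w
  · simp only [hi, if_false]; exact odd_col c hi w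

lemma vn_col_Uc (b : Fin n) (w : K4 (Pair n) → ℝ) :
    vn (H816.col (AA k x s (H712.lp c w)) b) = 1 + ∑ i, Uc k x s c b i w ^ 2 := by
  have h1 : ∀ i, AA k x s (H712.lp c w) i b ^ 2 =
      (if i = b then 1 else 0) + Uc k x s c b i w ^ 2 := by
    intro i
    unfold Uc
    by_cases hi : i = b
    · rw [if_pos hi, if_pos hi, hi, AA_self]; ring
    · rw [if_neg hi, if_neg hi]; ring
  unfold vn H816.col
  simp only [h1, Finset.sum_add_distrib, Finset.sum_ite_eq', Finset.mem_univ, if_true]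

variable (hcs : c 0 ^ 2 + c 1 ^ 2 + c 2 ^ 2 + c 3 ^ 2 = s) (hs : 0 < s) (hx : 0 ≤ x) (hx1 : x ≤ 1)
include hcs hs hx hx1

lemma sum_Uc'_le (w : K4 (Pair n) → ℝ) :
    ∑ i, ∑ j ∈ lf (row b), Uc' k x s c b i j w ^ 2 ≤
      s * (k ^ 2 * fr (AA k x s (H712.lp c w))) := by
  have h1 : ∀ i, ∑ j ∈ lf (row b), Uc' k x s c b i j w ^ 2 ≤
      s * ∑ e ∈ row b, DC k x s e (H712.lp c w) i b ^ 2 := by
    intro i
    have h2 := sum_lp_sq c (row b) fun e => DC k x s e (H712.lp c w) i b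
    rw [hcs] at h2
    rw [← h2]
    refine Finset.sum_le_sum fun j _ => ?_
    unfold Uc'
    split_ifs
    · rw [zero_pow two_ne_zero]; exact sq_nonneg _
    · exact le_rfl
  refine (Finset.sum_le_sum fun i _ => h1 i).trans ?_
  rw [← Finset.mul_sum, Finset.sum_comm]
  exact mul_le_mul_of_nonneg_left (row_grad hs hx hx1 b _) hs.le

omit hcs hs hx hx1 in
lemma eg_Y : EG fun w : K4 (Pair n) → ℝ => s * (k ^ 2 * fr (AA k x s (H712.lp c w))) := by
  unfold fr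
  exact ((EG.sum _ fun i _ => EG.sum _ fun j _ => (eg_lp c (eg_AA' i j)).pow 2).const_mul _).const_mul _

lemma cm_gen {p : ℕ} {C : ℝ} (hC : 0 ≤ C) (z : K4 (Pair n) → ℝ)
    (h : Av (lf (row b)) (fun w => (∑ i, Uc k x s c b i w ^ 2) ^ p) z ≤
      C * Av (lf (row b)) (fun w => (∑ i, ∑ j ∈ lf (row b), Uc' k x s c b i j w ^ 2) ^ p) z) :
    Av (lf (row b)) (fun w => (∑ i, Uc k x s c b i w ^ 2) ^ p) z ≤
      C * Av (lf (row b)) (fun w => (s * (k ^ 2 * fr (AA k x s (H712.lp c w)))) ^ p) z := by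
  refine h.trans (mul_le_mul_of_nonneg_left ?_ hC)
  refine Av_mono ((EG.sum _ fun i _ => EG.sum _ fun j _ => (eg_Uc' c hx i j).pow 2).pow p)
    ((eg_Y c).pow p) (fun w => ?_) z
  exact pow_le_pow_left₀ (Finset.sum_nonneg fun i _ => Finset.sum_nonneg fun j _ => sq_nonneg _)
    (sum_Uc'_le c hcs hs hx hx1 w) p

lemma cm1 (z : K4 (Pair n) → ℝ) : Av (lf (row b)) (fun w => (∑ i, Uc k x s c b i w ^ 2) ^ 1) z ≤
    1 * Av (lf (row b)) (fun w => (s * (k ^ 2 * fr (AA k x s (H712.lp c w)))) ^ 1) z := by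
  refine cm_gen c hcs hs hx hx1 zero_le_one z ?_
  simp only [pow_one, one_mul]
  exact mom1 (eg_Uc c) (fun i j _ => pd_Uc c i j) (eg_Uc' c hx) z fun i => Av_Uc c i z

lemma cm2 (z : K4 (Pair n) → ℝ) : Av (lf (row b)) (fun w => (∑ i, Uc k x s c b i w ^ 2) ^ 2) z ≤
    18 * Av (lf (row b)) (fun w => (s * (k ^ 2 * fr (AA k x s (H712.lp c w)))) ^ 2) z :=
  cm_gen c hcs hs hx hx1 (by norm_num) z
    (mom2 (eg_Uc c) (fun i j _ => pd_Uc c i j) (eg_Uc' c hx) z fun i => Av_Uc c i z)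

lemma cm3 (z : K4 (Pair n) → ℝ) : Av (lf (row b)) (fun w => (∑ i, Uc k x s c b i w ^ 2) ^ 3) z ≤
    1222 * Av (lf (row b)) (fun w => (s * (k ^ 2 * fr (AA k x s (H712.lp c w)))) ^ 3) z :=
  cm_gen c hcs hs hx hx1 (by norm_num) z
    (mom3 (eg_Uc c) (fun i j _ => pd_Uc c i j) (eg_Uc' c hx) z fun i => Av_Uc c i z)

lemma cm4 (z : K4 (Pair n) → ℝ) : Av (lf (row b)) (fun w => (∑ i, Uc k x s c b i w ^ 2) ^ 4) z ≤
    111240 * Av (lf (row b)) (fun w => (s * (k ^ 2 * fr (AA k x s (H712.lp c w)))) ^ 4) z :=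
  cm_gen c hcs hs hx hx1 (by norm_num) z
    (mom4 (eg_Uc c) (fun i j _ => pd_Uc c i j) (eg_Uc' c hx) z fun i => Av_Uc c i z)

omit hcs hs hx hx1 in
lemma int_gen {φ : (K4 (Pair n) → ℝ) → ℝ} (hφ : EG φ) (h0 : ∀ w, 0 ≤ φ w)
    (hi : Ind (lf (row b)) φ) {p : ℕ} {C : ℝ}
    (h : ∀ z, Av (lf (row b)) (fun w => (∑ i, Uc k x s c b i w ^ 2) ^ p) z ≤
      C * Av (lf (row b)) (fun w => (s * (k ^ 2 * fr (AA k x s (H712.lp c w)))) ^ p) z) :
    ∫ w, φ w * (∑ i, Uc k x s c b i w ^ 2) ^ p ∂(gI (K4 (Pair n))) ≤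
      C * ∫ w, φ w * (s * (k ^ 2 * fr (AA k x s (H712.lp c w)))) ^ p ∂(gI (K4 (Pair n))) := by
  have e1 : EG fun w => (∑ i, Uc k x s c b i w ^ 2) ^ p :=
    (EG.sum _ fun i _ => (eg_Uc c i).pow 2).pow p
  have e2 : EG fun w : K4 (Pair n) → ℝ => (s * (k ^ 2 * fr (AA k x s (H712.lp c w)))) ^ p :=
    (eg_Y c).pow p
  rw [integral_weight hφ hi e1, integral_weight hφ hi e2, ← integral_const_mul]
  refine integral_mono (hφ.mul (eg_Av _ e1)).integrable
    ((hφ.mul (eg_Av _ e2)).integrable.const_mul C) fun w => ?_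
  have := mul_le_mul_of_nonneg_left (h w) (h0 w)
  calc _ ≤ _ := this
    _ = _ := by ring

/-- **Second moments of a column.** -/
theorem col2 {φ : (K4 (Pair n) → ℝ) → ℝ} (hφ : EG φ) (h0 : ∀ w, 0 ≤ φ w)
    (hi : Ind (lf (row b)) φ) :
    ∫ w, φ w * (∑ i, Uc k x s c b i w ^ 2) ^ 1 ∂(gI (K4 (Pair n))) ≤
      1 * ∫ w, φ w * (s * (k ^ 2 * fr (AA k x s (H712.lp c w)))) ^ 1 ∂(gI (K4 (Pair n))) :=
  int_gen c hφ h0 hi (cm1 c hcs hs hx hx1)

/-- **Fourth moments of a column.** -/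
theorem col4 {φ : (K4 (Pair n) → ℝ) → ℝ} (hφ : EG φ) (h0 : ∀ w, 0 ≤ φ w)
    (hi : Ind (lf (row b)) φ) :
    ∫ w, φ w * (∑ i, Uc k x s c b i w ^ 2) ^ 2 ∂(gI (K4 (Pair n))) ≤
      18 * ∫ w, φ w * (s * (k ^ 2 * fr (AA k x s (H712.lp c w)))) ^ 2 ∂(gI (K4 (Pair n))) :=
  int_gen c hφ h0 hi (cm2 c hcs hs hx hx1)

omit hcs hs hx hx1 in
lemma full_gen {φ : (K4 (Pair n) → ℝ) → ℝ} (hφ : EG φ) (h0 : ∀ w, 0 ≤ φ w) {p : ℕ} {C a : ℝ}
    (ha : ∀ u : ℝ, 0 ≤ u → (1 + u) ^ p ≤ a * (1 + u ^ p)) (ha0 : 0 ≤ a)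
    (h : ∫ w, φ w * (∑ i, Uc k x s c b i w ^ 2) ^ p ∂(gI (K4 (Pair n))) ≤
      C * ∫ w, φ w * (s * (k ^ 2 * fr (AA k x s (H712.lp c w)))) ^ p ∂(gI (K4 (Pair n)))) :
    ∫ w, φ w * vn (H816.col (AA k x s (H712.lp c w)) b) ^ p ∂(gI (K4 (Pair n))) ≤
      a * ((∫ w, φ w ∂(gI (K4 (Pair n)))) +
        C * ∫ w, φ w * (s * (k ^ 2 * fr (AA k x s (H712.lp c w)))) ^ p ∂(gI (K4 (Pair n)))) := by
  have e1 : EG fun w => ∑ i, Uc k x s c b i w ^ 2 := EG.sum _ fun i _ => (eg_Uc c i).pow 2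
  have h1 : ∫ w, φ w * vn (H816.col (AA k x s (H712.lp c w)) b) ^ p ∂(gI (K4 (Pair n))) ≤
      ∫ w, a * (φ w + φ w * (∑ i, Uc k x s c b i w ^ 2) ^ p) ∂(gI (K4 (Pair n))) := by
    simp only [vn_col_Uc c]
    refine integral_mono (hφ.mul (((EG.const 1).add e1).pow p)).integrable
      ((hφ.add (hφ.mul (e1.pow p))).const_mul a).integrable fun w => ?_
    have h2 := ha _ (Finset.sum_nonneg fun i (_ : i ∈ Finset.univ) => sq_nonneg (Uc k x s c b i w))
    have h3 := mul_le_mul_of_nonneg_left h2 (h0 w)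
    calc _ ≤ _ := h3
      _ = _ := by ring
  rw [integral_const_mul, integral_add hφ.integrable (hφ.mul (e1.pow p)).integrable] at h1
  exact h1.trans (mul_le_mul_of_nonneg_left (add_le_add le_rfl h) ha0)

/-- **Sixth moments of a column.** -/
theorem col6 {φ : (K4 (Pair n) → ℝ) → ℝ} (hφ : EG φ) (h0 : ∀ w, 0 ≤ φ w)
    (hi : Ind (lf (row b)) φ) :
    ∫ w, φ w * vn (H816.col (AA k x s (H712.lp c w)) b) ^ 3 ∂(gI (K4 (Pair n))) ≤
      4 * ((∫ w, φ w ∂(gI (K4 (Pair n)))) +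
        1222 * ∫ w, φ w * (s * (k ^ 2 * fr (AA k x s (H712.lp c w)))) ^ 3 ∂(gI (K4 (Pair n)))) := by
  refine full_gen c hφ h0 (fun u hu => ?_) (by norm_num)
    (int_gen c hφ h0 hi (cm3 c hcs hs hx hx1))
  nlinarith [mul_nonneg hu (sq_nonneg (u - 1)), sq_nonneg (u - 1)]

/-- **Eighth moments of a column.** -/
theorem col8 {φ : (K4 (Pair n) → ℝ) → ℝ} (hφ : EG φ) (h0 : ∀ w, 0 ≤ φ w)
    (hi : Ind (lf (row b)) φ) :
    ∫ w, φ w * vn (H816.col (AA k x s (H712.lp c w)) b) ^ 4 ∂(gI (K4 (Pair n))) ≤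
      8 * ((∫ w, φ w ∂(gI (K4 (Pair n)))) +
        111240 * ∫ w, φ w * (s * (k ^ 2 * fr (AA k x s (H712.lp c w)))) ^ 4
          ∂(gI (K4 (Pair n)))) := by
  refine full_gen c hφ h0 (fun u hu => ?_) (by norm_num)
    (int_gen c hφ h0 hi (cm4 c hcs hs hx hx1))
  nlinarith [sq_nonneg (u ^ 2 - 1), sq_nonneg (u - 1), mul_nonneg hu (sq_nonneg (u - 1)),
    mul_nonneg (sq_nonneg u) (sq_nonneg (u - 1))]

end Vale.Agent.P146.H326
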