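import Vale.Agent.P146.H712.RowP

/-!
Moments of vector valued functions with respect to the Gaussian coordinates in a set `R`, at
fixed other coordinates: they are bounded by the moments of the gradient in the directions of `R`.
-/

open MeasureTheory ProbabilityTheory

namespace Vale.Agent.P146.H326

open Vale.Agent.P157.Lv Vale.Agent.P146.H712

variable {ι : Type} [Fintype ι] [DecidableEq ι] {R R' : Finset ι}

lemma Av_add {f g : (ι → ℝ) → ℝ} (hf : EG f) (hg : EG g) (z : ι → ℝ) :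
    Av R (fun z => f z + g z) z = Av R f z + Av R g z := by
  simp only [Av_eq]; exact J_add hf hg z

lemma Av_sub {f g : (ι → ℝ) → ℝ} (hf : EG f) (hg : EG g) (z : ι → ℝ) :
    Av R (fun z => f z - g z) z = Av R f z - Av R g z := by
  simp only [Av_eq]; exact J_sub hf hg z

lemma Av_const_mul (c : ℝ) (f : (ι → ℝ) → ℝ) (z : ι → ℝ) :
    Av R (fun z => c * f z) z = c * Av R f z := by
  simp only [Av_eq]; exact J_const_mul c f z

lemma Av_const (c : ℝ) (z : ι → ℝ) : Av R (fun _ => c) z = c := by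
  simp only [Av_eq]; exact J_const c z

lemma Av_sum {κ : Type*} (s : Finset κ) {f : κ → (ι → ℝ) → ℝ} (hf : ∀ i ∈ s, EG (f i))
    (z : ι → ℝ) : Av R (fun z => ∑ i ∈ s, f i z) z = ∑ i ∈ s, Av R (f i) z := by
  simp only [Av_eq]; exact J_sum s hf z

lemma Av_nonneg {f : (ι → ℝ) → ℝ} (h : ∀ z, 0 ≤ f z) (z : ι → ℝ) : 0 ≤ Av R f z :=
  integral_nonneg fun _ => h _

/-- a function of the coordinates in `R` -/
lemma eg_sw {F : (ι → ℝ) → ℝ} (hF : EG F) (z : ι → ℝ) : EG fun w => F (sw R z w) := by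
  obtain ⟨C, a, hC, ha, hb⟩ := hF.bdd
  simp only [← mix_lvR]
  refine ⟨hF.meas.comp (measurable_mix_right _ _ z), C * Real.exp (a * ‖z‖), a, by positivity, ha,
    fun w => ?_⟩
  refine (hb _).trans ?_
  rw [mul_assoc, ← Real.exp_add, ← mul_add]
  gcongr
  exact norm_mix_le z w

omit [Fintype ι] in
lemma sw_update {e : ι} (he : e ∈ R) (z w : ι → ℝ) (t : ℝ) :
    sw R z (Function.update w e t) = Function.update (sw R z w) e t := by
  funext j
  unfold sw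
  by_cases hj : j = e
  · subst hj
    rw [Function.update_self, Function.update_self, if_pos he]
  · rw [Function.update_of_ne hj, Function.update_of_ne hj]

omit [Fintype ι] in
lemma sw_sw (z w w' : ι → ℝ) : sw R z (sw R w w') = sw R z w' := by
  funext j
  unfold sw
  by_cases hj : j ∈ R <;> simp [hj]

omit [Fintype ι] in
lemma pd_sw {e : ι} (he : e ∈ R) {F F' : (ι → ℝ) → ℝ} (hd : PD e F F') (z : ι → ℝ) :
    PD e (fun w => F (sw R z w)) fun w => F' (sw R z w) := by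
  intro y x
  simp only [sw_update he]
  exact hd (sw R z y) x

/-- **The second moment**, at fixed coordinates outside of `R`. -/
theorem var_Av {F : (ι → ℝ) → ℝ} {F' : ι → (ι → ℝ) → ℝ} (hF : EG F)
    (hd : ∀ e ∈ R, PD e F (F' e)) (hF' : ∀ e ∈ R, EG (F' e)) (z : ι → ℝ) :
    Av R (fun w => F w ^ 2) z ≤ Av R (fun w => ∑ e ∈ R, F' e w ^ 2) z + Av R F z ^ 2 := by
  have h1 := row_poincare R (eg_sw (R := R) hF z) (F' := fun e w => F' e (sw R z w))
    (fun e he => pd_sw he (hd e he) z) (fun e he => eg_sw (hF' e he) z)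
  have h2 : ∀ w, Av R (fun w => F (sw R z w)) w = Av R F z := by
    intro w
    unfold Av
    simp only [sw_sw]
  simp only [h2] at h1
  obtain ⟨c, hc⟩ : ∃ c, c = Av R F z := ⟨_, rfl⟩
  rw [← hc] at h1 ⊢
  have hc' : ∫ w, F (sw R z w) ∂(gI ι) = c := hc.symm
  have i1 : Integrable (fun w => F (sw R z w)) (gI ι) := (eg_sw hF z).integrable
  have i2 : Integrable (fun w => F (sw R z w) ^ 2) (gI ι) := ((eg_sw hF z).pow 2).integrable
  have h3 : ∫ w, (F (sw R z w) - c) ^ 2 ∂(gI ι) = (∫ w, F (sw R z w) ^ 2 ∂(gI ι)) - c ^ 2 := by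
    have e : ∀ w, (F (sw R z w) - c) ^ 2 = (F (sw R z w) ^ 2 - 2 * c * F (sw R z w)) + c ^ 2 :=
      fun w => by ring
    have i3 : Integrable (fun w => F (sw R z w) ^ 2 - 2 * c * F (sw R z w)) (gI ι) :=
      i2.sub (i1.const_mul _)
    simp only [e]
    rw [integral_add i3 (integrable_const _), integral_sub i2 (i1.const_mul _),
      integral_const_mul, hc', integral_const, probReal_univ, one_smul]
    ring
  rw [h3] at h1
  have h4 : Av R (fun w => ∑ e ∈ R, F' e w ^ 2) z = ∑ e ∈ R, ∫ w, F' e (sw R z w) ^ 2 ∂(gI ι) :=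
    integral_finsetSum _ fun e he => ((eg_sw (hF' e he) z).pow 2).integrable
  rw [h4]
  show ∫ w, F (sw R z w) ^ 2 ∂(gI ι) ≤ _
  linarith

/-- nested averages -/
lemma Av_Av (hR : R' ⊆ R) {F : (ι → ℝ) → ℝ} (hF : EG F) (z : ι → ℝ) :
    Av R (Av R' F) z = Av R F z := by
  obtain ⟨lev, hlev⟩ : ∃ lev : ι → ℕ, ∀ e, lev e = if e ∈ R' then 2 else if e ∈ R then 1 else 0 :=
    ⟨_, fun _ => rfl⟩
  have h0 : ∀ G : (ι → ℝ) → ℝ, Av R G = J lev 0 G := by
    intro G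
    funext z
    unfold Av J
    congr 1
    funext w
    congr 1
    funext e
    unfold sw mix
    rw [hlev]
    by_cases h : e ∈ R
    · by_cases h' : e ∈ R' <;> simp [h, h']
    · have h' : e ∉ R' := fun h' => h (hR h')
      simp [h, h']
  have h1 : ∀ G : (ι → ℝ) → ℝ, Av R' G = J lev 1 G := by
    intro G
    funext z
    unfold Av J
    congr 1
    funext w
    congr 1
    funext e
    unfold sw mix
    rw [hlev]
    by_cases h' : e ∈ R'
    · simp [h']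
    · by_cases h : e ∈ R <;> simp [h, h']
  rw [h0, h1, h0]
  exact J_J (Nat.zero_le 1) hF z

lemma Av_pow_le {f : (ι → ℝ) → ℝ} (hf : EG f) (h0 : ∀ z, 0 ≤ f z) (p : ℕ) (z : ι → ℝ) :
    Av R f z ^ p ≤ Av R (fun z => f z ^ p) z := by
  have := (convexOn_pow (𝕜 := ℝ) p).map_integral_le (μ := gI ι) (f := fun w => f (sw R z w))
    (continuous_pow p).continuousOn isClosed_Ici (Filter.Eventually.of_forall fun w => h0 _)
    (eg_sw hf z).integrable ((eg_sw hf z).pow p).integrable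
  exact this

variable {q : Type} [Fintype q] {U : q → (ι → ℝ) → ℝ} {U' : q → ι → (ι → ℝ) → ℝ}

/-- **Averages over a part of the coordinates decrease the moments.** -/
theorem jen (hR : R' ⊆ R) (hU : ∀ i, EG (U i)) (p : ℕ) (z : ι → ℝ) :
    Av R (fun w => (∑ i, Av R' (U i) w ^ 2) ^ p) z ≤ Av R (fun w => (∑ i, U i w ^ 2) ^ p) z := by
  have hg : EG fun w => ∑ i, U i w ^ 2 := EG.sum _ fun i _ => (hU i).pow 2
  have hg0 : ∀ w, 0 ≤ ∑ i, U i w ^ 2 := fun w => Finset.sum_nonneg fun i _ => sq_nonneg _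
  have hA : EG fun w => ∑ i, Av R' (U i) w ^ 2 := EG.sum _ fun i _ => (eg_Av R' (hU i)).pow 2
  rw [← Av_Av hR (hg.pow p)]
  refine Av_mono (hA.pow p) (eg_Av R' (hg.pow p)) (fun w => ?_) z
  have h1 : ∑ i, Av R' (U i) w ^ 2 ≤ Av R' (fun w => ∑ i, U i w ^ 2) w := by
    rw [Av_sum _ fun i _ => (hU i).pow 2]
    exact Finset.sum_le_sum fun i _ => Av_sq_le (hU i) w
  exact (pow_le_pow_left₀ (Finset.sum_nonneg fun i _ => sq_nonneg _) h1 p).trans
    (Av_pow_le hg hg0 p w)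

section
variable (hU : ∀ i, EG (U i)) (hd : ∀ i, ∀ e ∈ R, PD e (U i) (U' i e)) (hU' : ∀ i e, EG (U' i e))

omit [Fintype ι] [DecidableEq ι] in
lemma grad_sq_le (w : ι → ℝ) : ∑ e ∈ R, (∑ i, 2 * (U i w * U' i e w)) ^ 2 ≤
    4 * ((∑ i, U i w ^ 2) * ∑ i, ∑ e ∈ R, U' i e w ^ 2) := by
  have h1 : ∀ e ∈ R, (∑ i, 2 * (U i w * U' i e w)) ^ 2 ≤
      4 * ((∑ i, U i w ^ 2) * ∑ i, U' i e w ^ 2) := by
    intro e _
    rw [← Finset.mul_sum, mul_pow]
    have := Finset.sum_mul_sq_le_sq_mul_sq Finset.univ (fun i => U i w) (fun i => U' i e w)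
    linarith
  refine (Finset.sum_le_sum h1).trans (le_of_eq ?_)
  rw [← Finset.mul_sum, ← Finset.mul_sum, Finset.sum_comm]

/-- the recentered field -/
lemma cen {F : (ι → ℝ) → ℝ} (hF : EG F) (z : ι → ℝ) : Av R (fun w => F w - Av R F w) z = 0 := by
  rw [Av_sub hF (eg_Av R hF), Av_ind (ind_Av R _), sub_self]

lemma pd_cen {e : ι} (he : e ∈ R) {F F' : (ι → ℝ) → ℝ} (hd : PD e F F') :
    PD e (fun w => F w - Av R F w) F' := by
  have h1 : PD e (Av R F) fun _ => 0 := by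
    refine PD.of_indep fun y t => ?_
    have := ind_Av R F y (Function.update y e t)
    rwa [sw_update he, show sw R y y = y from by funext j; unfold sw; simp] at this
  exact (hd.sub h1).congr fun w => by ring

include hU hd hU'

lemma mom1 (z : ι → ℝ) (h0 : ∀ i, Av R (U i) z = 0) :
    Av R (fun w => ∑ i, U i w ^ 2) z ≤ Av R (fun w => ∑ i, ∑ e ∈ R, U' i e w ^ 2) z := by
  rw [Av_sum _ fun i _ => (hU i).pow 2, Av_sum _ fun i _ => EG.sum _ fun e _ => (hU' i e).pow 2]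
  refine Finset.sum_le_sum fun i _ => ?_
  have := var_Av (hU i) (hd i) (fun e _ => hU' i e) z
  rw [h0 i] at this
  linarith

omit hU hU' in
lemma pd_sq {e : ι} (he : e ∈ R) :
    PD e (fun w => ∑ i, U i w ^ 2) fun w => ∑ i, 2 * (U i w * U' i e w) := by
  have h1 : PD e (fun w => ∑ i, U i w * U i w) fun w => ∑ i, (U' i e w * U i w + U i w * U' i e w) :=
    PD.sum _ fun i _ => (hd i e he).mul (hd i e he)
  have h2 : (fun w => ∑ i, U i w ^ 2) = fun w => ∑ i, U i w * U i w := by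
    funext w
    exact Finset.sum_congr rfl fun i _ => sq _
  rw [h2]
  refine h1.congr fun w => Finset.sum_congr rfl fun i _ => ?_
  ring

lemma mom2 (z : ι → ℝ) (h0 : ∀ i, Av R (U i) z = 0) :
    Av R (fun w => (∑ i, U i w ^ 2) ^ 2) z ≤
      18 * Av R (fun w => (∑ i, ∑ e ∈ R, U' i e w ^ 2) ^ 2) z := by
  have hg : EG fun w => ∑ i, U i w ^ 2 := EG.sum _ fun i _ => (hU i).pow 2
  have hh : EG fun w => ∑ i, ∑ e ∈ R, U' i e w ^ 2 :=
    EG.sum _ fun i _ => EG.sum _ fun e _ => (hU' i e).pow 2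
  have hg' : ∀ e, EG fun w => ∑ i, 2 * (U i w * U' i e w) := fun e =>
    EG.sum _ fun i _ => ((hU i).mul (hU' i e)).const_mul 2
  have h1 := var_Av hg (fun e he => pd_sq hd he) (fun e _ => hg' e) z
  have h2 := mom1 hU hd hU' z h0
  have h3 : Av R (fun w => ∑ e ∈ R, (∑ i, 2 * (U i w * U' i e w)) ^ 2) z ≤
      Av R (fun w => 1 / 2 * (∑ i, U i w ^ 2) ^ 2 + 8 * (∑ i, ∑ e ∈ R, U' i e w ^ 2) ^ 2) z := by
    refine Av_mono (EG.sum _ fun e _ => (hg' e).pow 2) (((hg.pow 2).const_mul _).add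
      ((hh.pow 2).const_mul _)) (fun w => ?_) z
    have := grad_sq_le (R := R) (U := U) (U' := U') w
    nlinarith [sq_nonneg ((∑ i, U i w ^ 2) - 4 * ∑ i, ∑ e ∈ R, U' i e w ^ 2)]
  rw [Av_add ((hg.pow 2).const_mul _) ((hh.pow 2).const_mul _), Av_const_mul, Av_const_mul] at h3
  have h4 : 0 ≤ Av R (fun w => ∑ i, U i w ^ 2) z :=
    Av_nonneg (fun w => Finset.sum_nonneg fun i _ => sq_nonneg _) z
  have h5 : Av R (fun w => ∑ i, U i w ^ 2) z ^ 2 ≤
      Av R (fun w => (∑ i, ∑ e ∈ R, U' i e w ^ 2) ^ 2) z :=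
    (pow_le_pow_left₀ h4 h2 2).trans (Av_sq_le hh z)
  linarith

lemma mom4 (z : ι → ℝ) (h0 : ∀ i, Av R (U i) z = 0) :
    Av R (fun w => (∑ i, U i w ^ 2) ^ 4) z ≤
      111240 * Av R (fun w => (∑ i, ∑ e ∈ R, U' i e w ^ 2) ^ 4) z := by
  have hg : EG fun w => ∑ i, U i w ^ 2 := EG.sum _ fun i _ => (hU i).pow 2
  have hh : EG fun w => ∑ i, ∑ e ∈ R, U' i e w ^ 2 :=
    EG.sum _ fun i _ => EG.sum _ fun e _ => (hU' i e).pow 2
  have hg' : ∀ e, EG fun w => ∑ i, 2 * (U i w * U' i e w) := fun e =>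
    EG.sum _ fun i _ => ((hU i).mul (hU' i e)).const_mul 2
  have hp : ∀ e ∈ R, PD e (fun w => (∑ i, U i w ^ 2) ^ 2) fun w =>
      2 * ((∑ i, U i w ^ 2) * ∑ i, 2 * (U i w * U' i e w)) := by
    intro e he
    have h := (pd_sq hd he).mul (pd_sq hd he)
    have e2 : (fun w => (∑ i, U i w ^ 2) ^ 2) = fun w => (∑ i, U i w ^ 2) * ∑ i, U i w ^ 2 := by
      funext w
      exact sq _
    rw [e2]
    exact h.congr fun w => by ring
  have hp' : ∀ e, EG fun w => 2 * ((∑ i, U i w ^ 2) * ∑ i, 2 * (U i w * U' i e w)) := fun e =>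
    (hg.mul (hg' e)).const_mul 2
  have h1 := var_Av (hg.pow 2) hp (fun e _ => hp' e) z
  have h2 := mom2 hU hd hU' z h0
  have h3 : Av R (fun w => ∑ e ∈ R, (2 * ((∑ i, U i w ^ 2) * ∑ i, 2 * (U i w * U' i e w))) ^ 2) z ≤
      Av R (fun w => 1 / 2 * (∑ i, U i w ^ 2) ^ 4 +
        55296 * (∑ i, ∑ e ∈ R, U' i e w ^ 2) ^ 4) z := by
    refine Av_mono (EG.sum _ fun e _ => (hp' e).pow 2) (((hg.pow 4).const_mul _).add
      ((hh.pow 4).const_mul _)) (fun w => ?_) z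
    obtain ⟨g, hgg⟩ : ∃ g, g = ∑ i, U i w ^ 2 := ⟨_, rfl⟩
    obtain ⟨h, hhh⟩ : ∃ h, h = ∑ i, ∑ e ∈ R, U' i e w ^ 2 := ⟨_, rfl⟩
    have g0 : 0 ≤ g := hgg ▸ Finset.sum_nonneg fun i _ => sq_nonneg _
    have h0' : 0 ≤ h := hhh ▸ Finset.sum_nonneg fun i _ => Finset.sum_nonneg fun e _ => sq_nonneg _
    have k1 := grad_sq_le (R := R) (U := U) (U' := U') w
    rw [← hgg, ← hhh] at k1
    have k2 : ∑ e ∈ R, (2 * ((∑ i, U i w ^ 2) * ∑ i, 2 * (U i w * U' i e w))) ^ 2 =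
        4 * g ^ 2 * ∑ e ∈ R, (∑ i, 2 * (U i w * U' i e w)) ^ 2 := by
      rw [Finset.mul_sum, ← hgg]
      exact Finset.sum_congr rfl fun e _ => by ring
    rw [k2, ← hgg, ← hhh]
    have k3 : 4 * g ^ 2 * ∑ e ∈ R, (∑ i, 2 * (U i w * U' i e w)) ^ 2 ≤
        4 * g ^ 2 * (4 * (g * h)) := mul_le_mul_of_nonneg_left k1 (by positivity)
    have k4 : 0 ≤ (g - 24 * h) ^ 2 * (g ^ 2 + 16 * (g * h) + 192 * h ^ 2) := by positivity
    nlinarith
  rw [Av_add ((hg.pow 4).const_mul _) ((hh.pow 4).const_mul _), Av_const_mul, Av_const_mul] at h3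
  have h4 : 0 ≤ Av R (fun w => (∑ i, U i w ^ 2) ^ 2) z := Av_nonneg (fun w => by positivity) z
  have h5 : Av R (fun w => (∑ i, U i w ^ 2) ^ 2) z ^ 2 ≤
      324 * Av R (fun w => (∑ i, ∑ e ∈ R, U' i e w ^ 2) ^ 4) z := by
    have h6 := pow_le_pow_left₀ h4 h2 2
    have h7 := Av_sq_le (R := R) (hh.pow 2) z
    have e3 : (fun z => ((∑ i, ∑ e ∈ R, U' i e z ^ 2) ^ 2) ^ 2) =
        fun z => (∑ i, ∑ e ∈ R, U' i e z ^ 2) ^ 4 := by
      funext w
      ring
    rw [e3] at h7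
    calc _ ≤ _ := h6
      _ = 324 * Av R (fun w => (∑ i, ∑ e ∈ R, U' i e w ^ 2) ^ 2) z ^ 2 := by ring
      _ ≤ _ := mul_le_mul_of_nonneg_left h7 (by norm_num)
  have e4 : (fun w => ((∑ i, U i w ^ 2) ^ 2) ^ 2) = fun w => (∑ i, U i w ^ 2) ^ 4 := by
    funext w
    ring
  rw [e4] at h1
  linarith

lemma momc1 (z : ι → ℝ) : Av R (fun w => ∑ i, (U i w - Av R (U i) w) ^ 2) z ≤
    Av R (fun w => ∑ i, ∑ e ∈ R, U' i e w ^ 2) z :=
  mom1 (fun i => (hU i).sub (eg_Av R (hU i))) (fun i _ he => pd_cen he (hd i _ he)) hU' z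
    fun i => cen (hU i) z

lemma momc2 (z : ι → ℝ) : Av R (fun w => (∑ i, (U i w - Av R (U i) w) ^ 2) ^ 2) z ≤
    18 * Av R (fun w => (∑ i, ∑ e ∈ R, U' i e w ^ 2) ^ 2) z :=
  mom2 (fun i => (hU i).sub (eg_Av R (hU i))) (fun i _ he => pd_cen he (hd i _ he)) hU' z
    fun i => cen (hU i) z

lemma momc4 (z : ι → ℝ) : Av R (fun w => (∑ i, (U i w - Av R (U i) w) ^ 2) ^ 4) z ≤
    111240 * Av R (fun w => (∑ i, ∑ e ∈ R, U' i e w ^ 2) ^ 4) z :=
  mom4 (fun i => (hU i).sub (eg_Av R (hU i))) (fun i _ he => pd_cen he (hd i _ he)) hU' z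
    fun i => cen (hU i) z

end

end Vale.Agent.P146.H326
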