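import Vale.Agent.P146.H326.PrI
import Vale.Agent.P146.H706.LamSum

/-!
Plan R1, block C: the fourth and eighth moments of the columns at all the positions which enter the
change of the law (`H4`, `H8` of helper706).
-/

open MeasureTheory ProbabilityTheory

namespace Vale.Agent.P146.H326

open Vale.Agent.P157.Lv Vale.Agent.P146.H712 Vale.Agent.P146.H325 Vale.Agent.P146.H332
  Vale.Agent.P146.R1C Vale.Agent.P146.R1 Vale.Agent.P146.H425 Vale.Agent.P146.H816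

set_option linter.unusedSectionVars false

variable {n : ℕ} {k x s : ℝ} {q : Par}

/-! ### the time `0` -/

lemma c_zero {c : Fin 4 → ℝ} (hcs : c 0 ^ 2 + c 1 ^ 2 + c 2 ^ 2 + c 3 ^ 2 = 0) : c = 0 := by
  have h0 := sq_nonneg (c 0)
  have h1 := sq_nonneg (c 1)
  have h2 := sq_nonneg (c 2)
  have h3 := sq_nonneg (c 3)
  have e0 : c 0 = 0 := pow_eq_zero_iff two_ne_zero |>.1 (by linarith)
  have e1 : c 1 = 0 := pow_eq_zero_iff two_ne_zero |>.1 (by linarith)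
  have e2 : c 2 = 0 := pow_eq_zero_iff two_ne_zero |>.1 (by linarith)
  have e3 : c 3 = 0 := pow_eq_zero_iff two_ne_zero |>.1 (by linarith)
  funext i
  fin_cases i
  · exact e0
  · exact e1
  · exact e2
  · exact e3

lemma lp_zero (w : K4 (Pair n) → ℝ) : H712.lp (0 : Fin 4 → ℝ) w = 0 := by
  funext e
  simp [H712.lp]

lemma Uc_zero (b i : Fin n) (w : K4 (Pair n) → ℝ) : Uc k x s (0 : Fin 4 → ℝ) b i w = 0 := by
  unfold Uc
  split_ifs with hi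
  · rfl
  · rw [lp_zero]
    have h1 := AA_flip (k := k) (x := x) (s := s) (b := b) hi 0
    have h2 : (fun e : Pair n => sg b e * (0 : Pair n → ℝ) e) = 0 := by
      funext e
      simp
    rw [h2] at h1
    linarith

variable {c : Fin 4 → ℝ} {b : Fin n}

/-- the moments of the columns, `0 ≤ s` -/
lemma col_gen0 (hcs : c 0 ^ 2 + c 1 ^ 2 + c 2 ^ 2 + c 3 ^ 2 = s) (hs : 0 ≤ s) {C : ℝ}
    {p : ℕ} (hp : p ≠ 0) {φ : (K4 (Pair n) → ℝ) → ℝ}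
    (h : 0 < s → ∫ w, φ w * (∑ i, Uc k x s c b i w ^ 2) ^ p ∂(gI (K4 (Pair n))) ≤
      C * ∫ w, φ w * (s * (k ^ 2 * fr (AA k x s (H712.lp c w)))) ^ p ∂(gI (K4 (Pair n)))) :
    ∫ w, φ w * (∑ i, Uc k x s c b i w ^ 2) ^ p ∂(gI (K4 (Pair n))) ≤
      C * ∫ w, φ w * (s * (k ^ 2 * fr (AA k x s (H712.lp c w)))) ^ p ∂(gI (K4 (Pair n))) := by
  rcases hs.eq_or_lt with h1 | h1
  · subst h1
    have hc := c_zero hcs
    subst hc
    simp only [Uc_zero, zero_mul, ne_eq, OfNat.ofNat_ne_zero, not_false_eq_true, zero_pow,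
      Finset.sum_const_zero, hp, mul_zero, integral_zero, le_refl]
  · exact h h1

/-- **Fourth moments of a full column.** -/
theorem fcol4 (hcs : c 0 ^ 2 + c 1 ^ 2 + c 2 ^ 2 + c 3 ^ 2 = s) (hs : 0 ≤ s) (hx : 0 ≤ x)
    (hx1 : x ≤ 1) {φ : (K4 (Pair n) → ℝ) → ℝ} (hφ : EG φ) (h0 : ∀ w, 0 ≤ φ w)
    (hi : Ind (lf (row b)) φ) :
    ∫ w, φ w * vn (H816.col (AA k x s (H712.lp c w)) b) ^ 2 ∂(gI (K4 (Pair n))) ≤
      2 * ((∫ w, φ w ∂(gI (K4 (Pair n)))) +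
        18 * ∫ w, φ w * (s * (k ^ 2 * fr (AA k x s (H712.lp c w)))) ^ 2 ∂(gI (K4 (Pair n)))) :=
  full_gen c hφ h0 (fun u _ => by nlinarith [sq_nonneg (u - 1)]) (by norm_num)
    (col_gen0 hcs hs two_ne_zero fun h => col4 c hcs h hx hx1 hφ h0 hi)

/-- **Eighth moments of a full column.** -/
theorem fcol8 (hcs : c 0 ^ 2 + c 1 ^ 2 + c 2 ^ 2 + c 3 ^ 2 = s) (hs : 0 ≤ s) (hx : 0 ≤ x)
    (hx1 : x ≤ 1) {φ : (K4 (Pair n) → ℝ) → ℝ} (hφ : EG φ) (h0 : ∀ w, 0 ≤ φ w)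
    (hi : Ind (lf (row b)) φ) :
    ∫ w, φ w * vn (H816.col (AA k x s (H712.lp c w)) b) ^ 4 ∂(gI (K4 (Pair n))) ≤
      8 * ((∫ w, φ w ∂(gI (K4 (Pair n)))) +
        111240 * ∫ w, φ w * (s * (k ^ 2 * fr (AA k x s (H712.lp c w)))) ^ 4
          ∂(gI (K4 (Pair n)))) := by
  refine full_gen c hφ h0 (fun u hu => ?_) (by norm_num)
    (col_gen0 hcs hs four_ne_zero fun h => int_gen c hφ h0 hi (cm4 c hcs h hx hx1))
  nlinarith [sq_nonneg (u ^ 2 - 1), sq_nonneg (u - 1), mul_nonneg hu (sq_nonneg (u - 1)),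
    mul_nonneg (sq_nonneg u) (sq_nonneg (u - 1))]

/-! ### the four positions -/

lemma k0_sum (hq : q.Ok) : k0 q 0 ^ 2 + k0 q 1 ^ 2 + k0 q 2 ^ 2 + k0 q 3 ^ 2 = q.t0 := by
  have h0 := Real.sq_sqrt hq.h0
  show (√q.t0) ^ 2 + (0 : ℝ) ^ 2 + (0 : ℝ) ^ 2 + (0 : ℝ) ^ 2 = q.t0
  rw [h0]
  ring

lemma k1_sum (hq : q.Ok) : k1 q 0 ^ 2 + k1 q 1 ^ 2 + k1 q 2 ^ 2 + k1 q 3 ^ 2 = q.t1 := by
  have h0 := Real.sq_sqrt hq.h0
  have h1 := Real.sq_sqrt (sub_nonneg.2 hq.h01)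
  show (√q.t0) ^ 2 + (√(q.t1 - q.t0)) ^ 2 + (0 : ℝ) ^ 2 + (0 : ℝ) ^ 2 = q.t1
  rw [h0, h1]
  ring

lemma P0_k0 (w : K4 (Pair n) → ℝ) : P0 q w = H712.lp (k0 q) w := p0_lp _ w

lemma P1_k1 (w : K4 (Pair n) → ℝ) : P1 q w = H712.lp (k1 q) w := p1_lp _ _ w

variable {F : (Pair n → ℝ) → ℝ} {D : Pair n → (Pair n → ℝ) → ℝ} {B L u : ℝ}

/-- the moments of the sizes of the matrices at a position, for a pair of sites -/
def Sz (k : ℝ) (q : Par) (F : (Pair n → ℝ) → ℝ) (p : ℕ) (u s : ℝ)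
    (P : (K4 (Pair n) → ℝ) → Pair n → ℝ) : Prop :=
  ∀ b b' : Fin n, b' ≠ b → ∫ w, ph q F b b' w * (s * (k ^ 2 * fr (AA k q.x s (P w)))) ^ p
    ∂(gI (K4 (Pair n))) ≤ Ew q F (fun _ => 1) * u

/-- the sizes from the law change -/
lemma sz_of {ε : ℝ} (h : C11 F D B L) (hq : q.Ok) (hl : LCh q F ε) {s : ℝ} (hs : 0 ≤ s)
    (hs1 : s ≤ 1) {P : (K4 (Pair n) → ℝ) → Pair n → ℝ}
    (hP : ∀ {f : (Pair n → ℝ) → ℝ}, EG f → EG fun w => f (P w)) (p : ℕ) :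
    Sz k q F p (2 * En q F (fun w => (s * (k ^ 2 * fr (AA k q.x s (P w)))) ^ p) +
      ε * (k ^ 2 * n ^ 2) ^ p) s P := by
  intro b b' _
  have e1 : EG fun w => s * (k ^ 2 * fr (AA k q.x s (P w))) := by
    unfold fr
    exact ((EG.sum _ fun i _ => EG.sum _ fun j _ => (hP (eg_AA' i j)).pow 2).const_mul _).const_mul _
  have e0 : ∀ w, 0 ≤ s * (k ^ 2 * fr (AA k q.x s (P w))) := fun w =>
    mul_nonneg hs (mul_nonneg (sq_nonneg _) (H325.fr_nonneg _))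
  exact ph_le h hq hl b b' (e1.pow p) (fun w => pow_nonneg (e0 w) p)
    fun w => pow_le_pow_left₀ (e0 w) (Y_le hs1 _ _) p

/-- **`H4`** from the second moments of the sizes at `(s2, P3)`, `(t1, P1)`, `(t0, P0)` -/
theorem h4_of (hq : q.Ok) (h3 : Sz k q (lz k (SkS (n := n))) 2 u q.s2 (P3 q))
    (h1 : Sz k q (lz k (SkS (n := n))) 2 u q.t1 (P1 q))
    (h0 : Sz k q (lz k (SkS (n := n))) 2 u q.t0 (P0 q)) : H4 k q n (2 * (1 + 18 * u)) := by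
  have ht0 := hq.h0
  have ht1 : 0 ≤ q.t1 := ht0.trans hq.h01
  have hs2 : 0 ≤ q.s2 := (ht1.trans hq.h1).trans hq.h12
  intro b b' hb a ha
  have hI : Ind (lf (row a)) (ph q (lz k (SkS (n := n))) b b') := by
    rcases ha with rfl | rfl
    · exact ind_ph1 _ _
    · exact ind_ph2 _ _
  have hE := eg_ph (c11_sk (k := k) (n := n)) hq b b'
  have hN := ph_nonneg (c11_sk (k := k) (n := n)) hq b b'
  have hZ := int_ph1 (c11_sk (k := k) (n := n)) hq b b'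
  have key : ∀ {s : ℝ} {c : Fin 4 → ℝ} {P : (K4 (Pair n) → ℝ) → Pair n → ℝ}, 0 ≤ s →
      c 0 ^ 2 + c 1 ^ 2 + c 2 ^ 2 + c 3 ^ 2 = s → (∀ w, P w = H712.lp c w) →
      Sz k q (lz k (SkS (n := n))) 2 u s P →
      ∫ w, ph q (lz k SkS) b b' w * vn (H816.col (AA k q.x s (P w)) a) ^ 2
        ∂(gI (K4 (Pair n))) ≤ Ew q (lz k (SkS (n := n))) (fun _ => 1) * (2 * (1 + 18 * u)) := by
    intro s c P hs hc hP hz
    have m := fcol4 (k := k) (x := q.x) (b := a) hc hs hq.x0.le hq.x1 hE hN hI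
    have hz' := hz b b' hb
    simp only [hP] at hz' ⊢
    rw [hZ] at m
    linarith
  exact ⟨key hs2 (k3_sum hq) P3_k3 h3, key ht1 (k1_sum hq) P1_k1 h1, key ht0 (k0_sum hq) P0_k0 h0⟩

/-- **`H8`** from the fourth moments of the sizes at `(s1, P2)`, `(s2, P3)` -/
theorem h8_of (hq : q.Ok) (h2 : Sz k q (lz k (SkS (n := n))) 4 u q.s1 (P2 q))
    (h3 : Sz k q (lz k (SkS (n := n))) 4 u q.s2 (P3 q)) : H8 k q n (8 * (1 + 111240 * u)) := by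
  have hs1 : 0 ≤ q.s1 := (hq.h0.trans hq.h01).trans hq.h1
  have hs2 : 0 ≤ q.s2 := hs1.trans hq.h12
  intro b b' hb a ha
  have hI : Ind (lf (row a)) (ph q (lz k (SkS (n := n))) b b') := by
    rcases ha with rfl | rfl
    · exact ind_ph1 _ _
    · exact ind_ph2 _ _
  have hE := eg_ph (c11_sk (k := k) (n := n)) hq b b'
  have hN := ph_nonneg (c11_sk (k := k) (n := n)) hq b b'
  have hZ := int_ph1 (c11_sk (k := k) (n := n)) hq b b'
  have key : ∀ {s : ℝ} {c : Fin 4 → ℝ} {P : (K4 (Pair n) → ℝ) → Pair n → ℝ}, 0 ≤ s →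
      c 0 ^ 2 + c 1 ^ 2 + c 2 ^ 2 + c 3 ^ 2 = s → (∀ w, P w = H712.lp c w) →
      Sz k q (lz k (SkS (n := n))) 4 u s P →
      ∫ w, ph q (lz k SkS) b b' w * vn (H816.col (AA k q.x s (P w)) a) ^ 4
        ∂(gI (K4 (Pair n))) ≤
          Ew q (lz k (SkS (n := n))) (fun _ => 1) * (8 * (1 + 111240 * u)) := by
    intro s c P hs hc hP hz
    have m := fcol8 (k := k) (x := q.x) (b := a) hc hs hq.x0.le hq.x1 hE hN hI
    have hz' := hz b b' hb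
    simp only [hP] at hz' ⊢
    rw [hZ] at m
    linarith
  exact ⟨key hs1 (k2_sum hq) P2_k2 h2, key hs2 (k3_sum hq) P3_k3 h3⟩

end Vale.Agent.P146.H326
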