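import Vale.Agent.P146.H326.StDef

/-!
# P146: the start of the descent, convexity

The planted partition function of the profile, with the penalty `θ ψ`, is log-concave in `θ`.
-/

open MeasureTheory ProbabilityTheory Set

namespace Vale.Agent.P146.H326.St

open Vale.Agent.P157.Lv Vale.Agent.P146.H425 Vale.Agent.P146.H605 Vale.Agent.P146.H605.Gauge

/-! ### log-sum-exp -/

section lse

variable {ι : Type*} [Fintype ι] [Nonempty ι]

lemma sum_exp_pos (u : ι → ℝ) : 0 < ∑ i, Real.exp (u i) :=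
  Finset.sum_pos (fun _ _ => Real.exp_pos _) Finset.univ_nonempty

lemma lse_le {u v : ι → ℝ} {c : ℝ} (h : ∀ i, u i ≤ v i + c) :
    Real.log (∑ i, Real.exp (u i)) ≤ Real.log (∑ i, Real.exp (v i)) + c := by
  rw [← Real.log_exp c, ← Real.log_mul (sum_exp_pos v).ne' (Real.exp_pos c).ne']
  refine Real.log_le_log (sum_exp_pos u) ?_
  rw [Finset.sum_mul]
  refine Finset.sum_le_sum fun i _ => ?_
  rw [← Real.exp_add]
  exact Real.exp_le_exp.2 (h i)

lemma le_lse (u : ι → ℝ) (i : ι) : u i ≤ Real.log (∑ i, Real.exp (u i)) := by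
  rw [Real.le_log_iff_exp_le (sum_exp_pos u)]
  exact Finset.single_le_sum (f := fun i => Real.exp (u i)) (fun _ _ => (Real.exp_pos _).le)
    (Finset.mem_univ i)

lemma lse_comb {a b : ℝ} (ha : 0 ≤ a) (hb : 0 ≤ b) (hab : a + b = 1) (u v : ι → ℝ) :
    Real.log (∑ i, Real.exp (a * u i + b * v i)) ≤
      a * Real.log (∑ i, Real.exp (u i)) + b * Real.log (∑ i, Real.exp (v i)) := by
  obtain ⟨A, hA⟩ : ∃ A, A = Real.log (∑ i, Real.exp (u i)) := ⟨_, rfl⟩
  obtain ⟨B, hB⟩ : ∃ B, B = Real.log (∑ i, Real.exp (v i)) := ⟨_, rfl⟩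
  rw [← hA, ← hB]
  have eA : Real.exp A = ∑ i, Real.exp (u i) := by rw [hA, Real.exp_log (sum_exp_pos u)]
  have eB : Real.exp B = ∑ i, Real.exp (v i) := by rw [hB, Real.exp_log (sum_exp_pos v)]
  rw [Real.log_le_iff_le_exp (sum_exp_pos _)]
  have h1 : ∀ i, Real.exp (a * u i + b * v i) ≤
      Real.exp (a * A + b * B) * (a * (Real.exp (u i) * Real.exp (-A)) +
        b * (Real.exp (v i) * Real.exp (-B))) := by
    intro i
    have h := convexOn_exp.2 (mem_univ (u i - A)) (mem_univ (v i - B)) ha hb hab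
    simp only [smul_eq_mul] at h
    have e : Real.exp (a * u i + b * v i) =
        Real.exp (a * A + b * B) * Real.exp (a * (u i - A) + b * (v i - B)) := by
      rw [← Real.exp_add]
      congr 1
      ring
    have e1 : Real.exp (u i) * Real.exp (-A) = Real.exp (u i - A) := by
      rw [← Real.exp_add, sub_eq_add_neg]
    have e2 : Real.exp (v i) * Real.exp (-B) = Real.exp (v i - B) := by
      rw [← Real.exp_add, sub_eq_add_neg]
    rw [e, e1, e2]
    exact mul_le_mul_of_nonneg_left h (Real.exp_pos _).le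
  calc ∑ i, Real.exp (a * u i + b * v i) ≤ ∑ i, Real.exp (a * A + b * B) *
        (a * (Real.exp (u i) * Real.exp (-A)) + b * (Real.exp (v i) * Real.exp (-B))) :=
        Finset.sum_le_sum fun i _ => h1 i
    _ = Real.exp (a * A + b * B) * (a * ((∑ i, Real.exp (u i)) * Real.exp (-A)) +
        b * ((∑ i, Real.exp (v i)) * Real.exp (-B))) := by
        rw [← Finset.mul_sum, Finset.sum_add_distrib, ← Finset.mul_sum, ← Finset.mul_sum,
          Finset.sum_mul, Finset.sum_mul]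
    _ = Real.exp (a * A + b * B) := by
        rw [← eA, ← eB, ← Real.exp_add, ← Real.exp_add, add_neg_cancel, add_neg_cancel,
          Real.exp_zero, mul_one, mul_one, hab, mul_one]

end lse

lemma lint_comb {Ω : Type*} [MeasurableSpace Ω] {μ : Measure Ω} {a b : ℝ} (ha : 0 ≤ a)
    (hb : 0 ≤ b) (hab : a + b = 1) {u v w : Ω → ℝ}
    (hu : Integrable (fun g => Real.exp (u g)) μ) (hv : Integrable (fun g => Real.exp (v g)) μ)
    (hw : Integrable (fun g => Real.exp (w g)) μ)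
    (pu : 0 < ∫ g, Real.exp (u g) ∂μ) (pv : 0 < ∫ g, Real.exp (v g) ∂μ)
    (pw : 0 < ∫ g, Real.exp (w g) ∂μ) (h : ∀ g, w g ≤ a * u g + b * v g) :
    Real.log (∫ g, Real.exp (w g) ∂μ) ≤
      a * Real.log (∫ g, Real.exp (u g) ∂μ) + b * Real.log (∫ g, Real.exp (v g) ∂μ) := by
  obtain ⟨A, hA⟩ : ∃ A, A = Real.log (∫ g, Real.exp (u g) ∂μ) := ⟨_, rfl⟩
  obtain ⟨B, hB⟩ : ∃ B, B = Real.log (∫ g, Real.exp (v g) ∂μ) := ⟨_, rfl⟩
  rw [← hA, ← hB]
  have eA : Real.exp A = ∫ g, Real.exp (u g) ∂μ := by rw [hA, Real.exp_log pu]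
  have eB : Real.exp B = ∫ g, Real.exp (v g) ∂μ := by rw [hB, Real.exp_log pv]
  rw [Real.log_le_iff_le_exp pw]
  have h1 : ∀ g, Real.exp (w g) ≤
      Real.exp (a * A + b * B) * (a * (Real.exp (u g) * Real.exp (-A)) +
        b * (Real.exp (v g) * Real.exp (-B))) := by
    intro g
    have h2 := convexOn_exp.2 (mem_univ (u g - A)) (mem_univ (v g - B)) ha hb hab
    simp only [smul_eq_mul] at h2
    have e : Real.exp (a * u g + b * v g) =
        Real.exp (a * A + b * B) * Real.exp (a * (u g - A) + b * (v g - B)) := by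
      rw [← Real.exp_add]
      congr 1
      ring
    refine (Real.exp_le_exp.2 (h g)).trans ?_
    have e1 : Real.exp (u g) * Real.exp (-A) = Real.exp (u g - A) := by
      rw [← Real.exp_add, sub_eq_add_neg]
    have e2 : Real.exp (v g) * Real.exp (-B) = Real.exp (v g - B) := by
      rw [← Real.exp_add, sub_eq_add_neg]
    rw [e, e1, e2]
    exact mul_le_mul_of_nonneg_left h2 (Real.exp_pos _).le
  have i1 : Integrable (fun g => a * (Real.exp (u g) * Real.exp (-A)) +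
      b * (Real.exp (v g) * Real.exp (-B))) μ :=
    ((hu.mul_const _).const_mul a).add ((hv.mul_const _).const_mul b)
  calc ∫ g, Real.exp (w g) ∂μ ≤ ∫ g, Real.exp (a * A + b * B) *
        (a * (Real.exp (u g) * Real.exp (-A)) + b * (Real.exp (v g) * Real.exp (-B))) ∂μ :=
        integral_mono hw (i1.const_mul _) h1
    _ = Real.exp (a * A + b * B) * (a * ((∫ g, Real.exp (u g) ∂μ) * Real.exp (-A)) +
        b * ((∫ g, Real.exp (v g) ∂μ) * Real.exp (-B))) := by
        rw [integral_const_mul, integral_add ((hu.mul_const _).const_mul a)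
          ((hv.mul_const _).const_mul b), integral_const_mul, integral_const_mul,
          integral_mul_const, integral_mul_const]
    _ = Real.exp (a * A + b * B) := by
        rw [← eA, ← eB, ← Real.exp_add, ← Real.exp_add, add_neg_cancel, add_neg_cancel,
          Real.exp_zero, mul_one, mul_one, hab, mul_one]

/-! ### the penalised free energy -/

variable {n : ℕ} {β : ℝ}

lemma Fp_zero : Fp n β (fun _ => 0) = freeEnergy n β := by
  funext g
  unfold Fp freeEnergy partitionFn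
  simp

lemma Fp_comb {a b : ℝ} (ha : 0 ≤ a) (hb : 0 ≤ b) (hab : a + b = 1)
    (w w' : (Fin n → ℤˣ) → ℝ) (g g' : Pair n → ℝ) :
    Fp n β (fun σ => a * w σ + b * w' σ) (a • g + b • g') ≤
      a * Fp n β w g + b * Fp n β w' g' := by
  have h := lse_comb ha hb hab (fun σ => β * hamiltonian n g σ + w σ)
    (fun σ => β * hamiltonian n g' σ + w' σ)
  unfold Fp
  refine (le_of_eq ?_).trans h
  congr 1
  refine Finset.sum_congr rfl fun σ _ => ?_
  rw [H641.hamiltonian_comb]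
  congr 1
  ring

lemma Fp_mono {w w' : (Fin n → ℤˣ) → ℝ} {c : ℝ} (h : ∀ σ, w σ ≤ w' σ + c) (g : Pair n → ℝ) :
    Fp n β w g ≤ Fp n β w' g + c := by
  unfold Fp
  exact lse_le fun σ => by linarith [h σ]

lemma abs_le_Sm (g : Pair n → ℝ) (σ : Fin n → ℤˣ) : |hamiltonian n g σ| ≤ Sm n g := by
  have hp : 0 < ∑ σ : Fin n → ℤˣ, (Real.exp (hamiltonian n g σ) +
      Real.exp (-hamiltonian n g σ)) :=
    Finset.sum_pos (fun _ _ => add_pos (Real.exp_pos _) (Real.exp_pos _)) Finset.univ_nonempty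
  unfold Sm
  rw [Real.le_log_iff_exp_le hp]
  refine le_trans ?_ (Finset.single_le_sum (f := fun σ : Fin n → ℤˣ =>
    Real.exp (hamiltonian n g σ) + Real.exp (-hamiltonian n g σ))
    (fun _ _ => (add_pos (Real.exp_pos _) (Real.exp_pos _)).le) (Finset.mem_univ σ))
  rcases abs_cases (hamiltonian n g σ) with ⟨h, _⟩ | ⟨h, _⟩ <;> rw [h]
  · linarith [Real.exp_pos (-hamiltonian n g σ)]
  · linarith [Real.exp_pos (hamiltonian n g σ)]

lemma Sm_nonneg (g : Pair n → ℝ) : 0 ≤ Sm n g := (abs_nonneg _).trans (abs_le_Sm g 1)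

lemma Fp_shift (hβ : 0 ≤ β) (w : (Fin n → ℤˣ) → ℝ) (y v : Pair n → ℝ) {c : ℝ} (hc : 0 ≤ c) :
    |Fp n β w (y + c • v) - Fp n β w y| ≤ c * β * Sm n v := by
  have h0 : ∀ σ, β * hamiltonian n (y + c • v) σ =
      β * hamiltonian n y σ + c * β * hamiltonian n v σ := by
    intro σ
    have := H641.hamiltonian_comb 1 c y v σ
    rw [one_smul] at this
    rw [this]
    ring
  have h1 : ∀ σ, |c * β * hamiltonian n v σ| ≤ c * β * Sm n v := by
    intro σ
    rw [abs_mul, abs_of_nonneg (by positivity)]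
    exact mul_le_mul_of_nonneg_left (abs_le_Sm v σ) (by positivity)
  rw [abs_le]
  unfold Fp
  constructor
  · have := lse_le (u := fun σ => β * hamiltonian n y σ + w σ)
      (v := fun σ => β * hamiltonian n (y + c • v) σ + w σ) (c := c * β * Sm n v)
      (fun σ => by rw [h0]; linarith [(abs_le.1 (h1 σ)).1])
    linarith
  · have := lse_le (v := fun σ => β * hamiltonian n y σ + w σ)
      (u := fun σ => β * hamiltonian n (y + c • v) σ + w σ) (c := c * β * Sm n v)
      (fun σ => by rw [h0]; linarith [(abs_le.1 (h1 σ)).2])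
    linarith

/-- the Lipschitz constant for the sup norm -/
noncomputable def Bn (n : ℕ) (β : ℝ) : ℝ := |β| * (1 / Real.sqrt n * Fintype.card (Pair n))

lemma Bn_nonneg : 0 ≤ Bn n β := by unfold Bn; positivity

lemma ham_norm (g : Pair n → ℝ) (σ : Fin n → ℤˣ) : |β * hamiltonian n g σ| ≤ Bn n β * ‖g‖ := by
  unfold Bn
  rw [abs_mul, mul_assoc]
  refine mul_le_mul_of_nonneg_left ((H863.ham_abs n g σ).trans ?_) (abs_nonneg β)
  rw [mul_assoc]
  refine mul_le_mul_of_nonneg_left ?_ (by positivity)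
  refine (Finset.sum_le_card_nsmul _ _ ‖g‖ fun p _ => ?_).trans (le_of_eq ?_)
  · rw [← Real.norm_eq_abs]
    exact norm_le_pi_norm g p
  · rw [nsmul_eq_mul, Finset.card_univ]

lemma ham_add (y v : Pair n → ℝ) (σ : Fin n → ℤˣ) :
    hamiltonian n (y + v) σ = hamiltonian n y σ + hamiltonian n v σ := by
  have := H641.hamiltonian_comb 1 1 y v σ
  simpa using this

lemma lipB_Fp (w : (Fin n → ℤˣ) → ℝ) : LipB (Fp n β w) (Bn n β) := by
  intro y v
  have h1 := fun σ => abs_le.1 (ham_norm (β := β) v σ)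
  rw [abs_le]
  unfold Fp
  constructor
  · have := lse_le (u := fun σ => β * hamiltonian n y σ + w σ)
      (v := fun σ => β * hamiltonian n (y + v) σ + w σ) (c := Bn n β * ‖v‖)
      (fun σ => by rw [ham_add]; linarith [(h1 σ).1])
    linarith
  · have := lse_le (v := fun σ => β * hamiltonian n y σ + w σ)
      (u := fun σ => β * hamiltonian n (y + v) σ + w σ) (c := Bn n β * ‖v‖)
      (fun σ => by rw [ham_add]; linarith [(h1 σ).2])
    linarith

lemma W_comb {a b : ℝ} (ha : 0 ≤ a) (hb : 0 ≤ b) (hab : a + b = 1) {X s : ℝ} (hX : 0 < X)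
    (w w' : (Fin n → ℤˣ) → ℝ) (g g' : Pair n → ℝ) :
    W X s (Fp n β (fun σ => a * w σ + b * w' σ)) (a • g + b • g') ≤
      a * W X s (Fp n β w) g + b * W X s (Fp n β w') g' := by
  have hB := Bn_nonneg (n := n) (β := β)
  have h := lint_comb (μ := gI (Pair n)) ha hb hab
    (u := fun z => X * Fp n β w (g + s • z)) (v := fun z => X * Fp n β w' (g' + s • z))
    (w := fun z => X * Fp n β (fun σ => a * w σ + b * w' σ) (a • g + b • g' + s • z))
    ((lipB_Fp w).int_exp hB g s X) ((lipB_Fp w').int_exp hB g' s X)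
    ((lipB_Fp _).int_exp hB _ s X) ((lipB_Fp w).pos hB g s X) ((lipB_Fp w').pos hB g' s X)
    ((lipB_Fp _).pos hB _ s X) (fun z => by
      have h2 := Fp_comb (β := β) ha hb hab w w' (g + s • z) (g' + s • z)
      have e : a • (g + s • z) + b • (g' + s • z) = a • g + b • g' + s • z := by
        have h3 : s • z = a • (s • z) + b • (s • z) := by rw [← add_smul, hab, one_smul]
        rw [smul_add, smul_add]
        nth_rw 3 [h3]
        abel
      rw [e] at h2
      nlinarith [mul_le_mul_of_nonneg_left h2 hX.le])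
  unfold W
  have hX' : 0 ≤ 1 / X := by positivity
  nlinarith [mul_le_mul_of_nonneg_left h hX']

/-! ### the exponent -/

/-- the past and the future -/
def w0 (w : Pair n ⊕ Pair n → ℝ) : Pair n → ℝ := fun e => w (Sum.inl e)
/-- the past and the future -/
def w1 (w : Pair n ⊕ Pair n → ℝ) : Pair n → ℝ := fun e => w (Sum.inr e)

/-- The position. -/
noncomputable def GG (T : ℝ) (w : Pair n ⊕ Pair n → ℝ) : Pair n → ℝ :=
  √(1 - T) • w0 w + √T • w1 w

/-- The exponent of the planted partition function. -/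
noncomputable def ph (n : ℕ) (β X T : ℝ) (ψ : (Fin n → ℤˣ) → ℝ) (θ : ℝ)
    (w : Pair n ⊕ Pair n → ℝ) : ℝ :=
  β * hamiltonian n (GG T w) 1 - (1 - X) * Fp n β (fun σ => -θ * ψ σ) (GG T w) -
    X * W X (√T) (Fp n β (fun σ => -θ * ψ σ)) (√(1 - T) • w0 w)

lemma GG_comb (T a b : ℝ) (w w' : Pair n ⊕ Pair n → ℝ) :
    GG T (a • w + b • w') = a • GG T w + b • GG T w' := by
  funext e
  simp only [GG, w0, w1, Pi.add_apply, Pi.smul_apply, smul_eq_mul]
  ring

lemma ph_concave (n : ℕ) (β : ℝ) {X : ℝ} (hX : 0 < X) (hX1 : X ≤ 1) (T : ℝ)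
    (ψ : (Fin n → ℤˣ) → ℝ) :
    ConcaveOn ℝ univ (fun p : ℝ × (Pair n ⊕ Pair n → ℝ) => ph n β X T ψ p.1 p.2) := by
  refine ⟨convex_univ, fun p _ q _ a b ha hb hab => ?_⟩
  obtain ⟨θ, w⟩ := p
  obtain ⟨θ', w'⟩ := q
  simp only [Prod.smul_mk, Prod.mk_add_mk, smul_eq_mul]
  unfold ph
  have e0 : (fun σ => -(a * θ + b * θ') * ψ σ) =
      fun σ => a * (-θ * ψ σ) + b * (-θ' * ψ σ) := by
    funext σ; ring
  have e1 : √(1 - T) • w0 (a • w + b • w') =
      a • (√(1 - T) • w0 w) + b • (√(1 - T) • w0 w') := by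
    funext e
    simp only [w0, Pi.add_apply, Pi.smul_apply, smul_eq_mul]
    ring
  rw [GG_comb, e0, e1, H641.hamiltonian_comb]
  have h1 := Fp_comb (β := β) ha hb hab (fun σ => -θ * ψ σ) (fun σ => -θ' * ψ σ)
    (GG T w) (GG T w')
  have h2 := W_comb (β := β) (s := √T) ha hb hab hX (fun σ => -θ * ψ σ) (fun σ => -θ' * ψ σ)
    (√(1 - T) • w0 w) (√(1 - T) • w0 w')
  have h3 := mul_le_mul_of_nonneg_left h1 (by linarith : (0 : ℝ) ≤ 1 - X)
  have h4 := mul_le_mul_of_nonneg_left h2 hX.le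
  linarith

lemma norm_w0 (w : Pair n ⊕ Pair n → ℝ) : ‖w0 w‖ ≤ ‖w‖ :=
  (pi_norm_le_iff_of_nonneg (norm_nonneg _)).2 fun _ => norm_le_pi_norm w _
lemma norm_w1 (w : Pair n ⊕ Pair n → ℝ) : ‖w1 w‖ ≤ ‖w‖ :=
  (pi_norm_le_iff_of_nonneg (norm_nonneg _)).2 fun _ => norm_le_pi_norm w _

lemma w0_sub (w w' : Pair n ⊕ Pair n → ℝ) : w0 w - w0 w' = w0 (w - w') := rfl

lemma norm_GG (T : ℝ) (w : Pair n ⊕ Pair n → ℝ) :
    ‖GG T w‖ ≤ (√(1 - T) + √T) * ‖w‖ := by
  unfold GG
  refine (norm_add_le _ _).trans ?_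
  rw [norm_smul, norm_smul, Real.norm_eq_abs, Real.norm_eq_abs,
    abs_of_nonneg (Real.sqrt_nonneg _), abs_of_nonneg (Real.sqrt_nonneg _), add_mul]
  exact add_le_add (mul_le_mul_of_nonneg_left (norm_w0 w) (Real.sqrt_nonneg _))
    (mul_le_mul_of_nonneg_left (norm_w1 w) (Real.sqrt_nonneg _))

lemma GG_sub (T : ℝ) (w w' : Pair n ⊕ Pair n → ℝ) : GG T w - GG T w' = GG T (w - w') := by
  funext e
  simp only [GG, w0, w1, Pi.sub_apply, Pi.add_apply, Pi.smul_apply, smul_eq_mul]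
  ring

lemma lip_GG {f : (Pair n → ℝ) → ℝ} (hf : Lip f) (T : ℝ) :
    Lip fun w : Pair n ⊕ Pair n → ℝ => f (GG T w) := by
  obtain ⟨L, hL, h⟩ := hf
  refine ⟨L * (√(1 - T) + √T), by positivity, fun w w' => (h _ _).trans ?_⟩
  rw [GG_sub, mul_assoc]
  exact mul_le_mul_of_nonneg_left (norm_GG T _) hL

lemma lip_w0 {f : (Pair n → ℝ) → ℝ} (hf : Lip f) (c : ℝ) :
    Lip fun w : Pair n ⊕ Pair n → ℝ => f (c • w0 w) := by
  obtain ⟨L, hL, h⟩ := hf
  refine ⟨L * |c|, by positivity, fun w w' => (h _ _).trans ?_⟩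
  rw [← smul_sub, norm_smul, w0_sub, Real.norm_eq_abs, mul_assoc]
  exact mul_le_mul_of_nonneg_left (mul_le_mul_of_nonneg_left (norm_w0 _) (abs_nonneg _)) hL

lemma lip_w1 {f : (Pair n → ℝ) → ℝ} (hf : Lip f) :
    Lip fun w : Pair n ⊕ Pair n → ℝ => f (w1 w) := by
  obtain ⟨L, hL, h⟩ := hf
  refine ⟨L, hL, fun w w' => (h _ _).trans ?_⟩
  exact mul_le_mul_of_nonneg_left (norm_w1 (w - w')) hL

lemma lip_ham (β : ℝ) (σ : Fin n → ℤˣ) : Lip fun g : Pair n → ℝ => β * hamiltonian n g σ := by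
  refine ⟨Bn n β, Bn_nonneg, fun y y' => ?_⟩
  have h := ham_norm (β := β) (y - y') σ
  have e : hamiltonian n y σ = hamiltonian n (y - y') σ + hamiltonian n y' σ := by
    rw [← ham_add, sub_add_cancel]
  simp only
  rw [e]
  have e2 : β * (hamiltonian n (y - y') σ + hamiltonian n y' σ) - β * hamiltonian n y' σ =
      β * hamiltonian n (y - y') σ := by ring
  rwa [e2]

lemma lip_Fp (w : (Fin n → ℤˣ) → ℝ) : Lip (Fp n β w) := (lipB_Fp w).lip Bn_nonneg

lemma lip_WF {X s : ℝ} (hX : 0 < X) (w : (Fin n → ℤˣ) → ℝ) : Lip (W X s (Fp n β w)) :=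
  ((lipB_Fp w).W Bn_nonneg hX).lip Bn_nonneg

lemma lip_ph {X : ℝ} (hX : 0 < X) (T : ℝ) (ψ : (Fin n → ℤˣ) → ℝ) (θ : ℝ) :
    Lip (ph n β X T ψ θ) := by
  have h1 := lip_GG (lip_ham (n := n) β 1) T
  have h2 := lip_GG (lip_Fp (n := n) (β := β) (fun σ => -θ * ψ σ)) T
  have h3 := lip_w0 (lip_WF (n := n) (β := β) (s := √T) hX (fun σ => -θ * ψ σ)) (√(1 - T))
  have h4 := (h1.add (h2.const_mul (-(1 - X)))).add (h3.const_mul (-X))
  unfold ph
  convert h4 using 2
  ring

lemma gr_of_lip {κ : Type} [Fintype κ] {f : (κ → ℝ) → ℝ} (hf : Lip f) : H863.PL.Gr f := by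
  obtain ⟨L, hL, h⟩ := hf
  refine ⟨f 0, L, fun g => ?_⟩
  have h1 := (abs_le.1 (h g 0)).2
  rw [sub_zero] at h1
  have h2 : ‖g‖ ≤ ∑ i, |g i| := by
    refine (pi_norm_le_iff_of_nonneg (Finset.sum_nonneg fun i _ => abs_nonneg _)).2 fun i => ?_
    rw [Real.norm_eq_abs]
    exact Finset.single_le_sum (f := fun i => |g i|) (fun _ _ => abs_nonneg _)
      (Finset.mem_univ i)
  nlinarith [mul_le_mul_of_nonneg_left h2 hL]

/-- **Log-concavity of the planted partition function in the penalty.** -/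
theorem ph_logconc (n : ℕ) (β : ℝ) {X : ℝ} (hX : 0 < X) (hX1 : X ≤ 1) (T : ℝ)
    (ψ : (Fin n → ℤˣ) → ℝ) :
    ConcaveOn ℝ univ fun θ : ℝ =>
      Real.log (∫ w, Real.exp (ph n β X T ψ θ w) ∂(gI (Pair n ⊕ Pair n))) :=
  H863.PL.gauss (fun θ w => ph n β X T ψ θ w) (ph_concave n β hX hX1 T ψ)
    (fun θ => (lip_ph hX T ψ θ).measurable) (fun θ => gr_of_lip (lip_ph hX T ψ θ))

end Vale.Agent.P146.H326.St
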