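import Vale.Agent.P146.H326.St1

/-!
# P146: the start of the descent, gauge symmetry
-/

open MeasureTheory ProbabilityTheory Set

namespace Vale.Agent.P146.H326.St

open Vale.Agent.P157.Lv Vale.Agent.P146.H425 Vale.Agent.P146.H605 Vale.Agent.P146.H605.Gauge
open Vale.Agent.P146.R1 (eg_comp eg_elim)

variable {n : ℕ} {β : ℝ}

lemma card_conf : (Finset.univ : Finset (Fin n → ℤˣ)).card = 2 ^ n := by
  rw [Finset.card_univ]
  simp [Fintype.card_units_int]

/-- the sum over the planted configuration -/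
theorem gauge_gen {Ω : Type*} [MeasurableSpace Ω] {μ : Measure Ω}
    {fl : (Fin n → ℤˣ) → Ω → Ω} (hmp : ∀ s, MeasurePreserving (fl s) μ μ)
    {f : (Fin n → ℤˣ) → Ω → ℝ} (hf : ∀ s ω, f 1 (fl s ω) = f s ω)
    (hi : ∀ σ, Integrable (f σ) μ) :
    ∫ ω, ∑ σ, f σ ω ∂μ = 2 ^ n * ∫ ω, f 1 ω ∂μ := by
  have h1 : ∀ σ, ∫ ω, f σ ω ∂μ = ∫ ω, f 1 ω ∂μ := by
    intro σ
    have hm := hmp σ
    have hmeas : AEStronglyMeasurable (f 1) (μ.map (fl σ)) := by
      rw [hm.map_eq]
      exact (hi 1).aestronglyMeasurable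
    have h := integral_map (μ := μ) hm.measurable.aemeasurable hmeas
    rw [hm.map_eq] at h
    rw [h]
    simp only [hf]
  rw [integral_finsetSum _ fun σ _ => hi σ, Finset.sum_congr rfl fun σ _ => h1 σ,
    Finset.sum_const, card_conf, nsmul_eq_mul]
  push_cast
  ring

/-- the flip of the past and the future -/
def fl2 (s : Fin n → ℤˣ) (w : Pair n ⊕ Pair n → ℝ) : Pair n ⊕ Pair n → ℝ :=
  Sum.elim (flip s (w0 w)) (flip s (w1 w))

lemma fl2_eq (s : Fin n → ℤˣ) : fl2 s = fun (w : Pair n ⊕ Pair n → ℝ) e =>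
    Sum.elim (sg s) (sg s) e * w e := by
  funext w e
  rcases e with e | e <;> rfl

lemma mp_fl2 (s : Fin n → ℤˣ) :
    MeasurePreserving (fl2 s) (gI (Pair n ⊕ Pair n)) (gI (Pair n ⊕ Pair n)) := by
  rw [fl2_eq]
  refine measurePreserving_pi _ _ fun p => ⟨measurable_const_mul _, ?_⟩
  have hsq : Sum.elim (sg s) (sg s) p * Sum.elim (sg s) (sg s) p = 1 := by
    rcases p with p | p <;> exact sg_sq s p
  rw [gaussianReal_map_const_mul, mul_zero]
  congr 1
  ext
  simp only [NNReal.coe_mk, NNReal.coe_one, mul_one]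
  rw [sq, hsq]

lemma w0_fl2 (s : Fin n → ℤˣ) (w : Pair n ⊕ Pair n → ℝ) : w0 (fl2 s w) = flip s (w0 w) := rfl
lemma w1_fl2 (s : Fin n → ℤˣ) (w : Pair n ⊕ Pair n → ℝ) : w1 (fl2 s w) = flip s (w1 w) := rfl

lemma flip_comb (s : Fin n → ℤˣ) (a b : ℝ) (g g' : Pair n → ℝ) :
    flip s (a • g + b • g') = a • flip s g + b • flip s g' := by
  funext p
  simp only [Gauge.flip, Pi.add_apply, Pi.smul_apply, smul_eq_mul]
  ring

lemma flip_smul (s : Fin n → ℤˣ) (a : ℝ) (g : Pair n → ℝ) :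
    flip s (a • g) = a • flip s g := by
  funext p
  simp only [Gauge.flip, Pi.smul_apply, smul_eq_mul]
  ring

lemma GG_fl2 (s : Fin n → ℤˣ) (T : ℝ) (w : Pair n ⊕ Pair n → ℝ) :
    GG T (fl2 s w) = flip s (GG T w) := by
  unfold GG
  rw [w0_fl2, w1_fl2, flip_comb]

lemma free_flip (s : Fin n → ℤˣ) (g : Pair n → ℝ) :
    freeEnergy n β (flip s g) = freeEnergy n β g := by
  unfold freeEnergy
  rw [partitionFn_flip]

lemma Sm_flip (s : Fin n → ℤˣ) (g : Pair n → ℝ) : Sm n (flip s g) = Sm n g := by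
  unfold Sm
  congr 1
  simp only [hamiltonian_flip]
  exact Fintype.sum_equiv (Equiv.mulLeft s) _ _ fun σ => rfl

lemma disorder_eq : disorder n = gI (Pair n) := rfl

lemma lip_F : Lip (freeEnergy n β) := by
  rw [← Fp_zero]
  exact lip_Fp _

lemma lipB_F : LipB (freeEnergy n β) (Bn n β) := by
  rw [← Fp_zero]
  exact lipB_Fp _

lemma W_flip (s : Fin n → ℤˣ) (X c : ℝ) (z : Pair n → ℝ) :
    W X c (freeEnergy n β) (flip s z) = W X c (freeEnergy n β) z := by
  have hm := measurePreserving_flip s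
  have hc : Continuous fun y : Pair n → ℝ =>
      Real.exp (X * freeEnergy n β (Gauge.flip s z + c • y)) :=
    Real.continuous_exp.comp (continuous_const.mul ((lip_F (n := n) (β := β)).continuous.comp
      (continuous_const.add (continuous_const_smul c))))
  have h := integral_map (μ := disorder n) hm.measurable.aemeasurable
    (f := fun y => Real.exp (X * freeEnergy n β (Gauge.flip s z + c • y)))
    (by rw [hm.map_eq]; exact hc.aestronglyMeasurable)
  rw [hm.map_eq] at h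
  unfold W
  rw [← disorder_eq, h]
  congr 2
  refine integral_congr_ae (Filter.Eventually.of_forall fun y => ?_)
  simp only
  rw [← flip_smul, ← free_flip s (z + c • y)]
  congr 3
  funext p
  simp only [Gauge.flip, Pi.add_apply]
  ring

lemma gibbs_eq (g : Pair n → ℝ) (σ : Fin n → ℤˣ) :
    gibbs n β g σ = Real.exp (β * hamiltonian n g σ - freeEnergy n β g) :=
  H641.gibbs_eq_exp g σ

lemma lip_gb (σ : Fin n → ℤˣ) :
    Lip fun g : Pair n → ℝ => β * hamiltonian n g σ - freeEnergy n β g := by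
  have h := (lip_ham (n := n) β σ).add ((lip_F (n := n) (β := β)).const_mul (-1))
  convert h using 2
  ring

lemma eg_gibbs (σ : Fin n → ℤˣ) : EG fun g : Pair n → ℝ => gibbs n β g σ := by
  refine EG.of_bdd (continuous_gibbs β σ).measurable (C := 1) fun g => ?_
  rw [abs_of_nonneg (gibbs_nonneg β g σ)]
  exact gibbs_le_one β g σ

lemma eg_GG {f : (Pair n → ℝ) → ℝ} (hf : EG f) (T : ℝ) :
    EG fun w : Pair n ⊕ Pair n → ℝ => f (GG T w) :=
  eg_comp hf (by unfold GG w0 w1; fun_prop) (by positivity) (norm_GG T)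

lemma eg_w0 {f : (Pair n → ℝ) → ℝ} (hf : EG f) (c : ℝ) :
    EG fun w : Pair n ⊕ Pair n → ℝ => f (c • w0 w) :=
  eg_comp (A := fun w : Pair n ⊕ Pair n → ℝ => c • w0 w) hf (by unfold w0; fun_prop)
    (abs_nonneg c) (fun w => by
      rw [norm_smul, Real.norm_eq_abs]
      exact mul_le_mul_of_nonneg_left (norm_w0 w) (abs_nonneg c))

lemma eg_w1 {f : (Pair n → ℝ) → ℝ} (hf : EG f) :
    EG fun w : Pair n ⊕ Pair n → ℝ => f (w1 w) :=
  eg_comp (A := fun w : Pair n ⊕ Pair n → ℝ => w1 w) hf (by unfold w1; fun_prop)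
    zero_le_one (fun w => by rw [one_mul]; exact norm_w1 w)

/-- functions of the position -/
lemma int_GG {f : (Pair n → ℝ) → ℝ} (hf : EG f) {T : ℝ} (h0 : 0 ≤ T) (h1 : T ≤ 1) :
    ∫ w, f (GG T w) ∂(gI (Pair n ⊕ Pair n)) = ∫ g, f g ∂(disorder n) := by
  rw [R1.int_sum (eg_GG hf T)]
  have h := gI_rot hf (a := √(1 - T)) (b := √T) (c := 1)
    (by rw [Real.sq_sqrt h0, Real.sq_sqrt (by linarith)]; ring) 0
  simp only [zero_add, one_smul] at h
  rw [disorder_eq, ← h]
  rfl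

end Vale.Agent.P146.H326.St
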