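import Vale.Agent.P146.H326.St2
import Vale.Agent.P146.R2.H952.Jen

/-!
# P146: the start of the descent, the two bounds
-/

open MeasureTheory ProbabilityTheory Set

namespace Vale.Agent.P146.H326.St

open Vale.Agent.P157.Lv Vale.Agent.P146.H425 Vale.Agent.P146.H605 Vale.Agent.P146.H605.Gauge

variable {n : ℕ} {β : ℝ}

/-! ### the supremum of the Hamiltonian -/

lemma exp_Sm (g : Pair n → ℝ) : Real.exp (Sm n g) =
    ∑ σ : Fin n → ℤˣ, (Real.exp (hamiltonian n g σ) + Real.exp (-hamiltonian n g σ)) := by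
  unfold Sm
  rw [Real.exp_log]
  exact Finset.sum_pos (fun _ _ => add_pos (Real.exp_pos _) (Real.exp_pos _))
    Finset.univ_nonempty

lemma eg_exp_ham (c : ℝ) (σ : Fin n → ℤˣ) :
    EG fun g : Pair n → ℝ => Real.exp (c * hamiltonian n g σ) := by
  have h := (lip_ham (n := n) c σ).exp_eg 1
  simpa using h

lemma eg_exp_Sm : EG fun g : Pair n → ℝ => Real.exp (Sm n g) := by
  simp_rw [exp_Sm]
  refine EG.sum _ fun σ _ => ?_
  have h1 := eg_exp_ham (n := n) 1 σ
  have h2 := eg_exp_ham (n := n) (-1) σ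
  simp only [one_mul, neg_mul] at h1 h2
  exact h1.add h2

lemma int_exp_Sm (hn : 1 ≤ n) : ∫ g, Real.exp (Sm n g) ∂(disorder n) ≤ Real.exp (2 * n) := by
  simp_rw [exp_Sm]
  have h1 : ∀ σ, EG fun g : Pair n → ℝ => Real.exp (hamiltonian n g σ) := by
    intro σ
    simpa using eg_exp_ham (n := n) 1 σ
  have h2 : ∀ σ, EG fun g : Pair n → ℝ => Real.exp (-hamiltonian n g σ) := by
    intro σ
    simpa using eg_exp_ham (n := n) (-1) σ
  have i1 : ∀ σ, Integrable (fun g : Pair n → ℝ => Real.exp (hamiltonian n g σ))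
      (disorder n) := fun σ => (h1 σ).integrable
  have i2 : ∀ σ, Integrable (fun g : Pair n → ℝ => Real.exp (-hamiltonian n g σ))
      (disorder n) := fun σ => (h2 σ).integrable
  have i3 : ∀ σ, Integrable (fun g : Pair n → ℝ => Real.exp (hamiltonian n g σ) +
      Real.exp (-hamiltonian n g σ)) (disorder n) := fun σ => (i1 σ).add (i2 σ)
  rw [integral_finsetSum _ fun σ _ => i3 σ]
  have h3 : ∀ σ, ∫ g, (Real.exp (hamiltonian n g σ) + Real.exp (-hamiltonian n g σ))
      ∂(disorder n) ≤ 2 * Real.exp (n / 4) := by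
    intro σ
    rw [integral_add (i1 σ) (i2 σ)]
    have h4 := R2.H952.int_exp_hamiltonian hn 1 σ
    have h5 := R2.H952.int_exp_hamiltonian hn (-1) σ
    simp only [one_mul, neg_mul, one_pow, neg_sq] at h4 h5
    linarith
  refine (Finset.sum_le_sum fun σ _ => h3 σ).trans ?_
  rw [Finset.sum_const, card_conf, nsmul_eq_mul]
  push_cast
  have hn1 : (1 : ℝ) ≤ n := by exact_mod_cast hn
  have h2n : (2 : ℝ) ^ n = Real.exp (n * Real.log 2) := by
    rw [Real.exp_nat_mul, Real.exp_log (by norm_num)]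
  have h22 : (2 : ℝ) = Real.exp (Real.log 2) := by rw [Real.exp_log (by norm_num)]
  have h6 : (2 : ℝ) ^ n * (2 * Real.exp (n / 4)) =
      Real.exp (n * Real.log 2 + (Real.log 2 + n / 4)) := by
    rw [Real.exp_add, Real.exp_add, ← h2n, ← h22]
  rw [h6]
  refine Real.exp_le_exp.2 ?_
  have h7 := Real.log_two_lt_d9
  nlinarith [h7, hn1]

lemma lip_Sm : Lip (Sm n) := by
  refine ⟨Bn n 1, Bn_nonneg, fun y y' => ?_⟩
  have hb : ∀ y y' : Pair n → ℝ, Sm n y ≤ Sm n y' + Bn n 1 * ‖y - y'‖ := by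
    intro y y'
    have e : ∀ y : Pair n → ℝ, Sm n y = Real.log (∑ i : (Fin n → ℤˣ) ⊕ (Fin n → ℤˣ),
        Real.exp (Sum.elim (fun σ => hamiltonian n y σ) (fun σ => -hamiltonian n y σ) i)) := by
      intro y
      unfold Sm
      rw [Fintype.sum_sum_type, ← Finset.sum_add_distrib]
      rfl
    rw [e y, e y']
    refine lse_le fun i => ?_
    have h1 : ∀ σ, hamiltonian n y σ = hamiltonian n (y - y') σ + hamiltonian n y' σ := by
      intro σ
      rw [← ham_add, sub_add_cancel]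
    have h2 := fun σ => abs_le.1 (ham_norm (β := 1) (y - y') σ)
    simp only [one_mul] at h2
    rcases i with σ | σ
    · simp only [Sum.elim_inl]
      rw [h1 σ]
      linarith [(h2 σ).2]
    · simp only [Sum.elim_inr]
      rw [h1 σ]
      linarith [(h2 σ).1]
  rw [abs_le]
  constructor
  · have := hb y' y
    rw [norm_sub_rev] at this
    linarith
  · have := hb y y'
    linarith

lemma W_le (hn : 1 ≤ n) (hβ : 0 < β) {X c : ℝ} (hX : 0 < X) (hc : 0 ≤ c)
    (hXc : X * β * c ≤ 1) (w : (Fin n → ℤˣ) → ℝ) (y : Pair n → ℝ) :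
    W X c (Fp n β w) y ≤ Fp n β w y + β * c * (2 * n) := by
  obtain ⟨a, ha⟩ : ∃ a, a = X * β * c := ⟨_, rfl⟩
  have ha0 : 0 ≤ a := by rw [ha]; positivity
  rw [← ha] at hXc
  have h1 : ∀ z : Pair n → ℝ, Real.exp (X * Fp n β w (y + c • z)) ≤
      Real.exp (X * Fp n β w y + 2 * n * a) *
        ((1 - a) + a * (Real.exp (Sm n z) * Real.exp (-(2 * n)))) := by
    intro z
    have h2 := (abs_le.1 (Fp_shift hβ.le w y z hc)).2
    have h3 : X * Fp n β w (y + c • z) ≤ X * Fp n β w y + a * Sm n z := by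
      have := mul_le_mul_of_nonneg_left h2 hX.le
      rw [ha]
      nlinarith [this]
    refine (Real.exp_le_exp.2 h3).trans ?_
    have e : X * Fp n β w y + a * Sm n z =
        (X * Fp n β w y + 2 * n * a) + ((1 - a) * 0 + a * (Sm n z - 2 * n)) := by ring
    rw [e, Real.exp_add]
    refine mul_le_mul_of_nonneg_left ?_ (Real.exp_pos _).le
    have h4 := convexOn_exp.2 (mem_univ (0 : ℝ)) (mem_univ (Sm n z - 2 * n))
      (by linarith : (0 : ℝ) ≤ 1 - a) ha0 (by ring)
    simp only [smul_eq_mul, Real.exp_zero, mul_one] at h4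
    have e2 : Real.exp (Sm n z) * Real.exp (-(2 * n)) = Real.exp (Sm n z - 2 * n) := by
      rw [← Real.exp_add, sub_eq_add_neg]
    rw [e2]
    exact h4
  have hB := Bn_nonneg (n := n) (β := β)
  have i1 := ((eg_exp_Sm (n := n)).mul (EG.const (Real.exp (-(2 * n : ℝ)))))
  have i2 : EG fun z : Pair n → ℝ => (1 - a) + a * (Real.exp (Sm n z) *
      Real.exp (-(2 * n : ℝ))) := (EG.const _).add (i1.const_mul a)
  have h5 : ∫ z, Real.exp (X * Fp n β w (y + c • z)) ∂(gI (Pair n)) ≤
      Real.exp (X * Fp n β w y + 2 * n * a) := by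
    calc _ ≤ ∫ z, Real.exp (X * Fp n β w y + 2 * n * a) *
          ((1 - a) + a * (Real.exp (Sm n z) * Real.exp (-(2 * n)))) ∂(gI (Pair n)) :=
          integral_mono ((lipB_Fp w).int_exp hB y c X) (i2.const_mul _).integrable h1
      _ = Real.exp (X * Fp n β w y + 2 * n * a) * ((1 - a) + a *
          ((∫ z, Real.exp (Sm n z) ∂(gI (Pair n))) * Real.exp (-(2 * n)))) := by
          rw [integral_const_mul, integral_add (integrable_const _)
            (i1.const_mul a).integrable, integral_const_mul, integral_mul_const]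
          simp
      _ ≤ Real.exp (X * Fp n β w y + 2 * n * a) * ((1 - a) + a * 1) := by
          refine mul_le_mul_of_nonneg_left ?_ (Real.exp_pos _).le
          have h6 := int_exp_Sm hn
          rw [disorder_eq] at h6
          have h7 : (∫ z, Real.exp (Sm n z) ∂(gI (Pair n))) * Real.exp (-(2 * n)) ≤ 1 := by
            calc _ ≤ Real.exp (2 * n) * Real.exp (-(2 * n)) :=
                  mul_le_mul_of_nonneg_right h6 (Real.exp_pos _).le
              _ = 1 := by rw [← Real.exp_add, add_neg_cancel, Real.exp_zero]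
          have := mul_le_mul_of_nonneg_left h7 ha0
          linarith
      _ = _ := by ring
  have h8 := Real.log_le_log ((lipB_Fp w).pos hB y c X) h5
  rw [Real.log_exp] at h8
  unfold W
  have hX' : 0 < 1 / X := by positivity
  have h9 := mul_le_mul_of_nonneg_left h8 hX'.le
  refine h9.trans (le_of_eq ?_)
  rw [ha]
  field_simp

/-- **The lower bound for the exponent.** -/
lemma ph_ge (hn : 1 ≤ n) (hβ : 0 < β) {X T : ℝ} (hX : 0 < X)
    (hXT : X * β * √T ≤ 1) (ψ : (Fin n → ℤˣ) → ℝ) (θ : ℝ) (w : Pair n ⊕ Pair n → ℝ) :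
    β * hamiltonian n (GG T w) 1 - Fp n β (fun σ => -θ * ψ σ) (GG T w) -
      X * β * √T * (Sm n (w1 w) + 2 * n) ≤ ph n β X T ψ θ w := by
  have h1 := W_le hn hβ hX (Real.sqrt_nonneg T) hXT (fun σ => -θ * ψ σ) (√(1 - T) • w0 w)
  have h2 := (abs_le.1 (Fp_shift hβ.le (fun σ => -θ * ψ σ) (√(1 - T) • w0 w) (w1 w)
    (Real.sqrt_nonneg T))).1
  have e : √(1 - T) • w0 w + √T • w1 w = GG T w := rfl
  rw [e] at h2
  unfold ph
  nlinarith [mul_le_mul_of_nonneg_left h1 hX.le, mul_le_mul_of_nonneg_left h2 hX.le]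

end Vale.Agent.P146.H326.St
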