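import Vale.Agent.P146.H326.St3

/-!
# P146: the start of the descent, the core inequality
-/

open MeasureTheory ProbabilityTheory Set

namespace Vale.Agent.P146.H326.St

open Vale.Agent.P157.Lv Vale.Agent.P146.H425 Vale.Agent.P146.H605 Vale.Agent.P146.H605.Gauge

variable {n : ℕ} {β : ℝ}

/-- the indicator of `|R(σ,1)| > ε` -/
noncomputable def ps (n : ℕ) (ε : ℝ) (σ : Fin n → ℤˣ) : ℝ :=
  if ε < |overlap n σ 1| then 1 else 0

lemma ps_nonneg (ε : ℝ) (σ : Fin n → ℤˣ) : 0 ≤ ps n ε σ := by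
  unfold ps; split_ifs <;> norm_num

lemma ps_le (ε : ℝ) (σ : Fin n → ℤˣ) : ps n ε σ ≤ 1 := by
  unfold ps; split_ifs <;> norm_num

lemma ov_mul (σ τ : Fin n → ℤˣ) : overlap n (σ * τ) 1 = overlap n σ τ := by
  unfold overlap
  congr 1
  refine Finset.sum_congr rfl fun i _ => ?_
  simp

lemma ov_mul' (s σ τ : Fin n → ℤˣ) : overlap n (s * σ) (s * τ) = overlap n σ τ := by
  rw [← ov_mul, ← ov_mul σ τ]
  congr 1
  have h : s * s = 1 := by
    funext i
    rcases Int.units_eq_one_or (s i) with h | h <;> simp [h]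
  calc s * σ * (s * τ) = (s * s) * (σ * τ) := mul_mul_mul_comm s σ s τ
    _ = σ * τ := by rw [h, one_mul]

lemma Fp_zero' (ψ : (Fin n → ℤˣ) → ℝ) : Fp n β (fun σ => -0 * ψ σ) = freeEnergy n β := by
  rw [← Fp_zero]
  congr 1
  funext σ
  ring

/-! ### the value at `θ = 0` -/

/-- the log-density of the profile -/
noncomputable def dl (n : ℕ) (β X T : ℝ) (w : Pair n ⊕ Pair n → ℝ) : ℝ :=
  X * freeEnergy n β (GG T w) - X * W X (√T) (freeEnergy n β) (√(1 - T) • w0 w)

lemma lip_dl {X : ℝ} (hX : 0 < X) (T : ℝ) : Lip (dl n β X T) := by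
  have h2 := (lip_GG (lip_F (n := n) (β := β)) T).const_mul X
  have hW : Lip (W X (√T) (freeEnergy n β)) := (lipB_F.W Bn_nonneg hX).lip Bn_nonneg
  have h3 := (lip_w0 hW (√(1 - T))).const_mul (-X)
  have h4 := h2.add h3
  unfold dl
  convert h4 using 2
  ring

lemma ph_zero (X T : ℝ) (ψ : (Fin n → ℤˣ) → ℝ) (w : Pair n ⊕ Pair n → ℝ) :
    Real.exp (ph n β X T ψ 0 w) = gibbs n β (GG T w) 1 * Real.exp (dl n β X T w) := by
  unfold ph dl
  rw [Fp_zero', gibbs_eq, ← Real.exp_add]
  congr 1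
  ring

lemma eg_edl {X : ℝ} (hX : 0 < X) (T : ℝ) :
    EG fun w : Pair n ⊕ Pair n → ℝ => Real.exp (dl n β X T w) := by
  have := (lip_dl (n := n) (β := β) hX T).exp_eg 1
  simpa using this

lemma dl_fl2 (X T : ℝ) (s : Fin n → ℤˣ) (w : Pair n ⊕ Pair n → ℝ) :
    dl n β X T (fl2 s w) = dl n β X T w := by
  unfold dl
  rw [GG_fl2, free_flip, w0_fl2, ← flip_smul, W_flip]

/-- integration of a function of the past against the density of the profile -/
lemma int_dl {X : ℝ} (hX : 0 < X) (T : ℝ) {f : (Pair n → ℝ) → ℝ} {m : (Pair n → ℝ) → ℝ}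
    (hf : EG f) (hm : EG m) :
    ∫ w, f (GG T w) * Real.exp (dl n β X T w) * m (w0 w) ∂(gI (Pair n ⊕ Pair n)) =
      ∫ z, (∫ g, Real.exp (X * freeEnergy n β (√(1 - T) • z + √T • g)) *
        f (√(1 - T) • z + √T • g) ∂(disorder n)) /
        (∫ g, Real.exp (X * freeEnergy n β (√(1 - T) • z + √T • g)) ∂(disorder n)) * m z
        ∂(disorder n) := by
  have hmw : EG fun w : Pair n ⊕ Pair n → ℝ => m (w0 w) := by
    have := eg_w0 hm 1
    simpa using this
  rw [R1.int_sum (((eg_GG hf T).mul (eg_edl hX T)).mul hmw)]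
  rw [← disorder_eq]
  refine integral_congr_ae (Filter.Eventually.of_forall fun z => ?_)
  simp only
  have e0 : ∀ g : Pair n → ℝ, GG T (Sum.elim z g) = √(1 - T) • z + √T • g := fun g => rfl
  have e1 : ∀ g : Pair n → ℝ, w0 (Sum.elim z g) = z := fun g => rfl
  have e2 : ∀ g : Pair n → ℝ, f (GG T (Sum.elim z g)) * Real.exp (dl n β X T (Sum.elim z g)) *
      m (w0 (Sum.elim z g)) = Real.exp (X * freeEnergy n β (√(1 - T) • z + √T • g)) *
        f (√(1 - T) • z + √T • g) *
        (Real.exp (-(X * W X (√T) (freeEnergy n β) (√(1 - T) • z))) * m z) := by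
    intro g
    unfold dl
    rw [e0, e1, Real.exp_sub, Real.exp_neg]
    ring
  simp_rw [e2]
  rw [integral_mul_const]
  have h1 := (lipB_F (n := n) (β := β)).exp_W (s := √T) Bn_nonneg hX (√(1 - T) • z)
  rw [Real.exp_neg, h1, ← disorder_eq]
  ring

lemma den_pos (X T : ℝ) (z : Pair n → ℝ) :
    0 < ∫ g, Real.exp (X * freeEnergy n β (√(1 - T) • z + √T • g)) ∂(disorder n) := by
  have := (lipB_F (n := n) (β := β)).pos Bn_nonneg (√(1 - T) • z) (√T) X
  rwa [← disorder_eq] at this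

lemma int_edl {X : ℝ} (hX : 0 < X) (T : ℝ) :
    ∫ w, Real.exp (dl n β X T w) ∂(gI (Pair n ⊕ Pair n)) = 1 := by
  have h := int_dl (n := n) (β := β) hX T (EG.const 1) (EG.const 1)
  simp only [one_mul, mul_one] at h
  rw [h]
  have : ∀ z : Pair n → ℝ, (∫ g, Real.exp (X * freeEnergy n β (√(1 - T) • z + √T • g))
      ∂(disorder n)) / (∫ g, Real.exp (X * freeEnergy n β (√(1 - T) • z + √T • g))
      ∂(disorder n)) = 1 := fun z => div_self (den_pos X T z).ne'
  simp_rw [this]
  simp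

lemma eg_gGG (T : ℝ) (σ : Fin n → ℤˣ) :
    EG fun w : Pair n ⊕ Pair n → ℝ => gibbs n β (GG T w) σ := eg_GG (eg_gibbs σ) T

/-- `2^n J(0) = 1` -/
lemma J_zero {X : ℝ} (hX : 0 < X) (T : ℝ) (ψ : (Fin n → ℤˣ) → ℝ) :
    2 ^ n * ∫ w, Real.exp (ph n β X T ψ 0 w) ∂(gI (Pair n ⊕ Pair n)) = 1 := by
  have h := gauge_gen (μ := gI (Pair n ⊕ Pair n)) (fl := fl2) mp_fl2
    (f := fun σ w => gibbs n β (GG T w) σ * Real.exp (dl n β X T w))
    (fun s w => by
      simp only [GG_fl2, dl_fl2]
      rw [gibbs_flip, mul_one])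
    (fun σ => ((eg_gGG T σ).mul (eg_edl hX T)).integrable)
  simp_rw [ph_zero]
  rw [← h, ← int_edl (n := n) (β := β) hX T]
  refine integral_congr_ae (Filter.Eventually.of_forall fun w => ?_)
  simp only
  rw [← Finset.sum_mul, sum_gibbs, one_mul]

/-! ### the cross overlap -/

lemma pz_flip (X T : ℝ) (s σ : Fin n → ℤˣ) (z : Pair n → ℝ) :
    pz n β X T (Gauge.flip s z) σ = pz n β X T z (s * σ) := by
  have hm := measurePreserving_flip s
  have e : ∀ g : Pair n → ℝ, √(1 - T) • Gauge.flip s z + √T • Gauge.flip s g =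
      Gauge.flip s (√(1 - T) • z + √T • g) := fun g => (flip_comb s _ _ _ _).symm
  have hc : Continuous fun g : Pair n → ℝ => √(1 - T) • Gauge.flip s z + √T • g :=
    continuous_const.add (continuous_const_smul _)
  have hc1 : Continuous fun g : Pair n → ℝ =>
      Real.exp (X * freeEnergy n β (√(1 - T) • Gauge.flip s z + √T • g)) :=
    Real.continuous_exp.comp (continuous_const.mul ((lip_F (n := n) (β := β)).continuous.comp
      hc))
  have hc2 : Continuous fun g : Pair n → ℝ =>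
      Real.exp (X * freeEnergy n β (√(1 - T) • Gauge.flip s z + √T • g)) *
        gibbs n β (√(1 - T) • Gauge.flip s z + √T • g) σ :=
    hc1.mul ((continuous_gibbs β σ).comp hc)
  have h1 := integral_map (μ := disorder n) hm.measurable.aemeasurable
    (f := fun g => Real.exp (X * freeEnergy n β (√(1 - T) • Gauge.flip s z + √T • g)))
    (by rw [hm.map_eq]; exact hc1.aestronglyMeasurable)
  have h2 := integral_map (μ := disorder n) hm.measurable.aemeasurable
    (f := fun g => Real.exp (X * freeEnergy n β (√(1 - T) • Gauge.flip s z + √T • g)) *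
        gibbs n β (√(1 - T) • Gauge.flip s z + √T • g) σ)
    (by rw [hm.map_eq]; exact hc2.aestronglyMeasurable)
  rw [hm.map_eq] at h1 h2
  unfold pz
  rw [h1, h2]
  simp_rw [e, free_flip, gibbs_flip]

lemma pz_nonneg (X T : ℝ) (z : Pair n → ℝ) (σ : Fin n → ℤˣ) : 0 ≤ pz n β X T z σ :=
  div_nonneg (integral_nonneg fun g => mul_nonneg (Real.exp_pos _).le (gibbs_nonneg β _ σ))
    (den_pos X T z).le

lemma eg_num (X T : ℝ) {f : (Pair n → ℝ) → ℝ} (hf : EG f) : EG fun z : Pair n → ℝ =>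
    ∫ g, Real.exp (X * freeEnergy n β (√(1 - T) • z + √T • g)) *
      f (√(1 - T) • z + √T • g) ∂(disorder n) := by
  have h1 : EG fun g : Pair n → ℝ => Real.exp (X * freeEnergy n β g) * f g :=
    (lip_F.exp_eg X).mul hf
  exact EG.smul' (EG.conv h1 (√T)) (√(1 - T))

lemma pz_le_one (X T : ℝ) (z : Pair n → ℝ) (σ : Fin n → ℤˣ) : pz n β X T z σ ≤ 1 := by
  unfold pz
  rw [div_le_one (den_pos X T z)]
  have h1 : EG fun g : Pair n → ℝ => Real.exp (X * freeEnergy n β (√(1 - T) • z + √T • g)) :=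
    (lipB_F (n := n) (β := β)).eg_exp Bn_nonneg _ _ _
  have h2 : EG fun g : Pair n → ℝ => Real.exp (X * freeEnergy n β (√(1 - T) • z + √T • g)) *
      gibbs n β (√(1 - T) • z + √T • g) σ :=
    h1.mul (EG.add_smul (eg_gibbs σ) _ _)
  refine integral_mono h2.integrable h1.integrable fun g => ?_
  simp only
  exact mul_le_of_le_one_right (Real.exp_pos _).le (gibbs_le_one β _ σ)

lemma meas_pz (X T : ℝ) (σ : Fin n → ℤˣ) : Measurable fun z : Pair n → ℝ => pz n β X T z σ := by
  have h1 := (eg_num (n := n) (β := β) X T (eg_gibbs (β := β) σ)).meas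
  have h2 := (eg_num (n := n) (β := β) X T (EG.const 1)).meas
  simp only [mul_one] at h2
  exact h1.div h2

lemma eg_pz (X T : ℝ) (σ : Fin n → ℤˣ) : EG fun z : Pair n → ℝ => pz n β X T z σ :=
  EG.of_bdd (meas_pz X T σ) (C := 1) fun z => by
    rw [abs_of_nonneg (pz_nonneg X T z σ)]
    exact pz_le_one X T z σ

/-- the mean of the indicator given the past -/
noncomputable def mz (n : ℕ) (β X T ε : ℝ) (z : Pair n → ℝ) : ℝ :=
  ∑ τ : Fin n → ℤˣ, ps n ε τ * pz n β X T z τ

lemma eg_mz (X T ε : ℝ) : EG (mz n β X T ε) :=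
  EG.sum _ fun τ _ => (eg_pz X T τ).const_mul _

lemma Mx_eq (X T ε : ℝ) :
    Mx n β X T ε = 2 ^ n * ∫ z, pz n β X T z 1 * mz n β X T ε z ∂(disorder n) := by
  have h := gauge_gen (μ := disorder n) (fl := Gauge.flip) measurePreserving_flip
    (f := fun σ z => pz n β X T z σ * mz n β X T ε (Gauge.flip σ z))
    (fun s z => by
      rw [pz_flip, mul_one]
      have e : Gauge.flip 1 (Gauge.flip s z) = Gauge.flip s z := by
        funext p
        simp [Gauge.flip, sg]
      rw [e])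
    (fun σ => by
      have h1 : EG fun z : Pair n → ℝ => mz n β X T ε (Gauge.flip σ z) := by
        have e : (fun z : Pair n → ℝ => mz n β X T ε (Gauge.flip σ z)) =
            fun z => ∑ τ : Fin n → ℤˣ, ps n ε τ * pz n β X T z (σ * τ) := by
          funext z
          unfold mz
          simp_rw [pz_flip]
        rw [e]
        exact EG.sum _ fun τ _ => (eg_pz X T _).const_mul _
      exact ((eg_pz X T σ).mul h1).integrable)
  have e1 : ∀ z : Pair n → ℝ, Gauge.flip 1 z = z := by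
    intro z
    funext p
    simp [Gauge.flip, sg]
  simp only [e1] at h
  rw [← h]
  unfold Mx
  refine integral_congr_ae (Filter.Eventually.of_forall fun z => ?_)
  simp only
  refine Finset.sum_congr rfl fun σ _ => ?_
  unfold mz
  simp_rw [pz_flip]
  rw [Finset.mul_sum]
  symm
  refine Fintype.sum_equiv (Equiv.mulLeft σ) _ _ fun τ => ?_
  have e2 : overlap n σ (σ * τ) = overlap n τ 1 := by
    have := ov_mul' σ 1 τ
    rw [mul_one] at this
    rw [this]
    unfold overlap
    congr 1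
    exact Finset.sum_congr rfl fun i _ => mul_comm _ _
  simp only [Equiv.coe_mulLeft, e2]
  unfold ps
  ring

end Vale.Agent.P146.H326.St
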