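import Vale.Agent.P146.H326.St4

/-!
# P146: the start of the descent, the core inequality (end)
-/

open MeasureTheory ProbabilityTheory Set

namespace Vale.Agent.P146.H326.St

open Vale.Agent.P157.Lv Vale.Agent.P146.H425 Vale.Agent.P146.H605 Vale.Agent.P146.H605.Gauge

variable {n : ℕ} {β : ℝ}

/-! ### the upper bound -/

lemma eg_free : EG (freeEnergy n β) := lip_F.eg

/-- finite Jensen -/
lemma gap_le (ε : ℝ) {θ : ℝ} (g : Pair n → ℝ) :
    freeEnergy n β g - Fp n β (fun σ => -θ * ps n ε σ) g ≤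
      θ * ∑ τ : Fin n → ℤˣ, ps n ε τ * gibbs n β g τ := by
  obtain ⟨m, hm⟩ : ∃ m, m = ∑ τ : Fin n → ℤˣ, ps n ε τ * gibbs n β g τ := ⟨_, rfl⟩
  rw [← hm]
  have h1 : Real.exp (-(θ * m)) ≤
      ∑ σ : Fin n → ℤˣ, gibbs n β g σ * Real.exp (-θ * ps n ε σ) := by
    have h2 : ∀ σ : Fin n → ℤˣ, gibbs n β g σ * (Real.exp (-(θ * m)) *
        (1 + θ * m - θ * ps n ε σ)) ≤ gibbs n β g σ * Real.exp (-θ * ps n ε σ) := by
      intro σ
      refine mul_le_mul_of_nonneg_left ?_ (gibbs_nonneg β g σ)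
      have h3 := Real.add_one_le_exp (θ * m - θ * ps n ε σ)
      have e : Real.exp (-θ * ps n ε σ) =
          Real.exp (-(θ * m)) * Real.exp (θ * m - θ * ps n ε σ) := by
        rw [← Real.exp_add]
        congr 1
        ring
      rw [e]
      exact mul_le_mul_of_nonneg_left (by linarith) (Real.exp_pos _).le
    refine le_trans (le_of_eq ?_) (Finset.sum_le_sum fun σ _ => h2 σ)
    have e : ∀ σ : Fin n → ℤˣ, gibbs n β g σ * (Real.exp (-(θ * m)) *
        (1 + θ * m - θ * ps n ε σ)) = Real.exp (-(θ * m)) * ((1 + θ * m) * gibbs n β g σ) -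
          Real.exp (-(θ * m)) * (θ * (ps n ε σ * gibbs n β g σ)) := fun σ => by ring
    simp_rw [e]
    rw [Finset.sum_sub_distrib, ← Finset.mul_sum, ← Finset.mul_sum, ← Finset.mul_sum,
      ← Finset.mul_sum, sum_gibbs, ← hm]
    ring
  have h4 : ∑ σ : Fin n → ℤˣ, gibbs n β g σ * Real.exp (-θ * ps n ε σ) =
      Real.exp (Fp n β (fun σ => -θ * ps n ε σ) g - freeEnergy n β g) := by
    rw [Real.exp_sub]
    have e1 : Real.exp (Fp n β (fun σ => -θ * ps n ε σ) g) =
        ∑ σ : Fin n → ℤˣ, Real.exp (β * hamiltonian n g σ + -θ * ps n ε σ) :=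
      Real.exp_log (sum_exp_pos _)
    rw [e1, Finset.sum_div]
    refine Finset.sum_congr rfl fun σ _ => ?_
    rw [gibbs_eq, Real.exp_sub, Real.exp_add]
    ring
  rw [h4] at h1
  have := Real.exp_le_exp.1 h1
  linarith

lemma gap_nonneg (ε : ℝ) {θ : ℝ} (hθ : 0 ≤ θ) (g : Pair n → ℝ) :
    0 ≤ freeEnergy n β g - Fp n β (fun σ => -θ * ps n ε σ) g := by
  have h := Fp_mono (β := β) (w := fun σ => -θ * ps n ε σ) (w' := fun _ => 0) (c := 0)
    (fun σ => by have := mul_nonneg hθ (ps_nonneg ε σ); linarith) g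
  rw [Fp_zero] at h
  linarith

lemma gap_le' (ε : ℝ) {θ : ℝ} (hθ : 0 ≤ θ) (g : Pair n → ℝ) :
    freeEnergy n β g - Fp n β (fun σ => -θ * ps n ε σ) g ≤ θ := by
  have h := Fp_mono (β := β) (w' := fun σ => -θ * ps n ε σ) (w := fun _ => 0) (c := θ)
    (fun σ => by have := mul_le_mul_of_nonneg_left (ps_le ε σ) hθ; linarith) g
  rw [Fp_zero] at h
  linarith

/-- The gap of the value functions. -/
lemma WF_gap (ε : ℝ) {X T θ : ℝ} (hX : 0 < X) (z : Pair n → ℝ) :
    W X (√T) (freeEnergy n β) (√(1 - T) • z) -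
      W X (√T) (Fp n β (fun σ => -θ * ps n ε σ)) (√(1 - T) • z) ≤ θ * mz n β X T ε z := by
  have hB := Bn_nonneg (n := n) (β := β)
  have e1 : EG fun g : Pair n → ℝ => Real.exp (X * freeEnergy n β (√(1 - T) • z + √T • g)) :=
    lipB_F.eg_exp hB _ _ _
  have e2 : EG fun g : Pair n → ℝ => freeEnergy n β (√(1 - T) • z + √T • g) -
      Fp n β (fun σ => -θ * ps n ε σ) (√(1 - T) • z + √T • g) :=
    (EG.add_smul eg_free _ _).sub (EG.add_smul (lip_Fp _).eg _ _)
  have e3 : EG fun g : Pair n → ℝ => Real.exp (X * freeEnergy n β (√(1 - T) • z + √T • g)) *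
      Real.exp (-X * (freeEnergy n β (√(1 - T) • z + √T • g) -
      Fp n β (fun σ => -θ * ps n ε σ) (√(1 - T) • z + √T • g))) := by
    have h := (lipB_Fp (n := n) (β := β) (fun σ => -θ * ps n ε σ)).eg_exp hB
      (√(1 - T) • z) (√T) X
    convert h using 2 with g
    rw [← Real.exp_add]
    congr 1
    ring
  have hp : 0 < ∫ g, Real.exp (X * freeEnergy n β (√(1 - T) • z + √T • g))
      ∂(gI (Pair n)) := den_pos X T z
  have h1 := jensen_tilt e1 (fun g => (Real.exp_pos _).le) hp (e2.const_mul (-X)) e3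
  obtain ⟨A, hA⟩ : ∃ A, A = ∫ g, Real.exp (X * freeEnergy n β (√(1 - T) • z + √T • g))
      ∂(gI (Pair n)) := ⟨_, rfl⟩
  have h2 : ∫ g, Real.exp (X * freeEnergy n β (√(1 - T) • z + √T • g)) *
      Real.exp (-X * (freeEnergy n β (√(1 - T) • z + √T • g) -
      Fp n β (fun σ => -θ * ps n ε σ) (√(1 - T) • z + √T • g))) ∂(gI (Pair n)) =
      Real.exp (X * W X (√T) (Fp n β (fun σ => -θ * ps n ε σ)) (√(1 - T) • z)) := by
    rw [(lipB_Fp (n := n) (β := β) (fun σ => -θ * ps n ε σ)).exp_W hB hX (√(1 - T) • z)]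
    refine integral_congr_ae (Filter.Eventually.of_forall fun g => ?_)
    simp only
    rw [← Real.exp_add]
    congr 1
    ring
  have h3 : Real.exp (X * W X (√T) (freeEnergy n β) (√(1 - T) • z)) = A := by
    rw [hA, (lipB_F (n := n) (β := β)).exp_W hB hX (√(1 - T) • z)]
  rw [h2, ← hA, ← h3, ← Real.exp_add] at h1
  have h4 := Real.exp_le_exp.1 h1
  rw [h3] at h4
  have h5 : ∫ g, Real.exp (X * freeEnergy n β (√(1 - T) • z + √T • g)) *
      (-X * (freeEnergy n β (√(1 - T) • z + √T • g) -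
      Fp n β (fun σ => -θ * ps n ε σ) (√(1 - T) • z + √T • g))) ∂(gI (Pair n)) =
      -X * ∫ g, Real.exp (X * freeEnergy n β (√(1 - T) • z + √T • g)) *
      (freeEnergy n β (√(1 - T) • z + √T • g) -
      Fp n β (fun σ => -θ * ps n ε σ) (√(1 - T) • z + √T • g)) ∂(gI (Pair n)) := by
    rw [← integral_const_mul]
    refine integral_congr_ae (Filter.Eventually.of_forall fun g => ?_)
    simp only
    ring
  have h6 : ∫ g, Real.exp (X * freeEnergy n β (√(1 - T) • z + √T • g)) *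
      (freeEnergy n β (√(1 - T) • z + √T • g) -
      Fp n β (fun σ => -θ * ps n ε σ) (√(1 - T) • z + √T • g)) ∂(gI (Pair n)) ≤
      θ * ∑ τ : Fin n → ℤˣ, ps n ε τ *
        ∫ g, Real.exp (X * freeEnergy n β (√(1 - T) • z + √T • g)) *
          gibbs n β (√(1 - T) • z + √T • g) τ ∂(gI (Pair n)) := by
    have e4 : ∀ τ, EG fun g : Pair n → ℝ =>
        Real.exp (X * freeEnergy n β (√(1 - T) • z + √T • g)) *
          gibbs n β (√(1 - T) • z + √T • g) τ := fun τ =>
      e1.mul (EG.add_smul (eg_gibbs τ) _ _)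
    simp_rw [← integral_const_mul]
    rw [← integral_finsetSum _ fun τ _ => ((e4 τ).const_mul (ps n ε τ)).integrable,
      ← integral_const_mul]
    refine integral_mono (e1.mul e2).integrable
      ((EG.sum _ fun τ _ => (e4 τ).const_mul (ps n ε τ)).const_mul θ).integrable fun g => ?_
    simp only
    have h7 := mul_le_mul_of_nonneg_left
      (gap_le (β := β) ε (θ := θ) (√(1 - T) • z + √T • g))
      (Real.exp_pos (X * freeEnergy n β (√(1 - T) • z + √T • g))).le
    refine h7.trans (le_of_eq ?_)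
    rw [Finset.mul_sum, Finset.mul_sum, Finset.mul_sum]
    exact Finset.sum_congr rfl fun τ _ => by ring
  have h8 : θ * mz n β X T ε z = θ * (∑ τ : Fin n → ℤˣ, ps n ε τ *
        ∫ g, Real.exp (X * freeEnergy n β (√(1 - T) • z + √T • g)) *
          gibbs n β (√(1 - T) • z + √T • g) τ ∂(gI (Pair n))) / A := by
    unfold mz pz
    rw [hA, ← disorder_eq, mul_div_assoc, Finset.sum_div]
    congr 1
    exact Finset.sum_congr rfl fun τ _ => by ring
  rw [h5] at h4
  rw [h8]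
  have hA0 : 0 < A := by rw [hA]; exact hp
  rw [le_div_iff₀ hA0]
  have h9 : X * (W X (√T) (freeEnergy n β) (√(1 - T) • z) -
      W X (√T) (Fp n β (fun σ => -θ * ps n ε σ)) (√(1 - T) • z)) * A ≤
      X * ∫ g, Real.exp (X * freeEnergy n β (√(1 - T) • z + √T • g)) *
      (freeEnergy n β (√(1 - T) • z + √T • g) -
      Fp n β (fun σ => -θ * ps n ε σ) (√(1 - T) • z + √T • g)) ∂(gI (Pair n)) := by
    have h10 := mul_le_mul_of_nonneg_right h4 hA0.le
    rw [add_mul, div_mul_cancel₀ _ hA0.ne'] at h10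
    linarith
  have h11 := mul_le_mul_of_nonneg_left h6 hX.le
  have h12 : X * ((W X (√T) (freeEnergy n β) (√(1 - T) • z) -
      W X (√T) (Fp n β (fun σ => -θ * ps n ε σ)) (√(1 - T) • z)) * A) ≤
      X * (θ * ∑ τ : Fin n → ℤˣ, ps n ε τ *
        ∫ g, Real.exp (X * freeEnergy n β (√(1 - T) • z + √T • g)) *
          gibbs n β (√(1 - T) • z + √T • g) τ ∂(gI (Pair n))) := by
    rw [← mul_assoc]
    exact h9.trans h11
  exact le_of_mul_le_mul_left h12 hX

lemma WF_gap_nonneg (ε : ℝ) {X T θ : ℝ} (hX : 0 < X) (hθ : 0 ≤ θ) (y : Pair n → ℝ) :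
    W X (√T) (Fp n β (fun σ => -θ * ps n ε σ)) y ≤ W X (√T) (freeEnergy n β) y := by
  have hB := Bn_nonneg (n := n) (β := β)
  unfold W
  refine mul_le_mul_of_nonneg_left ?_ (by positivity)
  refine Real.log_le_log ((lipB_Fp _).pos hB y _ X) ?_
  refine integral_mono ((lipB_Fp _).int_exp hB y _ X) (lipB_F.int_exp hB y _ X) fun g => ?_
  simp only
  refine Real.exp_le_exp.2 (mul_le_mul_of_nonneg_left ?_ hX.le)
  have := gap_nonneg (β := β) ε hθ (y + √T • g)
  linarith

lemma mz_le (X T ε : ℝ) (z : Pair n → ℝ) : mz n β X T ε z ≤ 1 := by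
  have h1 : mz n β X T ε z ≤ ∑ τ : Fin n → ℤˣ, pz n β X T z τ := by
    unfold mz
    refine Finset.sum_le_sum fun τ _ => ?_
    exact mul_le_of_le_one_left (pz_nonneg X T z τ) (ps_le ε τ)
  refine h1.trans (le_of_eq ?_)
  unfold pz
  rw [← Finset.sum_div]
  have e1 : EG fun g : Pair n → ℝ => Real.exp (X * freeEnergy n β (√(1 - T) • z + √T • g)) :=
    lipB_F.eg_exp Bn_nonneg _ _ _
  have i4 : ∀ τ, Integrable (fun g : Pair n → ℝ =>
        Real.exp (X * freeEnergy n β (√(1 - T) • z + √T • g)) *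
          gibbs n β (√(1 - T) • z + √T • g) τ) (disorder n) := fun τ =>
      (e1.mul (EG.add_smul (eg_gibbs τ) _ _)).integrable
  rw [← integral_finsetSum _ fun τ _ => i4 τ]
  simp_rw [← Finset.mul_sum, sum_gibbs, mul_one]
  exact div_self (den_pos X T z).ne'

lemma mz_nonneg (X T ε : ℝ) (z : Pair n → ℝ) : 0 ≤ mz n β X T ε z :=
  Finset.sum_nonneg fun τ _ => mul_nonneg (ps_nonneg ε τ) (pz_nonneg X T z τ)

lemma exp_chord {s θ : ℝ} (hθ : 0 < θ) (h0 : 0 ≤ s) (h1 : s ≤ θ) :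
    Real.exp s ≤ 1 + (Real.exp θ - 1) * (s / θ) := by
  have h := convexOn_exp.2 (mem_univ (0 : ℝ)) (mem_univ θ)
    (show (0 : ℝ) ≤ 1 - s / θ by
      have : s / θ ≤ 1 := by rw [div_le_one hθ]; exact h1
      linarith) (show (0 : ℝ) ≤ s / θ by positivity) (by ring)
  simp only [smul_eq_mul, Real.exp_zero, mul_one, mul_zero, zero_add] at h
  have e : s / θ * θ = s := by field_simp
  rw [e] at h
  linarith

/-- **The upper bound.** -/
theorem J_upper {X T ε θ : ℝ} (hX : 0 < X) (hX1 : X ≤ 1) (hθ : 0 < θ) :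
    2 ^ n * ∫ w, Real.exp (ph n β X T (ps n ε) θ w) ∂(gI (Pair n ⊕ Pair n)) ≤
      1 + (Real.exp θ - 1) * (1 - X + X * Mx n β X T ε) := by
  have hθ1 : 0 ≤ Real.exp θ - 1 := by linarith [Real.add_one_le_exp θ]
  have hpt : ∀ w : Pair n ⊕ Pair n → ℝ, Real.exp (ph n β X T (ps n ε) θ w) ≤
      Real.exp (ph n β X T (ps n ε) 0 w) * (1 + (Real.exp θ - 1) * (1 - X)) +
      (Real.exp θ - 1) * X * (gibbs n β (GG T w) 1 * Real.exp (dl n β X T w) *
        mz n β X T ε (w0 w)) := by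
    intro w
    obtain ⟨Y, hY⟩ : ∃ Y, Y = freeEnergy n β (GG T w) -
      Fp n β (fun σ => -θ * ps n ε σ) (GG T w) := ⟨_, rfl⟩
    obtain ⟨D, hD⟩ : ∃ D, D = W X (√T) (freeEnergy n β) (√(1 - T) • w0 w) -
      W X (√T) (Fp n β (fun σ => -θ * ps n ε σ)) (√(1 - T) • w0 w) := ⟨_, rfl⟩
    have hY1 : Y ≤ θ := by rw [hY]; exact gap_le' ε hθ.le _
    have hD0 : 0 ≤ D := by
      rw [hD]
      have := WF_gap_nonneg (β := β) ε (T := T) hX hθ.le (√(1 - T) • w0 w)
      linarith
    have hD1 : D ≤ θ * mz n β X T ε (w0 w) := by rw [hD]; exact WF_gap ε hX _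
    have hm1 := mz_le (β := β) X T ε (w0 w)
    have e : ph n β X T (ps n ε) θ w = ph n β X T (ps n ε) 0 w + ((1 - X) * Y + X * D) := by
      unfold ph
      rw [Fp_zero', hY, hD]
      ring
    rw [e, Real.exp_add]
    have h1 : Real.exp ((1 - X) * Y + X * D) ≤
        1 + (Real.exp θ - 1) * ((1 - X) + X * mz n β X T ε (w0 w)) := by
      have h2 : (1 - X) * Y + X * D ≤ (1 - X) * θ + X * (θ * mz n β X T ε (w0 w)) :=
        add_le_add (mul_le_mul_of_nonneg_left hY1 (by linarith))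
          (mul_le_mul_of_nonneg_left hD1 hX.le)
      refine (Real.exp_le_exp.2 h2).trans ?_
      have hm0 := mz_nonneg (β := β) X T ε (w0 w)
      have h3 := exp_chord (s := (1 - X) * θ + X * (θ * mz n β X T ε (w0 w))) hθ
        (by have : 0 ≤ 1 - X := by linarith
            positivity)
        (by have h4 := mul_le_mul_of_nonneg_left hm1 (mul_pos hX hθ).le
            nlinarith [h4])
      refine h3.trans (le_of_eq ?_)
      congr 2
      field_simp
    have h5 := mul_le_mul_of_nonneg_left h1 (Real.exp_pos (ph n β X T (ps n ε) 0 w)).le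
    refine h5.trans (le_of_eq ?_)
    rw [ph_zero]
    ring
  have eJ : EG fun w => Real.exp (ph n β X T (ps n ε) θ w) := by
    simpa using (lip_ph (n := n) (β := β) hX T (ps n ε) θ).exp_eg 1
  have e0 : EG fun w => Real.exp (ph n β X T (ps n ε) 0 w) := by
    simpa using (lip_ph (n := n) (β := β) hX T (ps n ε) 0).exp_eg 1
  have em : EG fun w : Pair n ⊕ Pair n → ℝ => mz n β X T ε (w0 w) := by
    simpa using eg_w0 (eg_mz (n := n) (β := β) X T ε) 1
  have e1 : EG fun w : Pair n ⊕ Pair n → ℝ => gibbs n β (GG T w) 1 *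
      Real.exp (dl n β X T w) * mz n β X T ε (w0 w) :=
    ((eg_gGG T 1).mul (eg_edl hX T)).mul em
  have h1 := integral_mono eJ.integrable
    ((e0.mul (EG.const _)).add (e1.const_mul _)).integrable hpt
  rw [integral_add (e0.mul (EG.const _)).integrable (e1.const_mul _).integrable,
    integral_mul_const, integral_const_mul] at h1
  have h2 := J_zero (n := n) (β := β) hX T (ps n ε)
  have h3 := int_dl (n := n) (β := β) hX T (eg_gibbs (β := β) 1) (eg_mz (β := β) X T ε)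
  have h4 := Mx_eq (n := n) (β := β) X T ε
  rw [h3] at h1
  have h5 : ∫ z, (∫ g, Real.exp (X * freeEnergy n β (√(1 - T) • z + √T • g)) *
        gibbs n β (√(1 - T) • z + √T • g) 1 ∂(disorder n)) /
        (∫ g, Real.exp (X * freeEnergy n β (√(1 - T) • z + √T • g)) ∂(disorder n)) *
        mz n β X T ε z ∂(disorder n) = ∫ z, pz n β X T z 1 * mz n β X T ε z ∂(disorder n) := rfl
  rw [h5] at h1
  have hp : (0 : ℝ) < 2 ^ n := by positivity
  have h6 := mul_le_mul_of_nonneg_left h1 hp.le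
  obtain ⟨j0, hj0⟩ : ∃ j0, j0 = ∫ w, Real.exp (ph n β X T (ps n ε) 0 w)
    ∂(gI (Pair n ⊕ Pair n)) := ⟨_, rfl⟩
  obtain ⟨mm, hmm⟩ : ∃ mm, mm = ∫ z, pz n β X T z 1 * mz n β X T ε z ∂(disorder n) := ⟨_, rfl⟩
  rw [← hj0] at h6 h2
  rw [← hmm] at h6 h4
  rw [h4]
  refine h6.trans (le_of_eq ?_)
  linear_combination (1 + (Real.exp θ - 1) * (1 - X)) * h2

end Vale.Agent.P146.H326.St
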