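import Vale.Agent.P146.H326.St5

/-!
# P146: the start of the descent, the core inequality (end)
-/

open MeasureTheory ProbabilityTheory Set

namespace Vale.Agent.P146.H326.St

open Vale.Agent.P157.Lv Vale.Agent.P146.H425 Vale.Agent.P146.H605 Vale.Agent.P146.H605.Gauge

variable {n : ℕ} {β : ℝ}

/-- `E exp (x F)` -/
noncomputable def Zx (n : ℕ) (β x : ℝ) : ℝ := ∫ g, Real.exp (x * freeEnergy n β g) ∂(disorder n)

lemma eg_ex (x : ℝ) : EG fun g : Pair n → ℝ => Real.exp (x * freeEnergy n β g) := lip_F.exp_eg x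

lemma Zx_pos (x : ℝ) : 0 < Zx n β x := integral_exp_pos (eg_ex x).integrable

lemma log_Zx (x : ℝ) : Real.log (Zx n β x) = Lg n β x := rfl

/-- the mean of `F` under the tilt -/
noncomputable def EF (n : ℕ) (β x : ℝ) : ℝ :=
  (∫ g, Real.exp (x * freeEnergy n β g) * freeEnergy n β g ∂(disorder n)) / Zx n β x

lemma EF_le (x : ℝ) : x * EF n β x ≤ Lg n β (2 * x) - Lg n β x := by
  have h := jensen_tilt (κ := Pair n) (q := fun g => Real.exp (x * freeEnergy n β g))
    (t := fun g => x * freeEnergy n β g) (eg_ex x) (fun g => (Real.exp_pos _).le) (Zx_pos x)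
    (eg_free.const_mul x) (by
      have := eg_ex (n := n) (β := β) (2 * x)
      convert this using 2 with g
      rw [← Real.exp_add]
      congr 1
      ring)
  have e1 : ∫ g, Real.exp (x * freeEnergy n β g) * (x * freeEnergy n β g) ∂(gI (Pair n)) =
      x * ∫ g, Real.exp (x * freeEnergy n β g) * freeEnergy n β g ∂(disorder n) := by
    rw [← integral_const_mul, disorder_eq]
    exact integral_congr_ae (Filter.Eventually.of_forall fun g => by simp only; ring)
  have e2 : ∫ g, Real.exp (x * freeEnergy n β g) * Real.exp (x * freeEnergy n β g)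
      ∂(gI (Pair n)) = Zx n β (2 * x) := by
    unfold Zx
    rw [disorder_eq]
    refine integral_congr_ae (Filter.Eventually.of_forall fun g => ?_)
    simp only
    rw [← Real.exp_add]
    congr 1
    ring
  rw [e1, e2] at h
  have h1 : Zx n β x * Real.exp (x * EF n β x) ≤ Zx n β (2 * x) := by
    refine le_trans (le_of_eq ?_) h
    unfold EF
    rw [mul_div_assoc]
    rfl
  have h2 := Real.log_le_log (mul_pos (Zx_pos x) (Real.exp_pos _)) h1
  rw [Real.log_mul (Zx_pos x).ne' (Real.exp_pos _).ne', Real.log_exp, log_Zx, log_Zx] at h2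
  linarith

/-! ### the supremum under the tilt -/

/-- the mean of `Sm` of the future under the tilt -/
noncomputable def ES (n : ℕ) (β x T : ℝ) : ℝ :=
  (∫ w, Real.exp (x * freeEnergy n β (GG T w)) * Sm n (w1 w) ∂(gI (Pair n ⊕ Pair n))) /
    Zx n β x

lemma eg_exG (x T : ℝ) : EG fun w : Pair n ⊕ Pair n → ℝ =>
    Real.exp (x * freeEnergy n β (GG T w)) := eg_GG (eg_ex x) T

lemma eg_Sw : EG fun w : Pair n ⊕ Pair n → ℝ => Sm n (w1 w) := eg_w1 lip_Sm.eg

lemma eg_FG (T : ℝ) : EG fun w : Pair n ⊕ Pair n → ℝ => freeEnergy n β (GG T w) :=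
  eg_GG eg_free T

lemma int_exG (x : ℝ) {T : ℝ} (h0 : 0 ≤ T) (h1 : T ≤ 1) :
    ∫ w, Real.exp (x * freeEnergy n β (GG T w)) ∂(gI (Pair n ⊕ Pair n)) = Zx n β x :=
  int_GG (eg_ex x) h0 h1

lemma ES_le (hn : 1 ≤ n) (x : ℝ) {T : ℝ} (h0 : 0 ≤ T) (h1 : T ≤ 1) :
    ES n β x T ≤ 2 * n + x * EF n β x - Lg n β x := by
  have hZ := Zx_pos (n := n) (β := β) x
  have e3 : EG fun w : Pair n ⊕ Pair n → ℝ => Real.exp (x * freeEnergy n β (GG T w)) *
      Real.exp (Sm n (w1 w) - x * freeEnergy n β (GG T w)) := by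
    have := eg_w1 (n := n) (eg_exp_Sm (n := n))
    convert this using 2 with w
    rw [← Real.exp_add]
    congr 1
    ring
  have h := jensen_tilt (κ := Pair n ⊕ Pair n)
    (q := fun w => Real.exp (x * freeEnergy n β (GG T w)))
    (t := fun w => Sm n (w1 w) - x * freeEnergy n β (GG T w)) (eg_exG x T)
    (fun w => (Real.exp_pos _).le) (by rw [int_exG x h0 h1]; exact hZ)
    (eg_Sw.sub ((eg_FG T).const_mul x)) e3
  rw [int_exG x h0 h1] at h
  have e1 : ∫ w, Real.exp (x * freeEnergy n β (GG T w)) *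
      (Sm n (w1 w) - x * freeEnergy n β (GG T w)) ∂(gI (Pair n ⊕ Pair n)) =
      ES n β x T * Zx n β x - x * (EF n β x * Zx n β x) := by
    have e2 : ∀ w : Pair n ⊕ Pair n → ℝ, Real.exp (x * freeEnergy n β (GG T w)) *
        (Sm n (w1 w) - x * freeEnergy n β (GG T w)) =
        Real.exp (x * freeEnergy n β (GG T w)) * Sm n (w1 w) -
        x * (Real.exp (x * freeEnergy n β (GG T w)) * freeEnergy n β (GG T w)) := fun w => by
      ring
    simp_rw [e2]
    rw [integral_sub ((eg_exG x T).mul eg_Sw).integrable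
      (((eg_exG x T).mul (eg_FG T)).const_mul x).integrable, integral_const_mul,
      int_GG (f := fun g => Real.exp (x * freeEnergy n β g) * freeEnergy n β g)
        ((eg_ex x).mul eg_free) h0 h1]
    unfold ES EF
    rw [div_mul_cancel₀ _ hZ.ne', div_mul_cancel₀ _ hZ.ne']
  have e4 : ∫ w, Real.exp (x * freeEnergy n β (GG T w)) *
      Real.exp (Sm n (w1 w) - x * freeEnergy n β (GG T w)) ∂(gI (Pair n ⊕ Pair n)) ≤
      Real.exp (2 * n) := by
    refine le_trans (le_of_eq ?_) (int_exp_Sm hn)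
    have e5 : ∀ w : Pair n ⊕ Pair n → ℝ, Real.exp (x * freeEnergy n β (GG T w)) *
      Real.exp (Sm n (w1 w) - x * freeEnergy n β (GG T w)) = Real.exp (Sm n (w1 w)) := by
      intro w
      rw [← Real.exp_add]
      congr 1
      ring
    simp_rw [e5]
    rw [R1.int_sum (eg_w1 (eg_exp_Sm (n := n)))]
    have e6 : ∀ z g : Pair n → ℝ, w1 (Sum.elim z g) = g := fun z g => rfl
    simp_rw [e6]
    rw [disorder_eq]
    simp
  rw [e1] at h
  have e7 : (ES n β x T * Zx n β x - x * (EF n β x * Zx n β x)) / Zx n β x =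
      ES n β x T - x * EF n β x := by
    field_simp
  rw [e7] at h
  have h2 := Real.log_le_log (mul_pos hZ (Real.exp_pos _)) (h.trans e4)
  rw [Real.log_mul hZ.ne' (Real.exp_pos _).ne', Real.log_exp, Real.log_exp, log_Zx] at h2
  linarith

/-! ### the gap under the tilt -/

/-- the planted mean of the gap -/
noncomputable def EY (n : ℕ) (β x ε θ : ℝ) : ℝ :=
  2 ^ n * (∫ g, gibbs n β g 1 * Real.exp (x * freeEnergy n β g) *
    (freeEnergy n β g - Fp n β (fun σ => -θ * ps n ε σ) g) ∂(disorder n)) / Zx n β x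

lemma eg_q0 (x : ℝ) : EG fun g : Pair n → ℝ =>
    gibbs n β g 1 * Real.exp (x * freeEnergy n β g) := (eg_gibbs 1).mul (eg_ex x)

lemma int_q0 (x : ℝ) : 2 ^ n * ∫ g, gibbs n β g 1 * Real.exp (x * freeEnergy n β g)
    ∂(disorder n) = Zx n β x := by
  have h := gauge_gen (μ := disorder n) (fl := Gauge.flip) measurePreserving_flip
    (f := fun σ g => gibbs n β g σ * Real.exp (x * freeEnergy n β g))
    (fun s g => by rw [gibbs_flip, free_flip, mul_one])
    (fun σ => ((eg_gibbs σ).mul (eg_ex x)).integrable)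
  rw [← h]
  unfold Zx
  refine integral_congr_ae (Filter.Eventually.of_forall fun g => ?_)
  simp only
  rw [← Finset.sum_mul, sum_gibbs, one_mul]

/-- the Gibbs probability of `|R(1,·)| ≤ ε` -/
noncomputable def p2 (n : ℕ) (β ε : ℝ) (g : Pair n → ℝ) (σ : Fin n → ℤˣ) : ℝ :=
  ∑ τ : Fin n → ℤˣ, (if |overlap n σ τ| ≤ ε then (1 : ℝ) else 0) * gibbs n β g τ

lemma p2_nonneg (ε : ℝ) (g : Pair n → ℝ) (σ : Fin n → ℤˣ) : 0 ≤ p2 n β ε g σ :=
  Finset.sum_nonneg fun τ _ => mul_nonneg (by split_ifs <;> norm_num) (gibbs_nonneg β g τ)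

lemma p2_le_one (ε : ℝ) (g : Pair n → ℝ) (σ : Fin n → ℤˣ) : p2 n β ε g σ ≤ 1 := by
  have h : p2 n β ε g σ ≤ ∑ τ : Fin n → ℤˣ, gibbs n β g τ := by
    unfold p2
    refine Finset.sum_le_sum fun τ _ => ?_
    exact mul_le_of_le_one_left (gibbs_nonneg β g τ) (by split_ifs <;> norm_num)
  rwa [sum_gibbs] at h

lemma p2_flip (ε : ℝ) (s : Fin n → ℤˣ) (g : Pair n → ℝ) (σ : Fin n → ℤˣ) :
    p2 n β ε (Gauge.flip s g) σ = p2 n β ε g (s * σ) := by
  unfold p2
  refine Fintype.sum_equiv (Equiv.mulLeft s) _ _ fun τ => ?_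
  simp only [Equiv.coe_mulLeft, gibbs_flip, ov_mul']

lemma cont_p2 (ε : ℝ) (σ : Fin n → ℤˣ) : Continuous fun g : Pair n → ℝ => p2 n β ε g σ := by
  unfold p2
  exact continuous_finsetSum _ fun τ _ => continuous_const.mul (continuous_gibbs β τ)

lemma eg_p2 (ε : ℝ) {y : ℝ} (hy : 0 < y) (σ : Fin n → ℤˣ) :
    EG fun g : Pair n → ℝ => p2 n β ε g σ ^ y := by
  refine EG.of_bdd ((cont_p2 ε σ).measurable.pow_const y) (C := 1) fun g => ?_
  rw [abs_of_nonneg (Real.rpow_nonneg (p2_nonneg ε g σ) y)]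
  exact Real.rpow_le_one (p2_nonneg ε g σ) (p2_le_one ε g σ) hy.le

lemma P2_eq (x ε : ℝ) {y : ℝ} (hy : 0 < y) : P2 n β x y ε * Zx n β x =
    2 ^ n * ∫ g, gibbs n β g 1 * Real.exp (x * freeEnergy n β g) * p2 n β ε g 1 ^ y
      ∂(disorder n) := by
  have h := gauge_gen (μ := disorder n) (fl := Gauge.flip) measurePreserving_flip
    (f := fun σ g => gibbs n β g σ * Real.exp (x * freeEnergy n β g) * p2 n β ε g σ ^ y)
    (fun s g => by rw [gibbs_flip, free_flip, p2_flip, mul_one])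
    (fun σ => (((eg_gibbs σ).mul (eg_ex x)).mul (eg_p2 ε hy σ)).integrable)
  rw [← h]
  unfold P2
  have hZ := Zx_pos (n := n) (β := β) x
  have e : ∫ g, Real.exp (x * freeEnergy n β g) ∂(disorder n) = Zx n β x := rfl
  rw [e, div_mul_cancel₀ _ hZ.ne']
  refine integral_congr_ae (Filter.Eventually.of_forall fun g => ?_)
  simp only
  rw [Finset.mul_sum]
  refine Finset.sum_congr rfl fun σ _ => ?_
  unfold p2
  ring

lemma rpow_add_le {a b y : ℝ} (ha : 0 ≤ a) (hb : 0 ≤ b) (hy0 : 0 ≤ y) (hy1 : y ≤ 1) :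
    (a + b) ^ y ≤ a ^ y + b ^ y := by
  lift a to NNReal using ha
  lift b to NNReal using hb
  exact_mod_cast NNReal.rpow_add_le_add_rpow a b hy0 hy1

/-- `e^{-Y} ≤ p2 + e^{-θ}` -/
lemma exp_gap_le (ε θ : ℝ) (g : Pair n → ℝ) :
    Real.exp (-(freeEnergy n β g - Fp n β (fun σ => -θ * ps n ε σ) g)) ≤
      p2 n β ε g 1 + Real.exp (-θ) := by
  have h4 : Real.exp (-(freeEnergy n β g - Fp n β (fun σ => -θ * ps n ε σ) g)) =
      ∑ σ : Fin n → ℤˣ, gibbs n β g σ * Real.exp (-θ * ps n ε σ) := by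
    rw [neg_sub, Real.exp_sub]
    have e1 : Real.exp (Fp n β (fun σ => -θ * ps n ε σ) g) =
        ∑ σ : Fin n → ℤˣ, Real.exp (β * hamiltonian n g σ + -θ * ps n ε σ) :=
      Real.exp_log (sum_exp_pos _)
    rw [e1, Finset.sum_div]
    refine Finset.sum_congr rfl fun σ _ => ?_
    rw [gibbs_eq, Real.exp_sub, Real.exp_add]
    ring
  rw [h4]
  have h5 : p2 n β ε g 1 + Real.exp (-θ) = ∑ σ : Fin n → ℤˣ, gibbs n β g σ *
      ((if |overlap n 1 σ| ≤ ε then (1 : ℝ) else 0) + Real.exp (-θ)) := by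
    unfold p2
    simp_rw [mul_add]
    rw [Finset.sum_add_distrib, ← Finset.sum_mul, sum_gibbs, one_mul]
    congr 1
    exact Finset.sum_congr rfl fun τ _ => mul_comm _ _
  rw [h5]
  refine Finset.sum_le_sum fun σ _ => mul_le_mul_of_nonneg_left ?_ (gibbs_nonneg β g σ)
  have e : overlap n 1 σ = overlap n σ 1 := by
    unfold overlap
    congr 1
    exact Finset.sum_congr rfl fun i _ => mul_comm _ _
  rw [e]
  unfold ps
  have hp := Real.exp_pos (-θ)
  by_cases h : ε < |overlap n σ 1|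
  · rw [if_pos h, if_neg (not_le.2 h)]
    simp
  · rw [if_neg h, if_pos (not_lt.1 h)]
    simp only [mul_zero, Real.exp_zero]
    linarith

lemma EY_ge {x x' ε θ : ℝ} (hx' : 0 < x') (hx1 : x' ≤ 1)
    (h : P2 n β x x' ε ≤ Real.exp (-(x' * θ))) :
    θ - Real.log 2 / x' ≤ EY n β x ε θ := by
  have hZ := Zx_pos (n := n) (β := β) x
  have h2n : (0 : ℝ) < 2 ^ n := by positivity
  have h0 := int_q0 (n := n) (β := β) x
  have hq : 0 < ∫ g, gibbs n β g 1 * Real.exp (x * freeEnergy n β g) ∂(gI (Pair n)) := by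
    rw [← disorder_eq]
    by_contra hc
    have := mul_nonpos_of_nonneg_of_nonpos h2n.le (not_lt.1 hc)
    linarith
  obtain ⟨q, hqd⟩ : ∃ q, q = ∫ g, gibbs n β g 1 * Real.exp (x * freeEnergy n β g)
    ∂(disorder n) := ⟨_, rfl⟩
  rw [← hqd] at h0
  have egap : EG fun g : Pair n → ℝ => freeEnergy n β g -
      Fp n β (fun σ => -θ * ps n ε σ) g := eg_free.sub (lip_Fp _).eg
  have e3 : EG fun g : Pair n → ℝ => gibbs n β g 1 * Real.exp (x * freeEnergy n β g) *
      Real.exp (-x' * (freeEnergy n β g - Fp n β (fun σ => -θ * ps n ε σ) g)) := by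
    have hl : Lip fun g : Pair n → ℝ => freeEnergy n β g -
      Fp n β (fun σ => -θ * ps n ε σ) g := by
      have := (lip_F (n := n) (β := β)).add ((lip_Fp (n := n) (β := β)
        (fun σ => -θ * ps n ε σ)).const_mul (-1))
      convert this using 2
      ring
    exact (eg_q0 x).mul (hl.exp_eg (-x'))
  have h1 := jensen_tilt (κ := Pair n)
    (q := fun g => gibbs n β g 1 * Real.exp (x * freeEnergy n β g))
    (t := fun g => -x' * (freeEnergy n β g - Fp n β (fun σ => -θ * ps n ε σ) g))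
    (eg_q0 x) (fun g => mul_nonneg (gibbs_nonneg β g 1) (Real.exp_pos _).le) hq
    (egap.const_mul _) e3
  have e4 : ∫ g, gibbs n β g 1 * Real.exp (x * freeEnergy n β g) *
      (-x' * (freeEnergy n β g - Fp n β (fun σ => -θ * ps n ε σ) g)) ∂(gI (Pair n)) =
      -x' * ∫ g, gibbs n β g 1 * Real.exp (x * freeEnergy n β g) *
      (freeEnergy n β g - Fp n β (fun σ => -θ * ps n ε σ) g) ∂(disorder n) := by
    rw [← integral_const_mul, disorder_eq]
    exact integral_congr_ae (Filter.Eventually.of_forall fun g => by simp only; ring)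
  have e5 : ∫ g, gibbs n β g 1 * Real.exp (x * freeEnergy n β g) *
      Real.exp (-x' * (freeEnergy n β g - Fp n β (fun σ => -θ * ps n ε σ) g))
        ∂(gI (Pair n)) ≤
      ∫ g, gibbs n β g 1 * Real.exp (x * freeEnergy n β g) *
        (p2 n β ε g 1 ^ x' + Real.exp (-(x' * θ))) ∂(gI (Pair n)) := by
    refine integral_mono e3.integrable
      ((eg_q0 x).mul ((eg_p2 ε hx' 1).add (EG.const _))).integrable fun g => ?_
    simp only
    refine mul_le_mul_of_nonneg_left ?_ (mul_nonneg (gibbs_nonneg β g 1) (Real.exp_pos _).le)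
    have h6 := exp_gap_le (β := β) ε θ g
    have h7 : Real.exp (-x' * (freeEnergy n β g - Fp n β (fun σ => -θ * ps n ε σ) g)) =
        Real.exp (-(freeEnergy n β g - Fp n β (fun σ => -θ * ps n ε σ) g)) ^ x' := by
      rw [← Real.exp_mul]
      congr 1
      ring
    have h8 : Real.exp (-(x' * θ)) = Real.exp (-θ) ^ x' := by
      rw [← Real.exp_mul]
      congr 1
      ring
    rw [h7, h8]
    exact (Real.rpow_le_rpow (Real.exp_pos _).le h6 hx'.le).trans
      (rpow_add_le (p2_nonneg ε g 1) (Real.exp_pos _).le hx'.le hx1)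
  have e6 : ∫ g, gibbs n β g 1 * Real.exp (x * freeEnergy n β g) *
        (p2 n β ε g 1 ^ x' + Real.exp (-(x' * θ))) ∂(gI (Pair n)) =
      (∫ g, gibbs n β g 1 * Real.exp (x * freeEnergy n β g) * p2 n β ε g 1 ^ x'
        ∂(disorder n)) + Real.exp (-(x' * θ)) * q := by
    simp_rw [mul_add]
    rw [integral_add ((eg_q0 x).mul (eg_p2 ε hx' 1)).integrable
      ((eg_q0 x).mul (EG.const _)).integrable, integral_mul_const, hqd, disorder_eq, mul_comm
      (Real.exp (-(x' * θ)))]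
  rw [e4] at h1
  have h9 := h1.trans (e5.trans_eq e6)
  rw [← disorder_eq, ← hqd] at h9
  have h10 := P2_eq (n := n) (β := β) x ε hx'
  have h11 := mul_le_mul_of_nonneg_left h9 h2n.le
  rw [mul_add, ← h10, ← mul_assoc, h0] at h11
  have e7 : (2 : ℝ) ^ n * (Real.exp (-(x' * θ)) * q) = Real.exp (-(x' * θ)) * Zx n β x := by
    rw [← h0]; ring
  rw [e7] at h11
  have e8 : -x' * (∫ g, gibbs n β g 1 * Real.exp (x * freeEnergy n β g) *
      (freeEnergy n β g - Fp n β (fun σ => -θ * ps n ε σ) g) ∂(disorder n)) / q =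
      -x' * EY n β x ε θ := by
    unfold EY
    have hq0 : q ≠ 0 := by rw [hqd]; exact hq.ne'
    rw [← h0]
    field_simp
  rw [e8] at h11
  have h12 : Real.exp (-x' * EY n β x ε θ) ≤ 2 * Real.exp (-(x' * θ)) := by
    have h13 := mul_le_mul_of_nonneg_right h hZ.le
    have h14 : Zx n β x * Real.exp (-x' * EY n β x ε θ) ≤
        Zx n β x * (2 * Real.exp (-(x' * θ))) := by linarith
    exact le_of_mul_le_mul_left h14 hZ
  have h15 := Real.log_le_log (Real.exp_pos _) h12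
  rw [Real.log_exp, Real.log_mul (by norm_num) (Real.exp_pos _).ne', Real.log_exp] at h15
  have e9 : θ - Real.log 2 / x' = (x' * θ - Real.log 2) / x' := by field_simp
  rw [e9, div_le_iff₀ hx']
  linarith

/-- **The lower bound.** -/
theorem J_lower (hn : 1 ≤ n) (hβ : 0 < β) {x X T ε θ : ℝ} (hX : 0 < X) (h0 : 0 ≤ T)
    (h1 : T ≤ 1) (hXT : X * β * √T ≤ 1) :
    Lg n β x + EY n β x ε θ - x * EF n β x - X * β * √T * (ES n β x T + 2 * n) ≤
      Real.log (2 ^ n * ∫ w, Real.exp (ph n β X T (ps n ε) θ w)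
        ∂(gI (Pair n ⊕ Pair n))) := by
  have hZ := Zx_pos (n := n) (β := β) x
  have h2n : (0 : ℝ) < 2 ^ n := by positivity
  obtain ⟨a, ha⟩ : ∃ a, a = X * β * √T := ⟨_, rfl⟩
  rw [← ha]
  have eq : EG fun w : Pair n ⊕ Pair n → ℝ =>
      gibbs n β (GG T w) 1 * Real.exp (x * freeEnergy n β (GG T w)) := eg_GG (eg_q0 x) T
  have et : EG fun w : Pair n ⊕ Pair n → ℝ =>
      (freeEnergy n β (GG T w) - Fp n β (fun σ => -θ * ps n ε σ) (GG T w)) -
      x * freeEnergy n β (GG T w) - a * (Sm n (w1 w) + 2 * n) :=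
    (((eg_FG T).sub (eg_GG (lip_Fp _).eg T)).sub ((eg_FG T).const_mul x)).sub
      ((eg_Sw.add (EG.const _)).const_mul a)
  have hle : ∀ w : Pair n ⊕ Pair n → ℝ,
      gibbs n β (GG T w) 1 * Real.exp (x * freeEnergy n β (GG T w)) *
      Real.exp ((freeEnergy n β (GG T w) - Fp n β (fun σ => -θ * ps n ε σ) (GG T w)) -
      x * freeEnergy n β (GG T w) - a * (Sm n (w1 w) + 2 * n)) ≤
      Real.exp (ph n β X T (ps n ε) θ w) := by
    intro w
    have h := ph_ge hn hβ hX hXT (ps n ε) θ w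
    rw [← ha] at h
    rw [gibbs_eq, ← Real.exp_add, ← Real.exp_add]
    refine Real.exp_le_exp.2 (le_trans (le_of_eq ?_) h)
    ring
  have eJ : EG fun w => Real.exp (ph n β X T (ps n ε) θ w) := by
    simpa using (lip_ph (n := n) (β := β) hX T (ps n ε) θ).exp_eg 1
  have ee : EG fun w : Pair n ⊕ Pair n → ℝ =>
      gibbs n β (GG T w) 1 * Real.exp (x * freeEnergy n β (GG T w)) *
      Real.exp ((freeEnergy n β (GG T w) - Fp n β (fun σ => -θ * ps n ε σ) (GG T w)) -
      x * freeEnergy n β (GG T w) - a * (Sm n (w1 w) + 2 * n)) := by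
    refine EG.mono eJ (eq.meas.mul (Real.measurable_exp.comp et.meas)) fun w => ?_
    rw [abs_of_nonneg (mul_nonneg (mul_nonneg (gibbs_nonneg β _ 1) (Real.exp_pos _).le)
      (Real.exp_pos _).le), abs_of_nonneg (Real.exp_pos _).le]
    exact hle w
  have hqi : ∫ w, gibbs n β (GG T w) 1 * Real.exp (x * freeEnergy n β (GG T w))
      ∂(gI (Pair n ⊕ Pair n)) = ∫ g, gibbs n β g 1 * Real.exp (x * freeEnergy n β g)
      ∂(disorder n) := int_GG (eg_q0 x) h0 h1
  have hq1 := int_q0 (n := n) (β := β) x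
  obtain ⟨q, hqd⟩ : ∃ q, q = ∫ g, gibbs n β g 1 * Real.exp (x * freeEnergy n β g)
    ∂(disorder n) := ⟨_, rfl⟩
  rw [← hqd] at hqi hq1
  have hq0 : 0 < q := by
    by_contra hc
    have := mul_nonpos_of_nonneg_of_nonpos h2n.le (not_lt.1 hc)
    linarith
  have hJ := jensen_tilt eq (fun w => mul_nonneg (gibbs_nonneg β _ 1) (Real.exp_pos _).le)
    (by rw [hqi]; exact hq0) et ee
  rw [hqi] at hJ
  have hJ2 := hJ.trans (integral_mono ee.integrable eJ.integrable hle)
  -- the exponent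
  have eF := eg_FG (n := n) (β := β) T
  have egapG : EG fun w : Pair n ⊕ Pair n → ℝ => freeEnergy n β (GG T w) -
      Fp n β (fun σ => -θ * ps n ε σ) (GG T w) := eF.sub (eg_GG (lip_Fp _).eg T)
  have hT : ∫ w, gibbs n β (GG T w) 1 * Real.exp (x * freeEnergy n β (GG T w)) *
      ((freeEnergy n β (GG T w) - Fp n β (fun σ => -θ * ps n ε σ) (GG T w)) -
      x * freeEnergy n β (GG T w) - a * (Sm n (w1 w) + 2 * n)) ∂(gI (Pair n ⊕ Pair n)) =
      (∫ w, gibbs n β (GG T w) 1 * Real.exp (x * freeEnergy n β (GG T w)) *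
      (freeEnergy n β (GG T w) - Fp n β (fun σ => -θ * ps n ε σ) (GG T w))
        ∂(gI (Pair n ⊕ Pair n))) -
      x * (∫ w, gibbs n β (GG T w) 1 * (Real.exp (x * freeEnergy n β (GG T w)) *
        freeEnergy n β (GG T w)) ∂(gI (Pair n ⊕ Pair n))) -
      a * ((∫ w, gibbs n β (GG T w) 1 * (Real.exp (x * freeEnergy n β (GG T w)) *
        Sm n (w1 w)) ∂(gI (Pair n ⊕ Pair n))) + 2 * n * q) := by
    have e1 : ∀ w : Pair n ⊕ Pair n → ℝ, gibbs n β (GG T w) 1 *
        Real.exp (x * freeEnergy n β (GG T w)) *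
      ((freeEnergy n β (GG T w) - Fp n β (fun σ => -θ * ps n ε σ) (GG T w)) -
      x * freeEnergy n β (GG T w) - a * (Sm n (w1 w) + 2 * n)) =
      (gibbs n β (GG T w) 1 * Real.exp (x * freeEnergy n β (GG T w)) *
      (freeEnergy n β (GG T w) - Fp n β (fun σ => -θ * ps n ε σ) (GG T w)) -
      x * (gibbs n β (GG T w) 1 * (Real.exp (x * freeEnergy n β (GG T w)) *
        freeEnergy n β (GG T w)))) - a * (gibbs n β (GG T w) 1 *
        (Real.exp (x * freeEnergy n β (GG T w)) * Sm n (w1 w)) +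
        2 * n * (gibbs n β (GG T w) 1 * Real.exp (x * freeEnergy n β (GG T w)))) := by
      intro w; ring
    have i1 := eq.mul egapG
    have i2 := ((eg_gGG (n := n) (β := β) T 1).mul ((eg_exG (β := β) x T).mul eF)).const_mul x
    have i3 := (eg_gGG (n := n) (β := β) T 1).mul ((eg_exG (β := β) x T).mul eg_Sw)
    have i4 := eq.const_mul (2 * n)
    simp_rw [e1]
    rw [integral_sub (i1.sub i2).integrable ((i3.add i4).const_mul a).integrable,
      integral_sub i1.integrable i2.integrable, integral_const_mul, integral_const_mul,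
      integral_add i3.integrable i4.integrable, integral_const_mul, hqi]
  have hA1 : ∫ w, gibbs n β (GG T w) 1 * Real.exp (x * freeEnergy n β (GG T w)) *
      (freeEnergy n β (GG T w) - Fp n β (fun σ => -θ * ps n ε σ) (GG T w))
        ∂(gI (Pair n ⊕ Pair n)) = q * EY n β x ε θ := by
    rw [int_GG (f := fun g => gibbs n β g 1 * Real.exp (x * freeEnergy n β g) *
      (freeEnergy n β g - Fp n β (fun σ => -θ * ps n ε σ) g))
      ((eg_q0 x).mul (eg_free.sub (lip_Fp _).eg)) h0 h1]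
    unfold EY
    rw [← hq1]
    field_simp
  have hA2 : 2 ^ n * ∫ w, gibbs n β (GG T w) 1 * (Real.exp (x * freeEnergy n β (GG T w)) *
        freeEnergy n β (GG T w)) ∂(gI (Pair n ⊕ Pair n)) = Zx n β x * EF n β x := by
    have h := gauge_gen (μ := gI (Pair n ⊕ Pair n)) (fl := fl2) mp_fl2
      (f := fun σ w => gibbs n β (GG T w) σ * (Real.exp (x * freeEnergy n β (GG T w)) *
        freeEnergy n β (GG T w)))
      (fun s w => by rw [GG_fl2, free_flip, gibbs_flip, mul_one])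
      (fun σ => ((eg_gGG T σ).mul ((eg_exG x T).mul eF)).integrable)
    rw [← h]
    simp_rw [← Finset.sum_mul, sum_gibbs, one_mul]
    rw [int_GG (f := fun g => Real.exp (x * freeEnergy n β g) * freeEnergy n β g)
      ((eg_ex x).mul eg_free) h0 h1]
    unfold EF
    rw [mul_div_cancel₀ _ hZ.ne']
  have hA3 : 2 ^ n * ∫ w, gibbs n β (GG T w) 1 * (Real.exp (x * freeEnergy n β (GG T w)) *
        Sm n (w1 w)) ∂(gI (Pair n ⊕ Pair n)) = Zx n β x * ES n β x T := by
    have h := gauge_gen (μ := gI (Pair n ⊕ Pair n)) (fl := fl2) mp_fl2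
      (f := fun σ w => gibbs n β (GG T w) σ * (Real.exp (x * freeEnergy n β (GG T w)) *
        Sm n (w1 w)))
      (fun s w => by rw [GG_fl2, free_flip, gibbs_flip, mul_one, w1_fl2, Sm_flip])
      (fun σ => ((eg_gGG T σ).mul ((eg_exG x T).mul eg_Sw)).integrable)
    rw [← h]
    simp_rw [← Finset.sum_mul, sum_gibbs, one_mul]
    unfold ES
    rw [mul_div_cancel₀ _ hZ.ne']
  rw [hT, hA1] at hJ2
  obtain ⟨B, hB⟩ : ∃ B, B = ∫ w, gibbs n β (GG T w) 1 *
    (Real.exp (x * freeEnergy n β (GG T w)) * freeEnergy n β (GG T w))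
    ∂(gI (Pair n ⊕ Pair n)) := ⟨_, rfl⟩
  obtain ⟨C, hC⟩ : ∃ C, C = ∫ w, gibbs n β (GG T w) 1 *
    (Real.exp (x * freeEnergy n β (GG T w)) * Sm n (w1 w))
    ∂(gI (Pair n ⊕ Pair n)) := ⟨_, rfl⟩
  rw [← hB] at hJ2 hA2
  rw [← hC] at hJ2 hA3
  have eB : B = q * EF n β x := by
    have h5 : 2 ^ n * B = 2 ^ n * (q * EF n β x) := by rw [hA2, ← hq1]; ring
    exact mul_left_cancel₀ h2n.ne' h5
  have eC : C = q * ES n β x T := by
    have h5 : 2 ^ n * C = 2 ^ n * (q * ES n β x T) := by rw [hA3, ← hq1]; ring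
    exact mul_left_cancel₀ h2n.ne' h5
  have e9 : (q * EY n β x ε θ - x * B - a * (C + 2 * n * q)) / q =
      EY n β x ε θ - x * EF n β x - a * (ES n β x T + 2 * n) := by
    rw [eB, eC]
    field_simp
  rw [e9] at hJ2
  have h6 := mul_le_mul_of_nonneg_left hJ2 h2n.le
  rw [← mul_assoc, hq1] at h6
  have h7 := Real.log_le_log (mul_pos hZ (Real.exp_pos _)) h6
  rw [Real.log_mul hZ.ne' (Real.exp_pos _).ne', Real.log_exp, log_Zx] at h7
  linarith

/-- **The core inequality.** -/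
theorem core : Core := by
  intro n β x x' X T ε θ θ1 hn hβ hx hx' hx'1 hX hX1 h0 h1 hXT hε hθ1 hθ hP
  have hθ0 : 0 < θ := hθ1.trans hθ
  have h2n : (0 : ℝ) < 2 ^ n := by positivity
  -- concavity
  have hc := ph_logconc n β hX hX1 T (ps n ε)
  have eJ : ∀ θ, EG fun w => Real.exp (ph n β X T (ps n ε) θ w) := fun θ => by
    simpa using (lip_ph (n := n) (β := β) hX T (ps n ε) θ).exp_eg 1
  have pJ : ∀ θ, 0 < ∫ w, Real.exp (ph n β X T (ps n ε) θ w) ∂(gI (Pair n ⊕ Pair n)) :=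
    fun θ => integral_exp_pos (eJ θ).integrable
  have hl0 : 0 ≤ θ1 / θ := by positivity
  have hl1 : θ1 / θ ≤ 1 := by rw [div_le_one hθ0]; exact hθ.le
  have h2 := hc.2 (mem_univ (0 : ℝ)) (mem_univ θ) (by linarith : 0 ≤ 1 - θ1 / θ) hl0 (by ring)
  simp only [smul_eq_mul, mul_zero, zero_add] at h2
  have e1 : θ1 / θ * θ = θ1 := by field_simp
  rw [e1] at h2
  obtain ⟨Φ, hΦ⟩ : ∃ Φ : ℝ → ℝ, ∀ θ, Φ θ = Real.log (2 ^ n *
      ∫ w, Real.exp (ph n β X T (ps n ε) θ w) ∂(gI (Pair n ⊕ Pair n))) := ⟨_, fun θ => rfl⟩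
  have hΦ' : ∀ θ, Φ θ = Real.log (2 ^ n) +
      Real.log (∫ w, Real.exp (ph n β X T (ps n ε) θ w) ∂(gI (Pair n ⊕ Pair n))) := fun θ => by
    rw [hΦ, Real.log_mul h2n.ne' (pJ θ).ne']
  have hΦ0 : Φ 0 = 0 := by
    rw [hΦ, J_zero hX, Real.log_one]
  have h3 : θ1 / θ * Φ θ ≤ Φ θ1 := by
    have e2 := hΦ' 0
    rw [hΦ0] at e2
    have e3 : Real.log (∫ w, Real.exp (ph n β X T (ps n ε) 0 w)
      ∂(gI (Pair n ⊕ Pair n))) = -Real.log (2 ^ n) := by linarith
    rw [e3] at h2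
    rw [hΦ' θ, hΦ' θ1]
    nlinarith [h2]
  -- the two bounds
  have h4 := J_upper (n := n) (β := β) (T := T) (ε := ε) hX hX1 hθ1
  have h5 := J_lower (x := x) (ε := ε) (θ := θ) hn hβ hX h0 h1 hXT
  rw [← hΦ] at h5
  have h6 : Φ θ1 ≤ (Real.exp θ1 - 1) * (1 - X + X * Mx n β X T ε) := by
    rw [hΦ]
    have h7 := Real.log_le_log (mul_pos h2n (pJ θ1)) h4
    refine h7.trans ?_
    have h8 := Real.log_le_sub_one_of_pos ((mul_pos h2n (pJ θ1)).trans_le h4)
    linarith
  have h9 := EY_ge (n := n) (β := β) hx' hx'1 hP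
  have h10 := EF_le (n := n) (β := β) x
  have h11 := ES_le (n := n) (β := β) hn x h0 h1
  have ha : 0 ≤ X * β * √T := by positivity
  obtain ⟨a, had⟩ : ∃ a, a = X * β * √T := ⟨_, rfl⟩
  rw [← had] at ha h5 ⊢
  obtain ⟨K, hK⟩ : ∃ K, K = Lg n β (2 * x) - 2 * Lg n β x := ⟨_, rfl⟩
  rw [← hK]
  have h12 : θ - Real.log 2 / x' - K - a * (4 * n + K) ≤ Φ θ := by
    have h13 : ES n β x T + 2 * n ≤ 4 * n + K := by rw [hK]; linarith
    have h14 := mul_le_mul_of_nonneg_left h13 ha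
    have h15 : x * EF n β x - Lg n β x ≤ K := by rw [hK]; linarith
    linarith
  have hE : 0 < Real.exp θ1 - 1 := by linarith [Real.add_one_lt_exp hθ1.ne']
  have h16 := (mul_le_mul_of_nonneg_left h12 hl0).trans (h3.trans h6)
  have h17 : θ1 / (Real.exp θ1 - 1) *
      ((θ - Real.log 2 / x' - K - a * (4 * n + K)) / θ) =
      (θ1 / θ * (θ - Real.log 2 / x' - K - a * (4 * n + K))) / (Real.exp θ1 - 1) := by
    field_simp
  rw [h17]
  have h18 : (θ1 / θ * (θ - Real.log 2 / x' - K - a * (4 * n + K))) / (Real.exp θ1 - 1) ≤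
      1 - X + X * Mx n β X T ε := by
    rw [div_le_iff₀ hE]
    linarith
  linarith

end Vale.Agent.P146.H326.St
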