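import Vale.Agent.P146.H863.GumLC
import Vale.Agent.P146.H767.Glue

/-!
# P146: the start of the descent

The objects: the penalised free energy, the law of the spins given the disorder at the time `1-T`
under the profile (exponent `0` before `1-T`, exponent `X` after), and the mean `Mx` of the
indicator `|R| > ε` for two replicas with the same past.
-/

open MeasureTheory ProbabilityTheory

namespace Vale.Agent.P146.H326.St

open Vale.Agent.P146.H605 Vale.Agent.P146.H605.Gauge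

/-- `log ∑ exp (β H_σ + w σ)` -/
noncomputable def Fp (n : ℕ) (β : ℝ) (w : (Fin n → ℤˣ) → ℝ) (g : Pair n → ℝ) : ℝ :=
  Real.log (∑ σ : Fin n → ℤˣ, Real.exp (β * hamiltonian n g σ + w σ))

/-- A smooth maximum of `|H_σ|`. -/
noncomputable def Sm (n : ℕ) (g : Pair n → ℝ) : ℝ :=
  Real.log (∑ σ : Fin n → ℤˣ, (Real.exp (hamiltonian n g σ) + Real.exp (-hamiltonian n g σ)))

/-- `log E exp (y F)` -/
noncomputable def Lg (n : ℕ) (β y : ℝ) : ℝ :=
  Real.log (∫ g, Real.exp (y * freeEnergy n β g) ∂(disorder n))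

/-- The law of the spins given the past `z`. -/
noncomputable def pz (n : ℕ) (β X T : ℝ) (z : Pair n → ℝ) (σ : Fin n → ℤˣ) : ℝ :=
  (∫ g, Real.exp (X * freeEnergy n β (√(1 - T) • z + √T • g)) *
      gibbs n β (√(1 - T) • z + √T • g) σ ∂(disorder n)) /
    ∫ g, Real.exp (X * freeEnergy n β (√(1 - T) • z + √T • g)) ∂(disorder n)

/-- The probability of `|R| > ε` for two replicas with the same past. -/
noncomputable def Mx (n : ℕ) (β X T ε : ℝ) : ℝ :=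
  ∫ z, ∑ σ : Fin n → ℤˣ, ∑ τ : Fin n → ℤˣ, (if ε < |overlap n σ τ| then (1 : ℝ) else 0) *
    pz n β X T z σ * pz n β X T z τ ∂(disorder n)

/-- `E_x ⟨ P(|R(σ,·)| ≤ ε) ^ x' ⟩_σ` -/
noncomputable def P2 (n : ℕ) (β x x' ε : ℝ) : ℝ :=
  (∫ g, Real.exp (x * freeEnergy n β g) * ∑ σ : Fin n → ℤˣ, gibbs n β g σ *
    (∑ τ : Fin n → ℤˣ, (if |overlap n σ τ| ≤ ε then (1 : ℝ) else 0) * gibbs n β g τ) ^ x'
      ∂(disorder n)) / ∫ g, Real.exp (x * freeEnergy n β g) ∂(disorder n)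

/-- Comparison (row of 461). -/
def Cmp : Prop := ∀ (n : ℕ) (β x x' ε : ℝ), 1 ≤ n → 0 < x' → x' ≤ x → x ≤ 1 → 0 ≤ ε →
  P2 n β x x' ε ≤
    Real.exp (β ^ 2 * x' * n * ε ^ 2 / 2 + Lg n β (x - x') + Lg n β x' - Lg n β x)

/-- The core inequality (row of 326). -/
def Core : Prop := ∀ (n : ℕ) (β x x' X T ε θ θ1 : ℝ), 1 ≤ n → 0 < β → 0 < x → 0 < x' → x' ≤ 1 →
  0 < X → X ≤ 1 → 0 ≤ T → T ≤ 1 → X * β * √T ≤ 1 → 0 ≤ ε → 0 < θ1 → θ1 < θ →
  P2 n β x x' ε ≤ Real.exp (-(x' * θ)) →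
  X * (1 - Mx n β X T ε) ≤ 1 - θ1 / (Real.exp θ1 - 1) *
    ((θ - Real.log 2 / x' - (Lg n β (2 * x) - 2 * Lg n β x) -
      X * β * √T * (4 * n + (Lg n β (2 * x) - 2 * Lg n β x))) / θ)

end Vale.Agent.P146.H326.St
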