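import Vale.Agent.P146.H326.Mcol

/-!
Plan R1, block C: the touches. The effect of averaging the row of `b'` on the column of `b`, and
its sum over the pairs of sites.
-/

open MeasureTheory ProbabilityTheory

namespace Vale.Agent.P146.H326

open Vale.Agent.P157.Lv Vale.Agent.P146.H712 Vale.Agent.P146.H325 Vale.Agent.P146.H332
  Vale.Agent.P146.R1C Vale.Agent.P146.R1

set_option linter.unusedSectionVars false

variable {n : ℕ} {k x s : ℝ}

lemma sum_lp (c : Fin 4 → ℝ) (R : Finset (Pair n)) (g : Pair n → ℝ) {s : ℝ}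
    (hcs : c 0 ^ 2 + c 1 ^ 2 + c 2 ^ 2 + c 3 ^ 2 = s) :
    ∑ j ∈ lf R, (c (bl j) * g (bs j)) ^ 2 = s * ∑ e ∈ R, g e ^ 2 := by
  rw [sum_lp_sq, hcs]

/-- the rate of the row of `b'` on the column of `b` -/
noncomputable def tch (k x s : ℝ) (c : Fin 4 → ℝ) (b b' : Fin n) (w : K4 (Pair n) → ℝ) : ℝ :=
  ∑ e ∈ row b', ∑ i, DC k x s e (H712.lp c w) i b ^ 2

/-- the total rate -/
noncomputable def rat (k x s : ℝ) (c : Fin 4 → ℝ) (w : K4 (Pair n) → ℝ) : ℝ :=
  ∑ e : Pair n, fr (DC k x s e (H712.lp c w))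

lemma tch_nonneg (c : Fin 4 → ℝ) (b b' : Fin n) (w : K4 (Pair n) → ℝ) :
    0 ≤ tch k x s c b b' w :=
  Finset.sum_nonneg fun _ _ => Finset.sum_nonneg fun _ _ => sq_nonneg _

lemma eg_tch (hx : 0 ≤ x) (c : Fin 4 → ℝ) (b b' : Fin n) : EG (tch k x s c b b') :=
  EG.sum _ fun e _ => EG.sum _ fun i _ => (eg_lp c (eg_DC hx e i b)).pow 2

lemma eg_rat (hx : 0 ≤ x) (c : Fin 4 → ℝ) : EG (rat (n := n) k x s c) := by
  unfold rat fr
  exact EG.sum _ fun e _ => EG.sum _ fun i _ => EG.sum _ fun j _ =>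
    (eg_lp c (eg_DC hx e i j)).pow 2

/-- the rates of the pairs of sites -/
lemma sum_tch (c : Fin 4 → ℝ) (w : K4 (Pair n) → ℝ) :
    ∑ b : Fin n, ∑ b' ∈ Finset.univ.erase b, tch k x s c b b' w ≤ 2 * rat k x s c w := by
  have h1 := rate_pairs (k := k) (x := x) (s := s) (H712.lp c w)
  unfold rat
  rw [← h1]
  refine Finset.sum_le_sum fun b _ => ?_
  exact Finset.sum_le_sum_of_subset_of_nonneg (Finset.erase_subset _ _)
    fun b' _ _ => tch_nonneg c b b' w

/-- **Touches**: averaging the row of `b'`. -/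
theorem touch (hx : 0 ≤ x) {c : Fin 4 → ℝ}
    (hcs : c 0 ^ 2 + c 1 ^ 2 + c 2 ^ 2 + c 3 ^ 2 = s) {b b' : Fin n}
    {φ : (K4 (Pair n) → ℝ) → ℝ} (hφ : EG φ) (h0 : ∀ w, 0 ≤ φ w) (hi : Ind (lf (row b')) φ) :
    ∫ w, φ w * ∑ i, (AA k x s (H712.lp c w) i b -
        Av (lf (row b')) (fun w => AA k x s (H712.lp c w) i b) w) ^ 2 ∂(gI (K4 (Pair n))) ≤
      s * ∫ w, φ w * tch k x s c b b' w ∂(gI (K4 (Pair n))) := by
  have eA : ∀ i, EG fun w => AA k x s (H712.lp c w) i b := fun i => eg_lp c (eg_AA' i b)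
  have eD : ∀ i (j : K4 (Pair n)), EG fun w => c (bl j) * DC k x s (bs j) (H712.lp c w) i b :=
    fun i j => (eg_lp c (eg_DC hx (bs j) i b)).const_mul _
  have h1 : ∀ i, ∫ w, φ w * (AA k x s (H712.lp c w) i b -
        Av (lf (row b')) (fun w => AA k x s (H712.lp c w) i b) w) ^ 2 ∂(gI (K4 (Pair n))) ≤
      ∫ w, φ w * ∑ j ∈ lf (row b'), (c (bl j) * DC k x s (bs j) (H712.lp c w) i b) ^ 2
        ∂(gI (K4 (Pair n))) := fun i =>
    weighted_poincare hφ hi h0 (eA i) (fun j _ => pd_lp c (pd_AA (bs j) i b)) fun j _ => eD i j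
  have e1 : ∀ w, φ w * ∑ i, (AA k x s (H712.lp c w) i b -
        Av (lf (row b')) (fun w => AA k x s (H712.lp c w) i b) w) ^ 2 =
      ∑ i, φ w * (AA k x s (H712.lp c w) i b -
        Av (lf (row b')) (fun w => AA k x s (H712.lp c w) i b) w) ^ 2 := fun w =>
    Finset.mul_sum _ _ _
  simp only [e1]
  rw [integral_finsetSum _ fun i _ =>
    (hφ.mul (((eA i).sub (eg_Av _ (eA i))).pow 2)).integrable]
  refine (Finset.sum_le_sum fun i _ => h1 i).trans (le_of_eq ?_)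
  rw [← integral_const_mul, ← integral_finsetSum _ fun i _ =>
    (hφ.mul (EG.sum _ fun j _ => (eD i j).pow 2)).integrable]
  refine integral_congr_ae (Filter.Eventually.of_forall fun w => ?_)
  simp only
  have e2 : ∀ i, ∑ j ∈ lf (row b'), (c (bl j) * DC k x s (bs j) (H712.lp c w) i b) ^ 2 =
      s * ∑ e ∈ row b', DC k x s e (H712.lp c w) i b ^ 2 := fun i =>
    sum_lp c (row b') (fun e => DC k x s e (H712.lp c w) i b) hcs
  simp only [e2]
  rw [← Finset.mul_sum, ← Finset.mul_sum, Finset.sum_comm]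
  unfold tch
  ring

/-! ### bounds of the derivative -/

lemma abs_DC (hx : 0 ≤ x) (hx1 : x ≤ 1) (e : Pair n) (z : Pair n → ℝ) (i j : Fin n) :
    |DC k x s e z i j| ≤ 3 * |k| := by
  have a1 : ∀ u, |av k SkS (pr i j) u| ≤ 1 := abs_av_pr i j
  have a2 : ∀ u, |av k SkS (SkS e) u| ≤ 1 := fun u => abs_av_pr e.1.1 e.1.2 u
  have g1 : EG (av k (SkS (n := n)) (pr i j)) := eg_av k SkS _
  have g2 : EG (av k (SkS (n := n)) (SkS e)) := eg_av k SkS _
  have g3 : EG (av k (SkS (n := n)) fun σ => pr i j σ * SkS e σ) := eg_av k SkS _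
  have e1 : EG (av' k (SkS (n := n)) x (pr i j) e) := by
    unfold av'
    exact (g3.sub ((g1.mul g2).const_mul _)).const_mul _
  have e2 : EG (one' k (SkS (n := n)) x e) := by
    unfold one'
    exact g2.const_mul _
  have k0 := abs_nonneg k
  have h1 : |RR k SkS x (cf s) (av' k SkS x (pr i j) e) z| ≤ 2 * |k| := by
    refine abs_RR_le k SkS x e1 (fun u => ?_) _ _
    unfold av'
    have b1 : |av k SkS (fun σ => pr i j σ * SkS e σ) u| ≤ 1 := by
      refine abs_av_le k SkS (fun σ => ?_) u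
      rw [abs_mul, abs_pr, one_mul]
      exact (abs_pr e.1.1 e.1.2 σ).le
    have b2 : |av k SkS (pr i j) u * av k SkS (SkS e) u| ≤ 1 := by
      rw [abs_mul]
      exact mul_le_one₀ (a1 u) (abs_nonneg _) (a2 u)
    rw [abs_mul, mul_comm]
    refine mul_le_mul_of_nonneg_right ?_ k0
    rw [abs_le] at b1 b2 ⊢
    constructor <;> nlinarith
  have h2 : |RR k SkS x (cf s) (one' k SkS x e) z| ≤ |k| := by
    refine abs_RR_le k SkS x e2 (fun u => ?_) _ _
    unfold one'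
    rw [abs_mul, abs_mul, abs_of_nonneg hx]
    have := a2 u
    have h3 : |k| * x ≤ |k| := mul_le_of_le_one_right k0 hx1
    calc |k| * x * |av k SkS (SkS e) u| ≤ |k| * x * 1 :=
          mul_le_mul_of_nonneg_left this (by positivity)
      _ ≤ |k| := by linarith
  have h4 : |RR k SkS x (cf s) (av k SkS (pr i j)) z| ≤ 1 := abs_AA s z i j
  show |RR k SkS x (cf s) (av' k SkS x (pr i j) e) z -
    RR k SkS x (cf s) (av k SkS (pr i j)) z * RR k SkS x (cf s) (one' k SkS x e) z| ≤ _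
  refine (abs_sub _ _).trans ?_
  rw [abs_mul]
  have h5 := mul_le_mul h4 h2 (abs_nonneg _) zero_le_one
  linarith

lemma DC_sq_le (hx : 0 ≤ x) (hx1 : x ≤ 1) (e : Pair n) (z : Pair n → ℝ) (i j : Fin n) :
    DC k x s e z i j ^ 2 ≤ 9 * k ^ 2 := by
  have h1 := abs_DC (k := k) (s := s) hx hx1 e z i j
  have h2 := pow_le_pow_left₀ (abs_nonneg _) h1 2
  rw [sq_abs, mul_pow, sq_abs] at h2
  linarith

lemma card_row_le (b : Fin n) : ((row b).card : ℝ) ≤ n := by
  have h := sum_row (n := n) b (fun _ => (1 : ℝ))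
  simp only [Finset.sum_const, nsmul_eq_mul, mul_one] at h
  rw [h]
  have h2 := Finset.card_le_univ (Finset.univ.erase b)
  rw [Fintype.card_fin] at h2
  exact_mod_cast h2

lemma tch_le (hx : 0 ≤ x) (hx1 : x ≤ 1) (c : Fin 4 → ℝ) (b b' : Fin n)
    (w : K4 (Pair n) → ℝ) : tch k x s c b b' w ≤ 9 * k ^ 2 * n ^ 2 := by
  have h1 : ∀ e ∈ row b', ∑ i, DC k x s e (H712.lp c w) i b ^ 2 ≤ n * (9 * k ^ 2) := by
    intro e _
    refine (Finset.sum_le_sum fun i _ => DC_sq_le hx hx1 e _ i b).trans ?_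
    rw [Finset.sum_const, Finset.card_univ, Fintype.card_fin, nsmul_eq_mul]
  refine (Finset.sum_le_sum h1).trans ?_
  rw [Finset.sum_const, nsmul_eq_mul]
  have h2 := card_row_le b'
  have h3 : (0 : ℝ) ≤ n * (9 * k ^ 2) := by positivity
  have h4 := mul_le_mul_of_nonneg_right h2 h3
  linarith

lemma fr_AA_le (z : Pair n → ℝ) : fr (AA k x s z) ≤ n ^ 2 := by
  have h1 : ∀ i j : Fin n, AA k x s z i j ^ 2 ≤ 1 := fun i j => by
    have h := abs_AA (k := k) (x := x) s z i j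
    rw [← sq_abs]
    exact pow_le_one₀ (abs_nonneg _) h
  unfold fr
  refine (Finset.sum_le_sum fun i _ => Finset.sum_le_sum fun j _ => h1 i j).trans ?_
  simp only [Finset.sum_const, Finset.card_univ, Fintype.card_fin, nsmul_eq_mul]
  exact le_of_eq (by ring)

end Vale.Agent.P146.H326
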